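import Vale.Agent.P218N.G.Tube
import Vale.Agent.P218.H313.Near

/-! The interface of the flow part: families of approximate shrinkers with multipliers
(`Model`) and strong compactness of normalised heights (`SC`). -/

open MeasureTheory Set Filter Topology Metric
open scoped ENNReal NNReal RealInnerProductSpace

namespace Vale.Agent.P218N.G

open Vale.Agent.P218 Vale.Agent.P218.H313

set_option linter.unusedSectionVars false
set_option linter.unusedVariables false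

variable {E : Type*} [NormedAddCommGroup E] [InnerProductSpace ℝ E] [FiniteDimensional ℝ E]
  [MeasurableSpace E] [BorelSpace E]

/-- Hausdorff measure on the zero set of `W` -/
noncomputable def sig (m : ℕ) (W : E → ℝ) : Measure E :=
  (μH[m] : Measure E).restrict {x | W x = 0}

/-- local `C²` convergence of functions along a filter -/
def C2Lim {ι : Type*} (l : Filter ι) (Wi : ι → E → ℝ) (W : E → ℝ) : Prop :=
  ∀ R ε : ℝ, 0 < ε → ∀ᶠ i in l, ∀ x : E, ‖x‖ ≤ R → |Wi i x - W x| ≤ ε ∧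
    ‖grad (Wi i) x - grad W x‖ ≤ ε ∧ ‖fderiv ℝ (grad (Wi i)) x - fderiv ℝ (grad W) x‖ ≤ ε

lemma C2Lim.comp {ι ι' : Type*} {l : Filter ι} {l' : Filter ι'} {Wi : ι → E → ℝ} {W : E → ℝ}
    (h : C2Lim l Wi W) {a : ι' → ι} (ha : Tendsto a l' l) : C2Lim l' (fun i => Wi (a i)) W :=
  fun R ε hε => ha.eventually (h R ε hε)

variable {P : Type*} [NormedAddCommGroup P] [NormedSpace ℝ P] {J : Type*} [Fintype J]

/-- A family of tube functions `V a` of approximate shrinkers `{V a = 0}`, strictly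
differentiable at `a = 0` with derivative `V'`; up to small errors the shrinker quantity is
`∑ lam a j * psi j`; solutions of the Jacobi equation with right hand side in the span of the
`psi j` are velocities of the family; the Gaussian area satisfies a Lojasiewicz inequality. -/
structure Model (m : ℕ) (V : P → E → ℝ) (V' : P →ₗ[ℝ] (E → ℝ)) (psi : J → E → ℝ)
    (lam : P → J → ℝ) (c K : ℝ) (q : ℕ) (β : ℝ) : Prop where
  tube : ∀ᶠ a in 𝓝 (0 : P), Tube0 (V a) c K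
  c2 : C2Lim (𝓝 (0 : P)) V (V 0)
  strict : ∀ ε : ℝ, 0 < ε → ∀ᶠ p : P × P in 𝓝 0, ∀ x,
    |V p.2 x - V p.1 x - V' (p.2 - p.1) x| ≤ ε * ‖p.2 - p.1‖ * (1 + ‖x‖) ^ q
  dcont : ∀ b, Continuous (V' b)
  db : ∀ b x, |V' b x| ≤ K * ‖b‖ * (1 + ‖x‖) ^ q
  pcont : ∀ j, Continuous (psi j)
  pb : ∀ j x, |psi j x| ≤ K * (1 + ‖x‖) ^ q
  lam0 : Tendsto lam (𝓝 0) (𝓝 0)
  ric : ∀ ε : ℝ, 0 < ε → ∀ᶠ a in 𝓝 (0 : P), ∀ x, |V a x| < c →
    |ricE (V a) x - ∑ j, lam a j * psi j x| ≤ K * V a x ^ 2 + ε * ‖lam a‖ * (1 + ‖x‖) ^ q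
  indep : ∀ mu : J → ℝ, (∀ x, V 0 x = 0 → ∑ j, mu j * psi j x = 0) → mu = 0
  inj : ∀ b : P, (∀ x, V 0 x = 0 → V' b x = 0) → b = 0
  nd : ∀ (u : E → ℝ) (mu : J → ℝ), AEStronglyMeasurable u (sig m (V 0)) →
    Integrable (fun x => u x ^ 2 * rho x) (sig m (V 0)) →
    (∀ ζ : E → ℝ, ContDiff ℝ (⊤ : ℕ∞) ζ → HasCompactSupport ζ →
      ∫ x, u x * jac (V 0) ζ x * rho x ∂(sig m (V 0))
        = ∑ j, mu j * ∫ x, psi j x * ζ x * rho x ∂(sig m (V 0))) →
    ∃ b, u =ᵐ[sig m (V 0)] V' b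
  beta : 1 < β
  loj : ∀ᶠ a in 𝓝 (0 : P), FA (sig m (V a)) - FA (sig m (V 0)) ≤ K * ‖lam a‖ ^ β

/-- Strong compactness of normalised heights for measures in the class `M` converging to `κ`. -/
def SC (m : ℕ) (M : Set (Measure E)) (κ : Measure E) (W : E → ℝ) (c K : ℝ) (q : ℕ) : Prop :=
  ∀ (U : Ultrafilter ℝ) (N : ℝ → Measure E) (T : ℝ → E → Submodule ℝ E) (H : ℝ → E → E)
    (Wi : ℝ → E → ℝ) (L eps : ℝ → ℝ), Conv U m N T H κ → (∀ᶠ i in (U : Filter ℝ), N i ∈ M) →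
    (∀ᶠ i in (U : Filter ℝ), Tube0 (Wi i) c K) → C2Lim (U : Filter ℝ) Wi W →
    (∀ᶠ i in (U : Filter ℝ), ∀ x, |Wi i x| < c →
      |ricE (Wi i) x| ≤ K * Wi i x ^ 2 + L i * (1 + ‖x‖) ^ q) →
    (∀ᶠ i in (U : Filter ℝ), 0 < eps i) → Tendsto eps U (𝓝 0) →
    Tendsto (fun i => L i / eps i) U (𝓝 0) →
    (∀ᶠ i in (U : Filter ℝ), DD (N i) (Wi i) 0 ≤ eps i ^ 2) →
    Tendsto (fun i => dis (N i) (T i) (H i) / eps i ^ 2) U (𝓝 0) →
    (∀ f : E → ℝ, Continuous f → PB f →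
      Tendsto (fun i => ∫ x, Wi i x / eps i * f x * rho x ∂(N i)) U (𝓝 0)) →
    ∀ χ : E → ℝ, Continuous χ → HasCompactSupport χ →
      Tendsto (fun i => ∫ x, χ x * (Wi i x / eps i) ^ 2 ∂(N i)) U (𝓝 0)

namespace Model

variable {m : ℕ} {V : P → E → ℝ} {V' : P →ₗ[ℝ] (E → ℝ)} {psi : J → E → ℝ}
  {lam : P → J → ℝ} {c K : ℝ} {q : ℕ} {β : ℝ}

lemma tube0 (h : Model m V V' psi lam c K q β) : Tube0 (V 0) c K := h.tube.self_of_nhds

lemma lam_zero (h : Model m V V' psi lam c K q β) : lam 0 = 0 :=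
  tendsto_nhds_unique (tendsto_pure_nhds lam 0) (h.lam0.mono_left (pure_le_nhds 0))

/-- the base point of the family is a shrinker -/
lemma tubeD (h : Model m V V' psi lam c K q β) : TubeD (V 0) c K :=
  h.tube0.tubeD fun x hx => by
    have h1 := (h.ric 1 one_pos).self_of_nhds x hx
    simpa [h.lam_zero] using h1

lemma K_nonneg (h : Model m V V' psi lam c K q β) : 0 ≤ K := h.tube0.K_nonneg

lemma pb_V' (h : Model m V V' psi lam c K q β) (b : P) : PB (V' b) :=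
  PB.of_le (C := K * ‖b‖) (p := q) fun x => h.db b x

lemma pb_psi (h : Model m V V' psi lam c K q β) (j : J) : PB (psi j) :=
  PB.of_le (C := K) (p := q) fun x => h.pb j x

/-- the bound for the sum of the forcing terms -/
lemma abs_sum_le (h : Model m V V' psi lam c K q β) (mu : J → ℝ) (x : E) :
    |∑ j, mu j * psi j x| ≤ Fintype.card J * K * ‖mu‖ * (1 + ‖x‖) ^ q := by
  refine (Finset.abs_sum_le_sum_abs _ _).trans ?_
  have h1 : ∀ j ∈ (Finset.univ : Finset J), |mu j * psi j x| ≤ ‖mu‖ * (K * (1 + ‖x‖) ^ q) := by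
    intro j _
    rw [abs_mul]
    exact mul_le_mul (norm_le_pi_norm mu j) (h.pb j x) (abs_nonneg _) (norm_nonneg _)
  refine (Finset.sum_le_sum h1).trans (le_of_eq ?_)
  simp only [Finset.sum_const, Finset.card_univ, nsmul_eq_mul]
  ring

/-- the shrinker quantity is bounded by the multipliers -/
lemma ric_le (h : Model m V V' psi lam c K q β) :
    ∀ᶠ a in 𝓝 (0 : P), ∀ x, |V a x| < c → |ricE (V a) x|
      ≤ K * V a x ^ 2 + (Fintype.card J * K + 1) * ‖lam a‖ * (1 + ‖x‖) ^ q := by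
  filter_upwards [h.ric 1 one_pos] with a ha x hx
  have h1 := ha x hx
  have h2 := h.abs_sum_le (lam a) x
  have h3 := abs_add_le (ricE (V a) x - ∑ j, lam a j * psi j x) (∑ j, lam a j * psi j x)
  rw [sub_add_cancel] at h3
  nlinarith

end Model

end Vale.Agent.P218N.G
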