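import Vale.Agent.P218N.G.LIArea

/-! Integral slices: integral varifolds, dilations, and the rescaled flow. -/

open MeasureTheory Set Filter Topology Metric
open scoped ENNReal NNReal RealInnerProductSpace Pointwise

namespace Vale.Agent.P218N.G

open Vale.Agent.P214 (IntegralVarifold proj IsApproxTangent weightOf)
open Vale.Agent.P218 Vale.Agent.P218.H313 Vale.Agent.P218.H313.A1
open Vale.Agent.P218.H552 (MC BF NN yy)

set_option linter.unusedSectionVars false
set_option linter.unusedVariables false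

variable {E : Type*} [NormedAddCommGroup E] [InnerProductSpace ℝ E] [FiniteDimensional ℝ E]
  [MeasurableSpace E] [BorelSpace E]
variable {m : ℕ} {μ : Measure E} {T : E → Submodule ℝ E}

lemma IntSl.congr (h : IntSl m μ T) {T' : E → Submodule ℝ E} (hT : ∀ᵐ y ∂μ, T y = T' y) :
    IntSl m μ T' := by
  obtain ⟨θ, h1, h2, h3⟩ := h
  refine ⟨θ, h1, ?_, h3⟩
  filter_upwards [h2, hT] with y hy e
  rwa [← e]

/-- the weight of an integral varifold is an integral slice -/
theorem intSl_of_varifold (V : IntegralVarifold m (univ : Set E)) :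
    IntSl m V.weight V.tangent := by
  have hac : V.weight ≪ (μH[m] : Measure E).restrict V.carrier :=
    withDensity_absolutelyContinuous _ _
  have hθ := V.mult_meas.ae_eq_mk
  refine ⟨V.mult_meas.mk V.mult, V.mult_meas.measurable_mk, ?_, fun q B hB hBq => ?_⟩
  · filter_upwards [hac.ae_le (ae_restrict_mem₀ V.carrier_meas), V.tangent_spec, hac.ae_le hθ]
      with y h1 h2 h3
    rw [← h3]
    exact ⟨V.mult_pos y h1, h2⟩
  · unfold IntegralVarifold.weight weightOf
    rw [withDensity_apply _ hB]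
    have h1 : ∫⁻ y in B, (V.mult y : ℝ≥0∞) ∂(μH[m] : Measure E).restrict V.carrier
        = ∫⁻ y in B, (q : ℝ≥0∞) ∂(μH[m] : Measure E).restrict V.carrier := by
      refine lintegral_congr_ae ?_
      filter_upwards [ae_restrict_of_ae hθ, ae_restrict_mem hB] with y h1 h2
      rw [h1, show V.mult_meas.mk V.mult y = q from hBq h2]
    rw [h1, setLIntegral_const]
    gcongr
    exact Measure.restrict_le_self

/-- the restriction of the Hausdorff measure to a set with approximate tangent planes -/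
theorem intSl_restrict {M : Set E}
    (h : ∀ᵐ y ∂(μH[m] : Measure E).restrict M,
      IsApproxTangent m ((μH[m] : Measure E).restrict M) y 1 (T y)) :
    IntSl m ((μH[m] : Measure E).restrict M) T := by
  refine ⟨fun _ => 1, measurable_const, h.mono fun y hy => ⟨le_rfl, hy⟩, fun q B hB hBq => ?_⟩
  rcases B.eq_empty_or_nonempty with rfl | ⟨y, hy⟩
  · simp
  · have : 1 = q := hBq hy
    subst this
    rw [Nat.cast_one, one_mul]
    exact Measure.restrict_le_self B

lemma approxTangent_dil {lam : ℝ} (hl : 0 < lam) (x₀ : E) {x : E} {q : ℕ} {T : Submodule ℝ E}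
    (h : IsApproxTangent m μ x q T) : IsApproxTangent m (dil m lam x₀ μ) (yy lam x₀ x) q T := by
  refine ⟨h.1, fun f hf hfc => ?_⟩
  have h1 := h.2 f hf hfc
  have h2 : Tendsto (fun r : ℝ => r / lam) (𝓝[>] 0) (𝓝[>] 0) := by
    apply tendsto_nhdsWithin_of_tendsto_nhds_of_eventually_within
    · have : Tendsto (fun r : ℝ => r / lam) (𝓝 0) (𝓝 (0 / lam)) :=
        (continuous_id.div_const lam).tendsto 0
      rw [zero_div] at this
      exact this.mono_left nhdsWithin_le_nhds
    · filter_upwards [self_mem_nhdsWithin] with r hr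
      exact div_pos (show 0 < r from hr) hl
  refine (h1.comp h2).congr' ?_
  filter_upwards [self_mem_nhdsWithin] with r hr0
  have hr0' : 0 < r := hr0
  simp only [Function.comp_apply]
  rw [integral_dil hl, div_pow]
  have e : ∀ x' : E, f ((r / lam)⁻¹ • (x' - x)) = f (r⁻¹ • (yy lam x₀ x' - yy lam x₀ x)) := by
    intro x'
    congr 1
    unfold yy
    rw [← smul_sub, sub_sub_sub_cancel_right, smul_smul]
    congr 1
    field_simp
  simp only [e]
  field_simp

/-- invariance under dilations -/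
theorem IntSl.dil (h : IntSl m μ T) {lam : ℝ} (hl : 0 < lam) (x₀ : E) :
    IntSl m (dil m lam x₀ μ) (fun y => T (xx lam x₀ y)) := by
  obtain ⟨θ, h1, h2, h3⟩ := h
  have hxx : Continuous (xx lam x₀) := by unfold xx; fun_prop
  refine ⟨fun y => θ (xx lam x₀ y), h1.comp hxx.measurable, ?_, fun q B hB hBq => ?_⟩
  · refine ae_dil hl x₀ ?_
    filter_upwards [h2] with x hx
    rw [xx_yy hl]
    exact ⟨hx.1, approxTangent_dil hl x₀ hx.2⟩
  · unfold A1.dil
    rw [Measure.smul_apply, (emb_yy hl x₀).map_apply, smul_eq_mul]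
    set B' := (fun x : E => lam • (x - x₀)) ⁻¹' B with hB'
    have k1 := h3 q B' ((emb_yy hl x₀).measurable hB) fun x hx => by
      have : θ (xx lam x₀ (yy lam x₀ x)) ∈ ({q} : Set ℕ) := hBq hx
      rwa [xx_yy hl] at this
    have k2 := hd_le B' (fun x : E => lam • (x - x₀)) id (K := lam⁻¹) (by positivity)
      (fun y _ y' _ => by
        rw [id, id, dist_eq_norm, dist_eq_norm, ← smul_sub, sub_sub_sub_cancel_right, norm_smul,
          Real.norm_of_nonneg hl.le, ← mul_assoc, inv_mul_cancel₀ hl.ne', one_mul]) m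
    rw [image_id] at k2
    have k3 : μH[m] ((fun x : E => lam • (x - x₀)) '' B') ≤ μH[m] B :=
      measure_mono (image_preimage_subset _ _)
    calc ENNReal.ofReal (lam ^ m) * μ B'
        ≤ ENNReal.ofReal (lam ^ m) * (q * (ENNReal.ofReal (lam⁻¹ ^ m) * μH[m] B)) := by
          gcongr
          exact k1.trans (by gcongr; exact k2.trans (by gcongr))
      _ = (ENNReal.ofReal (lam ^ m) * ENNReal.ofReal (lam⁻¹ ^ m)) * (q * μH[m] B) := by ring
      _ = _ := by
          rw [← ENNReal.ofReal_mul (by positivity), ← mul_pow, mul_inv_cancel₀ hl.ne', one_pow,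
            ENNReal.ofReal_one, one_mul]

lemma exists_BF_intSl {μ : ℝ → Measure E} (h : IsIntegralBrakkeFlow m μ) :
    ∃ T H, BF m μ T H ∧ ∀ᵐ t : ℝ, 0 ≤ t → Slice m (μ t) (T t) (H t) ∧ IntSl m (μ t) (T t) := by
  obtain ⟨h1, V, H, h2, -, h3⟩ := h
  refine ⟨fun t => (V t).tangent, H, ⟨fun t ht => ?_, ?_, ?_⟩, ?_⟩
  · have := h1 t ht
    infer_instance
  · rw [ae_restrict_iff' measurableSet_Ici]
    filter_upwards [h2] with t ht ht0
    obtain ⟨e1, e2⟩ := ht ht0
    rw [← e1]
    exact H552.mc_of_isMeanCurvature e2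
  · intro φ hφ hφc hφ0 a b ha hab
    have h4 := h3 (fun p => φ p.1 p.2) hφ hφc (fun p => hφ0 _ _) a b ha hab
    have e : ∀ t, ∫ x, brakkeIntegrand (H t) (fun p : ℝ × E => φ p.1 p.2) t x ∂(μ t)
        = H552.brakkeRHS (μ t) (H t) φ t := by
      intro t
      unfold H552.brakkeRHS brakkeIntegrand
      congr 1
      ext x
      ring
    simp_rw [e] at h4
    exact h4
  · filter_upwards [h2] with t ht ht0
    obtain ⟨e1, e2⟩ := ht ht0
    rw [← e1]
    exact ⟨slice_of_isMeanCurvature e2, intSl_of_varifold (V t)⟩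

/-- **The rescaled flow of an integral Brakke flow is an `RF` with integral slices.** -/
theorem exists_RF' {μ : ℝ → Measure E} (hμ : IsIntegralBrakkeFlow m μ) (h0 : μ 0 univ < ⊤)
    (x₀ : E) {t₀ : ℝ} (ht : 0 < t₀) :
    ∃ (T : ℝ → E → Submodule ℝ E) (H : ℝ → E → E) (s₀ : ℝ),
      RF m (fun s => NN m μ x₀ t₀ (s / 2)) T H s₀ ∧
      ∀ᵐ s : ℝ, s₀ ≤ s → IntSl m (NN m μ x₀ t₀ (s / 2)) (T s) := by
  obtain ⟨T, H, hB, hS⟩ := exists_BF_intSl hμ
  set s₀ : ℝ := Real.log (2 / t₀) with hs₀
  have hti : ∀ s, s₀ ≤ s → t₀ / 2 ≤ ti t₀ s := by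
    intro s hs
    unfold ti
    have h1 : Real.exp (-s) ≤ t₀ / 2 := by
      have h2 : Real.exp (-s) ≤ Real.exp (-s₀) := Real.exp_le_exp.2 (by linarith)
      rw [hs₀, Real.exp_neg (Real.log (2 / t₀)), Real.exp_log (by positivity), inv_div] at h2
      exact h2
    linarith
  have htau : ∀ s, s₀ ≤ s → H552.tau0 t₀ ≤ s / 2 := by
    intro s hs
    unfold H552.tau0
    have h1 : -Real.log t₀ ≤ s₀ := by
      rw [hs₀, Real.log_div (by norm_num) ht.ne']
      have := Real.log_nonneg (show (1 : ℝ) ≤ 2 by norm_num)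
      linarith
    linarith
  refine ⟨fun s y => T (ti t₀ s) (xx (Real.exp (s / 2)) x₀ y),
    fun s y => (Real.exp (s / 2))⁻¹ • H (ti t₀ s) (xx (Real.exp (s / 2)) x₀ y), s₀, ?_, ?_⟩
  swap
  · filter_upwards [ae_time t₀ hS] with s hs hs0
    have h1 := (hs (by linarith [hti s hs0])).2
    rw [NN_half]
    exact h1.dil (Real.exp_pos (s / 2)) x₀
  constructor
  · intro s hs
    exact H552.NN_finite hB h0 x₀ ht (htau s hs)
  · refine ⟨√2 ^ m * ((√t₀)⁻¹ ^ m * (μ 0).real univ), fun s hs => ?_⟩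
    have h1 := H552.gauss_bound hB h0 x₀ ht (k := 2) (by norm_num) (htau s hs)
    have e : ∀ y : E, Real.exp (-‖y‖ ^ 2 / (4 * 2)) = Real.exp (-‖y‖ ^ 2 / 8) := by
      intro y; norm_num
    simp only [e] at h1
    exact h1
  · refine ⟨_, fun s hs x r hr _ => ratio_bound hB h0 x₀ ht (hti s hs) x hr⟩
  · filter_upwards [ae_time t₀ hS] with s hs hs0
    have h1 := (hs (by linarith [hti s hs0])).1
    have h2 := slice_dil h1 (Real.exp_pos (s / 2)) x₀
    rw [NN_half]
    exact h2
  · intro f hf hfc hf0 a b ha hab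
    have hmono := (ti_strictMono t₀).monotone hab
    obtain ⟨h1, h2⟩ := hB.weighted x₀ hf hfc hf0 (a := ti t₀ a) (b := ti t₀ b)
      (by linarith [hti a ha]) hmono (ti_lt _ _)
    have e1 : (fun s => LL (NN m μ x₀ t₀ (s / 2))
        (fun y => T (ti t₀ s) (xx (Real.exp (s / 2)) x₀ y))
        (fun y => (Real.exp (s / 2))⁻¹ • H (ti t₀ s) (xx (Real.exp (s / 2)) x₀ y)) f)
        = fun s => Real.exp (-s) * H552.GG m μ T H x₀ t₀ f (ti t₀ s) := by
      ext s; exact LL_dil x₀ t₀ s f
    have e2 : ∀ s, ∫ x, f x * rho x ∂(NN m μ x₀ t₀ (s / 2)) = H552.JJ m μ x₀ t₀ f (ti t₀ s) := by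
      intro s
      rw [← tim_half, H552.JJ_tim _ _ _ _ (Real.exp_pos _)]
      rfl
    refine ⟨?_, ?_⟩
    · rw [e1]; exact intervalIntegrable_time t₀ hab h1
    · rw [e2, e2, e1]
      rw [integral_time t₀ hab] at h2
      exact h2

end Vale.Agent.P218N.G
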