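import Vale.Agent.P218.H313.Blow

/-! Tube functions with forcing: definitions, pointwise geometry and the basic estimates on one
Gaussian slice. -/

open MeasureTheory Set Filter Topology Metric
open scoped ENNReal NNReal RealInnerProductSpace

namespace Vale.Agent.P218N.G

open Vale.Agent.P214 (IntegralVarifold proj divAlong IsTestField)
open Vale.Agent.P218 Vale.Agent.P218.H313

set_option linter.unusedSectionVars false
set_option linter.unusedVariables false

section tube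

variable {E : Type*} [NormedAddCommGroup E] [InnerProductSpace ℝ E] [FiniteDimensional ℝ E]
variable {m : ℕ} {W f g : E → ℝ} {c K : ℝ}

/-- A function `W` which near its zero set is the signed distance to it, with uniform bounds. -/
structure Tube0 (W : E → ℝ) (c K : ℝ) : Prop where
  cpos : 0 < c
  smooth : ContDiff ℝ 2 W
  b0 : ∀ x, |W x| ≤ K
  b1 : ∀ x, ‖grad W x‖ ≤ K
  b2 : ∀ x, ‖fderiv ℝ (grad W) x‖ ≤ K
  bx : ∀ x, |⟪x, grad W x⟫| ≤ K
  eik : ∀ x, |W x| < c → ‖grad W x‖ = 1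

/-- The shrinker expression of a tube function. -/
noncomputable def ricE (W : E → ℝ) (x : E) : ℝ :=
  tr (fderiv ℝ (grad W) x) - 1 / 2 * ⟪x, grad W x⟫
    + (tr ((fderiv ℝ (grad W) x).comp (fderiv ℝ (grad W) x)) + 1 / 2) * W x

/-- A tube function with forcing `f` up to the error `g`. -/
structure TubeF (W f g : E → ℝ) (c K : ℝ) : Prop extends Tube0 W c K where
  fc : Continuous f
  fb : PB f
  gc : Continuous g
  gb : PB g
  g0 : ∀ x, 0 ≤ g x
  ric : ∀ x, |W x| < c → |ricE W x - f x| ≤ K * W x ^ 2 + g x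

lemma Tube0.of_tubeD (hW : TubeD W c K) : Tube0 W c K :=
  ⟨hW.cpos, hW.smooth, hW.b0, hW.b1, hW.b2, hW.bx, hW.eik⟩

lemma Tube0.tubeD (hW : Tube0 W c K) (h : ∀ x, |W x| < c → |ricE W x| ≤ K * W x ^ 2) :
    TubeD W c K :=
  ⟨hW.cpos, hW.smooth, hW.b0, hW.b1, hW.b2, hW.bx, hW.eik, h⟩

lemma Tube0.K_nonneg (hW : Tube0 W c K) : 0 ≤ K := (abs_nonneg _).trans (hW.b0 0)

lemma Tube0.cont (hW : Tube0 W c K) : Continuous W := hW.smooth.continuous

lemma Tube0.grad_cd (hW : Tube0 W c K) : ContDiff ℝ 1 (grad W) := contDiff_grad_one hW.smooth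

lemma Tube0.pg (hW : Tube0 W c K) : PG W where
  cd := hW.smooth.of_le (by norm_num)
  b0 := PB.of_bound (C := K) fun x => by rw [Real.norm_eq_abs]; exact hW.b0 x
  b1 := PB.of_bound (C := K) fun x => by rw [← norm_grad]; exact hW.b1 x

lemma Tube0.pg_grad (hW : Tube0 W c K) : PG (grad W) where
  cd := hW.grad_cd
  b0 := PB.of_bound (C := K) hW.b1
  b1 := PB.of_bound (C := K) hW.b2

lemma Tube0.diff (hW : Tube0 W c K) (x : E) : DifferentiableAt ℝ W x := hW.pg.diff x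

/-- the shape term `q = |D²W|²` is bounded -/
lemma Tube0.q_le (hW : Tube0 W c K) (x : E) :
    |tr ((fderiv ℝ (grad W) x).comp (fderiv ℝ (grad W) x))| ≤ Module.finrank ℝ E * K ^ 2 := by
  refine (abs_tr_le _).trans ?_
  gcongr
  refine (ContinuousLinearMap.opNorm_comp_le _ _).trans ?_
  have := hW.b2 x
  have h0 := norm_nonneg (fderiv ℝ (grad W) x)
  nlinarith

lemma Tube0.isOpen (hW : Tube0 W c K) : IsOpen {x | |W x| < c} :=
  isOpen_lt hW.smooth.continuous.abs continuous_const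

/-- the Hessian kills the gradient in the tube -/
lemma Tube0.hess_grad (hW : Tube0 W c K) {x : E} (hx : |W x| < c) :
    fderiv ℝ (grad W) x (grad W x) = 0 := by
  have h1 : ContDiff ℝ 1 (grad W) := contDiff_grad_one hW.smooth
  have hd : HasFDerivAt (grad W) (fderiv ℝ (grad W) x) x :=
    (h1.differentiable (by norm_num) x).hasFDerivAt
  have h2 : HasFDerivAt (fun y => ‖grad W y‖ ^ 2)
      (2 • (innerSL ℝ (grad W x)).comp (fderiv ℝ (grad W) x)) x := hd.norm_sq
  have h3 : (fun y => ‖grad W y‖ ^ 2) =ᶠ[𝓝 x] fun _ => 1 := by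
    filter_upwards [hW.isOpen.mem_nhds hx] with y hy
    rw [hW.eik y hy]; norm_num
  have h4 : HasFDerivAt (fun y => ‖grad W y‖ ^ 2) (0 : E →L[ℝ] ℝ) x :=
    (hasFDerivAt_const (1 : ℝ) x).congr_of_eventuallyEq h3
  have h5 := h2.unique h4
  apply ext_inner_left ℝ
  intro v
  rw [inner_zero_right, ← hess_symm hW.smooth]
  have h6 := congrArg (fun L : E →L[ℝ] ℝ => L v) h5
  simp at h6
  rw [real_inner_comm]
  exact h6

theorem Tube0.trace_est (hW : Tube0 W c K) (hE : Module.finrank ℝ E = m + 1) (x : E)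
    (T : Submodule ℝ E) (hT : Module.finrank ℝ T = m) (hx : |W x| < c) :
    |tr ((proj T).comp (fderiv ℝ (grad W) x)) - 1 / 2 * ⟪x, grad W x⟫
      + (tr ((fderiv ℝ (grad W) x).comp (fderiv ℝ (grad W) x)) + 1 / 2) * W x - ricE W x|
      ≤ K * ‖proj T (grad W x)‖ ^ 2 := by
  obtain ⟨n, hn1, hnT, -, hn⟩ := H63.exists_normal hE hT
  have e0 : tr ((proj T).comp (fderiv ℝ (grad W) x))
      = tr (fderiv ℝ (grad W) x) - ⟪fderiv ℝ (grad W) x n, n⟫ := H63.divAlong_normal hn (grad W) x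
  rw [e0]
  unfold ricE
  set g := grad W x with hg
  set B := fderiv ℝ (grad W) x with hB
  have hg1 : ‖g‖ = 1 := hW.eik x hx
  have hBg : B g = 0 := hW.hess_grad hx
  set v := n - ⟪n, g⟫ • g with hv
  have hBv : B n = B v := by rw [hv, map_sub, map_smul, hBg, smul_zero, sub_zero]
  have e2 : ⟪B n, n⟫ = ⟪v, B v⟫ := by
    rw [hBv, hess_symm hW.smooth x v n]
    change ⟪v, B n⟫ = _
    rw [hBv]
  have e3 : ‖proj T g‖ ^ 2 = ‖v‖ ^ 2 := by
    rw [H63.norm_proj_sq hn1 hn, hv, H63.norm_sub_sq' hn1 hg1, hg1]; norm_num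
  have h2 : |⟪B n, n⟫| ≤ K * ‖proj T g‖ ^ 2 := by
    rw [e2, e3]
    refine (abs_real_inner_le_norm _ _).trans ?_
    have h1 : ‖B v‖ ≤ K * ‖v‖ :=
      (B.le_opNorm v).trans (mul_le_mul_of_nonneg_right (hW.b2 x) (norm_nonneg _))
    calc ‖v‖ * ‖B v‖ ≤ ‖v‖ * (K * ‖v‖) := mul_le_mul_of_nonneg_left h1 (norm_nonneg _)
      _ = _ := by ring
  have e4 : tr B - ⟪B n, n⟫ - 1 / 2 * ⟪x, g⟫ + (tr (B.comp B) + 1 / 2) * W x
      - (tr B - 1 / 2 * ⟪x, g⟫ + (tr (B.comp B) + 1 / 2) * W x) = - ⟪B n, n⟫ := by ring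
  rw [e4, abs_neg]
  exact h2

theorem TubeF.trace_est (hW : TubeF W f g c K) (hE : Module.finrank ℝ E = m + 1) (x : E)
    (T : Submodule ℝ E) (hT : Module.finrank ℝ T = m) (hx : |W x| < c) :
    |tr ((proj T).comp (fderiv ℝ (grad W) x)) - 1 / 2 * ⟪x, grad W x⟫
      + (tr ((fderiv ℝ (grad W) x).comp (fderiv ℝ (grad W) x)) + 1 / 2) * W x - f x|
      ≤ K * (W x ^ 2 + ‖proj T (grad W x)‖ ^ 2) + g x := by
  have h1 := hW.toTube0.trace_est hE x T hT hx
  have h2 := hW.ric x hx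
  have h3 := abs_sub_le (tr ((proj T).comp (fderiv ℝ (grad W) x)) - 1 / 2 * ⟪x, grad W x⟫
      + (tr ((fderiv ℝ (grad W) x).comp (fderiv ℝ (grad W) x)) + 1 / 2) * W x) (ricE W x) (f x)
  linarith

theorem Tube0.normal_est (hW : Tube0 W c K) (hE : Module.finrank ℝ E = m + 1) (x : E)
    (T : Submodule ℝ E) (hT : Module.finrank ℝ T = m) (hx : |W x| < c) {φ : E} (hφ : φ ∈ Tᗮ)
    (v : E) :
    |⟪v, φ⟫ - ⟪v, grad W x⟫ * ⟪grad W x, φ⟫| ≤ ‖v‖ * ‖proj T (grad W x)‖ * ‖φ‖ := by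
  obtain ⟨n, hn1, hnT, hnφ, hn⟩ := H63.exists_normal hE hT
  have hg1 : ‖grad W x‖ = 1 := hW.eik x hx
  generalize grad W x = g at hg1 ⊢
  set c := ⟪n, φ⟫ with hc
  have hφ' : φ = c • n := hnφ φ hφ
  have hcφ : |c| = ‖φ‖ := by rw [hφ', norm_smul, hn1, mul_one, Real.norm_eq_abs]
  have e1 : ⟪v, φ⟫ - ⟪v, g⟫ * ⟪g, φ⟫ = c * ⟪v, n - ⟪n, g⟫ • g⟫ := by
    rw [hφ']
    simp only [real_inner_smul_right, inner_sub_right]
    rw [real_inner_comm n g]; ring
  have e2 : ‖proj T g‖ = ‖n - ⟪n, g⟫ • g‖ := by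
    have e3 : ‖proj T g‖ ^ 2 = ‖n - ⟪n, g⟫ • g‖ ^ 2 := by
      rw [H63.norm_proj_sq hn1 hn, H63.norm_sub_sq' hn1 hg1, hg1]; norm_num
    exact (pow_left_inj₀ (norm_nonneg _) (norm_nonneg _) two_ne_zero).1 e3
  rw [e1, abs_mul, hcφ]
  have h2 := abs_real_inner_le_norm v (n - ⟪n, g⟫ • g)
  rw [← e2] at h2
  calc ‖φ‖ * |⟪v, n - ⟪n, g⟫ • g⟫| ≤ ‖φ‖ * (‖v‖ * ‖proj T g‖) :=
        mul_le_mul_of_nonneg_left h2 (norm_nonneg _)
    _ = _ := by ring

theorem Tube0.hess_est (hW : Tube0 W c K) (hE : Module.finrank ℝ E = m + 1) (x : E)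
    (T : Submodule ℝ E) (hT : Module.finrank ℝ T = m) (hx : |W x| < c) (A : E →L[ℝ] E) :
    |tr ((proj T).comp A) - (tr A - ⟪A (grad W x), grad W x⟫)|
      ≤ 4 * ‖A‖ * ‖proj T (grad W x)‖ := by
  obtain ⟨n, hn1, hnT, hnφ, hn⟩ := H63.exists_normal hE hT
  have hg1 : ‖grad W x‖ = 1 := hW.eik x hx
  generalize grad W x = g at hg1 ⊢
  have e0 : tr ((proj T).comp A) = tr A - ⟪A n, n⟫ := by
    have h1 : (proj T).comp A = A - ((innerSL ℝ n).comp A).smulRight n := by
      ext v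
      simp [hn]
    rw [h1, tr_sub]
    congr 1
    have h2 := tr_comp_smulRight (ContinuousLinearMap.id ℝ E) ((innerSL ℝ n).comp A) n
    rw [ContinuousLinearMap.id_comp] at h2
    rw [h2]
    simp [real_inner_comm]
  have e1 : tr A - ⟪A n, n⟫ - (tr A - ⟪A g, g⟫) = -(⟪A n, n⟫ - ⟪A g, g⟫) := by ring
  rw [e0, e1, abs_neg]
  have h1 := H63.abs_quad_sub_le A hn1 hg1
  have e2 : √(1 - ⟪n, g⟫ ^ 2) = ‖proj T g‖ := by
    have e3 : ‖proj T g‖ ^ 2 = 1 - ⟪n, g⟫ ^ 2 := by
      rw [H63.norm_proj_sq hn1 hn, hg1]; norm_num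
    rw [← e3, Real.sqrt_sq (norm_nonneg _)]
  rw [e2] at h1
  exact h1

/-- pointwise estimate behind the evolution of `∫ W² ρ` -/
lemma TubeF.pointwise (hE : Module.finrank ℝ E = m + 1) (hc : 0 < c) (hK : 0 ≤ K) :
    ∃ C : ℝ, 0 ≤ C ∧ ∀ W f g : E → ℝ, TubeF W f g c K → ∀ (x : E) (T : Submodule ℝ E),
      Module.finrank ℝ T = m →
      -(2 * W x * (tr ((proj T).comp (fderiv ℝ (grad W) x)) - 1 / 2 * ⟪x, grad W x⟫))
        ≤ 1 / 2 * ‖proj T (grad W x)‖ ^ 2 + C * W x ^ 2 + (f x ^ 2 + g x ^ 2) := by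
  set n : ℝ := (Module.finrank ℝ E : ℝ) with hn
  have hn0 : 0 ≤ n := by rw [hn]; positivity
  set c₁ := min c (1 / (8 * (K + 1))) with hc₁
  have hc₁0 : 0 < c₁ := lt_min hc (by positivity)
  refine ⟨2 * n * K ^ 2 + 4 + 2 * (n + 1) * K / c₁, by positivity, fun W f g hW x T hT => ?_⟩
  set A := tr ((proj T).comp (fderiv ℝ (grad W) x)) - 1 / 2 * ⟪x, grad W x⟫ with hA
  set q := tr ((fderiv ℝ (grad W) x).comp (fderiv ℝ (grad W) x)) with hq
  set g2 := ‖proj T (grad W x)‖ ^ 2 with hg2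
  have hg20 : 0 ≤ g2 := sq_nonneg _
  set w := W x with hw
  have hw2 : 0 ≤ w ^ 2 := sq_nonneg _
  by_cases hx : |w| < c₁
  · have h1 := hW.trace_est hE x T hT (hx.trans_le (min_le_left _ _))
    have h2 : |A + (q + 1 / 2) * w| ≤ K * (w ^ 2 + g2) + (|f x| + g x) := by
      have h1' : |A + (q + 1 / 2) * w - f x| ≤ K * (w ^ 2 + g2) + g x := h1
      have h1'' := abs_add_le (A + (q + 1 / 2) * w - f x) (f x)
      rw [sub_add_cancel] at h1''
      linarith
    have h3 : |q| ≤ n * K ^ 2 := hW.toTube0.q_le x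
    have hg0 := hW.g0 x
    have h4 : 2 * |w| * K ≤ 1 / 4 := by
      have h5 : |w| ≤ 1 / (8 * (K + 1)) := hx.le.trans (min_le_right _ _)
      have h6 : 2 * |w| * K ≤ 2 * (1 / (8 * (K + 1))) * K := by gcongr
      refine h6.trans ?_
      rw [show 2 * (1 / (8 * (K + 1))) * K = K / (4 * (K + 1)) by field_simp; ring]
      rw [div_le_div_iff₀ (by positivity) (by norm_num)]
      nlinarith
    have h5 : -(2 * w * A) = 2 * (q + 1 / 2) * w ^ 2 - 2 * w * (A + (q + 1 / 2) * w) := by ring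
    have h6 : -(2 * w * (A + (q + 1 / 2) * w))
        ≤ 1 / 4 * (w ^ 2 + g2) + (2 * w ^ 2 + (f x ^ 2 + g x ^ 2)) := by
      calc -(2 * w * (A + (q + 1 / 2) * w)) ≤ |2 * w * (A + (q + 1 / 2) * w)| := neg_le_abs _
        _ = 2 * |w| * |A + (q + 1 / 2) * w| := by rw [abs_mul, abs_mul, abs_two]
        _ ≤ 2 * |w| * (K * (w ^ 2 + g2) + (|f x| + g x)) := by gcongr
        _ = (2 * |w| * K) * (w ^ 2 + g2) + (2 * |w| * |f x| + 2 * |w| * g x) := by ring
        _ ≤ 1 / 4 * (w ^ 2 + g2) + (2 * w ^ 2 + (f x ^ 2 + g x ^ 2)) := by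
          have k1 : (2 * |w| * K) * (w ^ 2 + g2) ≤ 1 / 4 * (w ^ 2 + g2) := by gcongr
          have k2 : 2 * |w| * |f x| ≤ w ^ 2 + f x ^ 2 := by
            rw [← sq_abs w, ← sq_abs (f x)]; nlinarith [sq_nonneg (|w| - |f x|)]
          have k3 : 2 * |w| * g x ≤ w ^ 2 + g x ^ 2 := by
            rw [← sq_abs w]; nlinarith [sq_nonneg (|w| - g x)]
          linarith
    have h7 : 2 * (q + 1 / 2) * w ^ 2 ≤ (2 * n * K ^ 2 + 1) * w ^ 2 := by
      have := le_abs_self q
      nlinarith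
    have h8 : 0 ≤ 2 * (n + 1) * K / c₁ * w ^ 2 := by positivity
    rw [h5]
    nlinarith
  · push Not at hx
    have h1 : |A| ≤ (n + 1) * K := by
      have e1 := abs_tr_proj_comp_le T (fderiv ℝ (grad W) x)
      have e2 := hW.b2 x
      have e3 := hW.bx x
      have e4 : |A| ≤ |tr ((proj T).comp (fderiv ℝ (grad W) x))| + |1 / 2 * ⟪x, grad W x⟫| :=
        abs_sub _ _
      rw [abs_mul, abs_of_pos (by norm_num : (0 : ℝ) < 1 / 2)] at e4
      have e5 : (n : ℝ) * ‖fderiv ℝ (grad W) x‖ ≤ n * K := by gcongr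
      nlinarith
    have h2 : |w| ≤ w ^ 2 / c₁ := by
      rw [le_div_iff₀ hc₁0, ← sq_abs w]
      nlinarith [abs_nonneg w]
    have h3 : -(2 * w * A) ≤ 2 * (n + 1) * K / c₁ * w ^ 2 := by
      calc -(2 * w * A) ≤ |2 * w * A| := neg_le_abs _
        _ = 2 * |w| * |A| := by rw [abs_mul, abs_mul, abs_two]
        _ ≤ 2 * (w ^ 2 / c₁) * ((n + 1) * K) := by gcongr
        _ = _ := by ring
    have h4 : 0 ≤ (2 * n * K ^ 2 + 4) * w ^ 2 := by positivity
    have h5 : 0 ≤ f x ^ 2 + g x ^ 2 := by positivity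
    have h6 : (2 * n * K ^ 2 + 4 + 2 * (n + 1) * K / c₁) * w ^ 2
        = (2 * n * K ^ 2 + 4) * w ^ 2 + 2 * (n + 1) * K / c₁ * w ^ 2 := by ring
    rw [h6]
    linarith

end tube

variable {E : Type*} [NormedAddCommGroup E] [InnerProductSpace ℝ E] [FiniteDimensional ℝ E]
  [MeasurableSpace E] [BorelSpace E]
variable {m : ℕ} {c K : ℝ}

section

variable {μ : Measure E} {T : E → Submodule ℝ E} {H : E → E} {W f g : E → ℝ}

lemma Tube0.int_TG (hW : Tube0 W c K) (hS : GSlice m μ T H) (j : ℕ) :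
    Integrable (fun x => wt j x * ‖proj (T x) (grad W x)‖ ^ 2 * rho x) μ := by
  refine hS.integrable_dom (g := fun x => wt j x * ‖grad W x‖ ^ 2)
    ((PG.wt j).cont.aestronglyMeasurable.mul
      ((hS.proj_apply_meas hW.pg_grad.cont.aestronglyMeasurable).norm.pow 2))
    ((PG.wt j).b0.mul (hW.pg_grad.b0.norm.pow 2)) fun x => ?_
  have h1 := norm_proj_apply_le (T x) (grad W x)
  have h2 := wt_pos j x
  rw [abs_of_nonneg (by positivity), abs_of_nonneg (by positivity)]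
  gcongr

lemma Tube0.int_DD (hW : Tube0 W c K) (hS : GSlice m μ T H) (j : ℕ) :
    Integrable (fun x => W x ^ 2 * wt j x * rho x) μ :=
  hS.integrable_PB ((hW.cont.pow 2).mul (PG.wt j).cont).aestronglyMeasurable
    ((hW.pg.b0.pow 2).mul (PG.wt j).b0)

lemma Tube0.int_VW (hW : Tube0 W c K) (hS : GSlice m μ T H) (j : ℕ) :
    Integrable (fun x => W x ^ 2 * wt j x * ‖vel T H x‖ ^ 2 * rho x) μ :=
  hS.integrable_mul_vel_sq ((hW.cont.pow 2).mul (PG.wt j).cont).aestronglyMeasurable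
    ((hW.pg.b0.pow 2).mul (PG.wt j).b0)

lemma int_DD_of (hS : GSlice m μ T H) (hf : Continuous f) (hb : PB f) (j : ℕ) :
    Integrable (fun x => f x ^ 2 * wt j x * rho x) μ :=
  hS.integrable_PB ((hf.pow 2).mul (PG.wt j).cont).aestronglyMeasurable
    ((hb.pow 2).mul (PG.wt j).b0)

lemma Tube0.pg_sq_wt (hW : Tube0 W c K) (j : ℕ) : PG (fun x => W x ^ 2 * wt j x) :=
  (hW.pg.pow 2).mul (PG.wt j)

/-- the gradient of `W² (1 + |x|²)^j` -/
lemma Tube0.grad_sq_wt (hW : Tube0 W c K) (j : ℕ) (x : E) :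
    grad (fun x => W x ^ 2 * wt j x) x
      = (2 * W x * wt j x) • grad W x + (W x ^ 2) • grad (wt j) x := by
  rw [grad_mul ((hW.pg.pow 2).diff x) ((PG.wt j).diff x), grad_sq (hW.diff x), smul_smul,
    add_comm]
  congr 2; ring

/-- **the basic differential inequality** for the weighted squared distance -/
theorem exists_basicF (hE : Module.finrank ℝ E = m + 1) (hc : 0 < c) (hK : 0 ≤ K) (j : ℕ) :
    ∃ C : ℝ, 0 ≤ C ∧ ∀ (W f g : E → ℝ), TubeF W f g c K → ∀ (μ : Measure E) (T : E → Submodule ℝ E)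
      (H : E → E), GSlice m μ T H →
      ∫ x, ⟪grad (fun x => W x ^ 2 * wt j x) x, vel T H x⟫ * rho x ∂μ
        ≤ - TG μ T W j + 1 / 2 * VW μ T H W j + C * DD μ W j + (DD μ f j + DD μ g j) := by
  obtain ⟨C₀, hC₀, hpt⟩ := TubeF.pointwise (E := E) hE hc hK
  refine ⟨C₀ + 2 * j ^ 2 + 1 / 2 * j ^ 2, by positivity, fun W f g hWF μ T H hS => ?_⟩
  have hW := hWF.toTube0
  have iff := int_DD_of hS hWF.fc hWF.fb j
  have igg := int_DD_of hS hWF.gc hWF.gb j
  set F : E → ℝ := fun x => 2 * (W x * wt j x) with hF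
  have hFpg : PG F := (hW.pg.mul (PG.wt j)).const_mul 2
  have hXpg : PG (fun x => F x • grad W x) := hFpg.smul hW.pg_grad
  have hwfv := hS.wfv hXpg.cd hXpg.b0 hXpg.b1
  have gF : ∀ x, grad F x = (2 * W x) • grad (wt j) x + (2 * wt j x) • grad W x := by
    intro x
    rw [hF, grad_const_mul 2 ((hW.pg.mul (PG.wt j)).diff x),
      grad_mul (hW.diff x) ((PG.wt j).diff x), smul_add, smul_smul, smul_smul]
  have hdiv : ∀ x, divAlong (T x) (fun x => F x • grad W x) x
      = 2 * W x * wt j x * tr ((proj (T x)).comp (fderiv ℝ (grad W) x))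
        + 2 * W x * ⟪grad (wt j) x, proj (T x) (grad W x)⟫
        + 2 * wt j x * ‖proj (T x) (grad W x)‖ ^ 2 := by
    intro x
    rw [divAlong_smul (T x) (hFpg.diff x) (hW.pg_grad.diff x), gF, map_add, map_smul, map_smul,
      inner_add_left, real_inner_smul_left, real_inner_smul_left, divAlong_eq,
      H552.inner_proj_left, ← norm_proj_sq]
    simp only [hF]
    ring
  -- first part
  have part1 : ∫ x, ⟪F x • grad W x, vel T H x⟫ * rho x ∂μ
      ≤ - TG μ T W j + (C₀ + 2 * j ^ 2) * DD μ W j + (DD μ f j + DD μ g j) := by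
    have e1 : ∫ x, ⟪F x • grad W x, vel T H x⟫ * rho x ∂μ
        = ∫ x, -((divAlong (T x) (fun x => F x • grad W x) x
          - 1 / 2 * ⟪x, F x • grad W x⟫) * rho x) ∂μ := by
      rw [integral_neg, hwfv, neg_neg]
    have iA : Integrable (fun x => -(wt j x * ‖proj (T x) (grad W x)‖ ^ 2 * rho x)
          + (C₀ + 2 * j ^ 2) * (W x ^ 2 * wt j x * rho x)) μ :=
      (hW.int_TG hS j).neg.add ((hW.int_DD hS j).const_mul _)
    have iB : Integrable (fun x => f x ^ 2 * wt j x * rho x + g x ^ 2 * wt j x * rho x) μ :=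
      iff.add igg
    have e2 : - TG μ T W j + (C₀ + 2 * j ^ 2) * DD μ W j + (DD μ f j + DD μ g j)
        = ∫ x, ((-(wt j x * ‖proj (T x) (grad W x)‖ ^ 2 * rho x)
          + (C₀ + 2 * j ^ 2) * (W x ^ 2 * wt j x * rho x))
          + (f x ^ 2 * wt j x * rho x + g x ^ 2 * wt j x * rho x)) ∂μ := by
      have := integral_comb2 (hW.int_TG hS j) (hW.int_DD hS j) (-1) (C₀ + 2 * j ^ 2)
      simp only [neg_mul, one_mul] at this
      rw [integral_add iA iB, this, integral_add iff igg]; rfl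
    rw [e1, e2]
    refine integral_mono_ae ?_ ?_ ?_
    · have i1 := hS.integrable_div hXpg.cd hXpg.b1
      have i2 : Integrable (fun x => ⟪x, F x • grad W x⟫ * rho x) μ :=
        hS.integrable_PB (continuous_id.inner hXpg.cont).aestronglyMeasurable
          (PB.id'.inner' hXpg.b0)
      refine (i1.sub (i2.const_mul (1 / 2))).neg.congr (Eventually.of_forall fun x => ?_)
      simp only [Pi.neg_apply, Pi.sub_apply]
      ring
    · exact iA.add iB
    · filter_upwards [hS.mc.dim] with x hx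
      have h1 := hpt W f g hWF x (T x) hx
      have h2 := norm_grad_wt_le j x
      have h3 := wt_pos j x
      have h4 := rho_pos x
      set g2 := ‖proj (T x) (grad W x)‖ with hg2
      have h5 : -(2 * W x * ⟪grad (wt j) x, proj (T x) (grad W x)⟫)
          ≤ wt j x * (1 / 2 * g2 ^ 2 + 2 * j ^ 2 * W x ^ 2) := by
        calc -(2 * W x * ⟪grad (wt j) x, proj (T x) (grad W x)⟫)
            ≤ |2 * W x * ⟪grad (wt j) x, proj (T x) (grad W x)⟫| := neg_le_abs _
          _ = 2 * |W x| * |⟪grad (wt j) x, proj (T x) (grad W x)⟫| := by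
              rw [abs_mul, abs_mul, abs_two]
          _ ≤ 2 * |W x| * ((j * wt j x) * g2) := by
              gcongr
              exact (abs_real_inner_le_norm _ _).trans (mul_le_mul_of_nonneg_right h2 (norm_nonneg _))
          _ = wt j x * (2 * (j * |W x|) * g2) := by ring
          _ ≤ wt j x * (1 / 2 * g2 ^ 2 + 2 * j ^ 2 * W x ^ 2) := by
              refine mul_le_mul_of_nonneg_left ?_ h3.le
              have : W x ^ 2 = |W x| ^ 2 := (sq_abs _).symm
              rw [this]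
              nlinarith [sq_nonneg (g2 - 2 * (j * |W x|))]
      rw [hdiv, real_inner_smul_right]
      have h6 : -((2 * W x * wt j x * tr ((proj (T x)).comp (fderiv ℝ (grad W) x))
          + 2 * W x * ⟪grad (wt j) x, proj (T x) (grad W x)⟫
          + 2 * wt j x * g2 ^ 2) - 1 / 2 * (F x * ⟪x, grad W x⟫))
          ≤ -(wt j x * g2 ^ 2) + (C₀ + 2 * j ^ 2) * (W x ^ 2 * wt j x)
            + (f x ^ 2 * wt j x + g x ^ 2 * wt j x) := by
        have e : -((2 * W x * wt j x * tr ((proj (T x)).comp (fderiv ℝ (grad W) x))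
          + 2 * W x * ⟪grad (wt j) x, proj (T x) (grad W x)⟫
          + 2 * wt j x * g2 ^ 2) - 1 / 2 * (F x * ⟪x, grad W x⟫))
          = wt j x * (-(2 * W x * (tr ((proj (T x)).comp (fderiv ℝ (grad W) x))
              - 1 / 2 * ⟪x, grad W x⟫)))
            + (-(2 * W x * ⟪grad (wt j) x, proj (T x) (grad W x)⟫)) - 2 * wt j x * g2 ^ 2 := by
          simp only [hF]; ring
        rw [e]
        have h7 := mul_le_mul_of_nonneg_left h1 h3.le
        nlinarith
      have h7 := mul_le_mul_of_nonneg_right h6 h4.le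
      nlinarith
  -- second part
  have part2 : ∫ x, ⟪(W x ^ 2) • grad (wt j) x, vel T H x⟫ * rho x ∂μ
      ≤ 1 / 2 * VW μ T H W j + 1 / 2 * j ^ 2 * DD μ W j := by
    have e2 : 1 / 2 * VW μ T H W j + 1 / 2 * j ^ 2 * DD μ W j
        = ∫ x, (1 / 2 * (W x ^ 2 * wt j x * ‖vel T H x‖ ^ 2 * rho x)
          + 1 / 2 * j ^ 2 * (W x ^ 2 * wt j x * rho x)) ∂μ := by
      exact (integral_comb2 (hW.int_VW hS j) (hW.int_DD hS j) (1 / 2) (1 / 2 * (j : ℝ) ^ 2)).symm
    rw [e2]
    have hgw : Continuous (grad (wt j) : E → E) := continuous_grad (PG.wt j).cd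
    refine integral_mono ?_ ?_ fun x => ?_
    · refine hS.integrable_inner_vel ((hW.cont.pow 2).smul hgw).aestronglyMeasurable ?_
      refine (hW.pg.b0.pow 2).smul ?_
      exact ((PG.wt j).b0.const_mul j).mono fun x => by
        rw [norm_mul, Real.norm_of_nonneg (wt_pos j x).le, Real.norm_of_nonneg (by positivity)]
        exact norm_grad_wt_le j x
    · exact ((hW.int_VW hS j).const_mul _).add ((hW.int_DD hS j).const_mul _)
    · have h2 := norm_grad_wt_le j x
      have h3 := wt_pos j x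
      have h4 := rho_pos x
      have h5 : ⟪(W x ^ 2) • grad (wt j) x, vel T H x⟫
          ≤ 1 / 2 * (W x ^ 2 * wt j x * ‖vel T H x‖ ^ 2) + 1 / 2 * j ^ 2 * (W x ^ 2 * wt j x) := by
        rw [real_inner_smul_left]
        have h6 : ⟪grad (wt j) x, vel T H x⟫ ≤ (j * wt j x) * ‖vel T H x‖ :=
          (real_inner_le_norm _ _).trans (mul_le_mul_of_nonneg_right h2 (norm_nonneg _))
        have h7 : (j * wt j x) * ‖vel T H x‖
            ≤ wt j x * (1 / 2 * ‖vel T H x‖ ^ 2 + 1 / 2 * j ^ 2) := by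
          rw [show (j * wt j x) * ‖vel T H x‖ = wt j x * (j * ‖vel T H x‖) by ring]
          refine mul_le_mul_of_nonneg_left ?_ h3.le
          nlinarith [sq_nonneg (‖vel T H x‖ - j)]
        have h8 := mul_le_mul_of_nonneg_left (h6.trans h7) (sq_nonneg (W x))
        nlinarith
      have h6 := mul_le_mul_of_nonneg_right h5 h4.le
      simp only
      nlinarith
  -- sum
  have e : ∫ x, ⟪grad (fun x => W x ^ 2 * wt j x) x, vel T H x⟫ * rho x ∂μ
      = ∫ x, ⟪F x • grad W x, vel T H x⟫ * rho x ∂μ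
        + ∫ x, ⟪(W x ^ 2) • grad (wt j) x, vel T H x⟫ * rho x ∂μ := by
    have hgw : Continuous (grad (wt j) : E → E) := continuous_grad (PG.wt j).cd
    rw [← integral_add (hS.integrable_inner_vel hXpg.cont.aestronglyMeasurable hXpg.b0)]
    · congr 1
      ext x
      rw [hW.grad_sq_wt, inner_add_left, real_inner_smul_left, real_inner_smul_left]
      simp only [hF]
      ring_nf
      rw [real_inner_smul_left]
      ring
    · refine hS.integrable_inner_vel ((hW.cont.pow 2).smul hgw).aestronglyMeasurable ?_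
      refine (hW.pg.b0.pow 2).smul ?_
      exact ((PG.wt j).b0.const_mul j).mono fun x => by
        rw [norm_mul, Real.norm_of_nonneg (wt_pos j x).le, Real.norm_of_nonneg (by positivity)]
        exact norm_grad_wt_le j x
  rw [e]
  nlinarith

lemma Tube0.VW_zero_le (hW : Tube0 W c K) (hS : GSlice m μ T H) :
    VW μ T H W 0 ≤ K ^ 2 * dis μ T H := by
  unfold VW dis
  rw [← integral_const_mul]
  refine integral_mono (hW.int_VW hS 0) (hS.int_vel_sq.const_mul _) fun x => ?_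
  have h1 := hW.b0 x
  have h2 : W x ^ 2 ≤ K ^ 2 := by rw [← sq_abs]; gcongr
  have h3 := rho_pos x
  have h4 : 0 ≤ ‖vel T H x‖ ^ 2 * rho x := by positivity
  simp only [wt, pow_zero, mul_one]
  nlinarith

/-- the tangential gradient is controlled on a good slice -/
theorem exists_TG_leF (hE : Module.finrank ℝ E = m + 1) (hc : 0 < c) (hK : 0 ≤ K) :
    ∃ C : ℝ, 0 ≤ C ∧ ∀ (W f g : E → ℝ), TubeF W f g c K → ∀ (μ : Measure E) (T : E → Submodule ℝ E)
      (H : E → E), GSlice m μ T H → 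
      TG μ T W 0 ≤ C * (DD μ W 0 + dis μ T H + (DD μ f 0 + DD μ g 0)) := by
  obtain ⟨C, hC, h⟩ := exists_basicF (E := E) hE hc hK 0
  refine ⟨C + K ^ 2 + K + 1, by positivity, fun W f g hWF μ T H hS => ?_⟩
  have hW := hWF.toTube0
  have h1 := h W f g hWF μ T H hS
  have h2 := hW.VW_zero_le hS
  have h3 : -∫ x, ⟪grad (fun x => W x ^ 2 * wt 0 x) x, vel T H x⟫ * rho x ∂μ
      ≤ K * (DD μ W 0 + dis μ T H) := by
    rw [← integral_neg]
    have e : K * (DD μ W 0 + dis μ T H)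
        = ∫ x, (K * (W x ^ 2 * wt 0 x * rho x) + K * (‖vel T H x‖ ^ 2 * rho x)) ∂μ := by
      rw [integral_comb2 (hW.int_DD hS 0) hS.int_vel_sq, mul_add]; rfl
    rw [e]
    refine integral_mono ?_ ?_ fun x => ?_
    · have hp := hW.pg_sq_wt 0
      exact (hS.integrable_inner_vel (continuous_grad hp.cd).aestronglyMeasurable
        (hp.b1.mono fun x => by rw [norm_grad])).neg
    · exact ((hW.int_DD hS 0).const_mul _).add (hS.int_vel_sq.const_mul _)
    · have h4 := rho_pos x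
      have e0 : grad (wt 0 : E → ℝ) x = 0 := by
        have := norm_grad_wt_le 0 x
        simpa using this
      have h5 : -⟪grad (fun x => W x ^ 2 * wt 0 x) x, vel T H x⟫
          ≤ K * W x ^ 2 + K * ‖vel T H x‖ ^ 2 := by
        rw [hW.grad_sq_wt, e0, smul_zero, add_zero, real_inner_smul_left]
        simp only [wt, pow_zero, mul_one]
        calc -(2 * W x * ⟪grad W x, vel T H x⟫) ≤ |2 * W x * ⟪grad W x, vel T H x⟫| := neg_le_abs _
          _ = 2 * |W x| * |⟪grad W x, vel T H x⟫| := by rw [abs_mul, abs_mul, abs_two]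
          _ ≤ 2 * |W x| * (K * ‖vel T H x‖) := by
              gcongr
              exact (abs_real_inner_le_norm _ _).trans
                (mul_le_mul_of_nonneg_right (hW.b1 x) (norm_nonneg _))
          _ ≤ K * W x ^ 2 + K * ‖vel T H x‖ ^ 2 := by
              have : W x ^ 2 = |W x| ^ 2 := (sq_abs _).symm
              rw [this]
              nlinarith [mul_nonneg hK (sq_nonneg (|W x| - ‖vel T H x‖))]
      have h6 := mul_le_mul_of_nonneg_right h5 h4.le
      simp only [wt, pow_zero, mul_one] at h6 ⊢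
      nlinarith
  have h4 := DD_nonneg (μ := μ) (W := W) 0
  have h5 := dis_nonneg (μ := μ) (T := T) (H := H)
  have hf0 := DD_nonneg (μ := μ) (W := f) 0
  have hg0 := DD_nonneg (μ := μ) (W := g) 0
  have h6 : 0 ≤ (C + K ^ 2 + K) * (DD μ f 0 + DD μ g 0) := by positivity
  nlinarith

/-- the second moment of the squared distance is controlled on a good slice -/
theorem exists_DD_one_leF (hE : Module.finrank ℝ E = m + 1) (hc : 0 < c) (hK : 0 ≤ K) :
    ∃ C : ℝ, 0 ≤ C ∧ ∀ (W f g : E → ℝ), TubeF W f g c K → ∀ (μ : Measure E) (T : E → Submodule ℝ E)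
      (H : E → E), GSlice m μ T H → 
      DD μ W 1 ≤ C * (DD μ W 0 + dis μ T H + (DD μ f 0 + DD μ g 0)) := by
  obtain ⟨C, hC, h⟩ := exists_TG_leF (E := E) hE hc hK
  refine ⟨1 + 4 * (m + 8 * C + 2 * K ^ 2), by positivity, fun W f g hWF μ T H hS => ?_⟩
  have hW := hWF.toTube0
  have hTG := h W f g hWF μ T H hS
  have hf0 := DD_nonneg (μ := μ) (W := f) 0
  have hg0 := DD_nonneg (μ := μ) (W := g) 0
  have hVW := hW.VW_zero_le hS
  have hDD := DD_nonneg (μ := μ) (W := W) 0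
  have hdis := dis_nonneg (μ := μ) (T := T) (H := H)
  set F : E → ℝ := fun x => W x ^ 2 with hF
  have hFpg : PG F := hW.pg.pow 2
  have hXpg : PG (fun x => F x • x) := hFpg.smul PG.id'
  have hwfv := hS.wfv hXpg.cd hXpg.b0 hXpg.b1
  -- integrability
  have i0 := hW.int_DD hS 0
  have i1 := hW.int_TG hS 0
  have i2 := hW.int_VW hS 0
  have iq : Integrable (fun x => W x ^ 2 * ‖x‖ ^ 2 * rho x) μ :=
    hS.integrable_PB ((hW.cont.pow 2).mul (continuous_norm.pow 2)).aestronglyMeasurable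
      ((hW.pg.b0.pow 2).mul PB.normSq)
  set Q := ∫ x, W x ^ 2 * ‖x‖ ^ 2 * rho x ∂μ with hQ
  have eD1 : DD μ W 1 = DD μ W 0 + Q := by
    have := integral_comb2 i0 iq 1 1
    simp only [one_mul] at this
    rw [DD_eq 0, hQ, ← this, DD_eq 1]
    congr 1
    ext x
    simp only [wt, pow_zero, pow_one]
    ring
  have hdivle : 1 / 2 * Q ≤ m * DD μ W 0 + (1 / 8 * Q + 8 * TG μ T W 0)
      + (1 / 8 * Q + 2 * VW μ T H W 0) := by
    have e1 : 1 / 2 * Q = ∫ x, (divAlong (T x) (fun x => F x • x) x * rho x) ∂μ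
        + ∫ x, ⟪F x • x, vel T H x⟫ * rho x ∂μ := by
      have j1 := hS.integrable_div hXpg.cd hXpg.b1
      have j2 : ∫ x, (divAlong (T x) (fun x => F x • x) x - 1 / 2 * ⟪x, F x • x⟫) * rho x ∂μ
          = ∫ x, divAlong (T x) (fun x => F x • x) x * rho x ∂μ - 1 / 2 * Q := by
        have := integral_comb2 j1 iq 1 (-(1 / 2))
        simp only [one_mul, neg_mul, ← sub_eq_add_neg] at this
        rw [hQ, ← this]
        congr 1
        ext x
        rw [real_inner_smul_right, real_inner_self_eq_norm_sq]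
        simp only [hF]
        ring
      rw [j2] at hwfv
      linarith
    have e2 : ∫ x, (divAlong (T x) (fun x => F x • x) x * rho x) ∂μ
        ≤ m * DD μ W 0 + (1 / 8 * Q + 8 * TG μ T W 0) := by
      have e3 : m * DD μ W 0 + (1 / 8 * Q + 8 * TG μ T W 0)
          = ∫ x, (m * (W x ^ 2 * wt 0 x * rho x) + 1 / 8 * (W x ^ 2 * ‖x‖ ^ 2 * rho x)
            + 8 * (wt 0 x * ‖proj (T x) (grad W x)‖ ^ 2 * rho x)) ∂μ := by
        rw [integral_comb i0 iq i1]
        change _ = m * DD μ W 0 + 1 / 8 * Q + 8 * TG μ T W 0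
        ring
      rw [e3]
      refine integral_mono_ae (hS.integrable_div hXpg.cd hXpg.b1)
        (((i0.const_mul _).add (iq.const_mul _)).add (i1.const_mul _)) ?_
      filter_upwards [hS.mc.dim] with x hx
      have h4 := rho_pos x
      have h5 : divAlong (T x) (fun x => F x • x) x
          = W x ^ 2 * m + 2 * W x * ⟪proj (T x) (grad W x), x⟫ := by
        rw [divAlong_smul (T x) (hFpg.diff x) differentiableAt_fun_id, divAlong_id, hx, hF,
          grad_sq (hW.diff x), map_smul, real_inner_smul_left]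
      rw [h5]
      have h6 : 2 * W x * ⟪proj (T x) (grad W x), x⟫
          ≤ 1 / 8 * (W x ^ 2 * ‖x‖ ^ 2) + 8 * ‖proj (T x) (grad W x)‖ ^ 2 := by
        calc 2 * W x * ⟪proj (T x) (grad W x), x⟫ ≤ |2 * W x * ⟪proj (T x) (grad W x), x⟫| :=
              le_abs_self _
          _ = 2 * |W x| * |⟪proj (T x) (grad W x), x⟫| := by rw [abs_mul, abs_mul, abs_two]
          _ ≤ 2 * |W x| * (‖proj (T x) (grad W x)‖ * ‖x‖) := by
              gcongr
              exact abs_real_inner_le_norm _ _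
          _ ≤ 1 / 8 * (W x ^ 2 * ‖x‖ ^ 2) + 8 * ‖proj (T x) (grad W x)‖ ^ 2 := by
              have : W x ^ 2 = |W x| ^ 2 := (sq_abs _).symm
              rw [this]
              nlinarith [sq_nonneg (|W x| * ‖x‖ - 8 * ‖proj (T x) (grad W x)‖)]
      have h7 := mul_le_mul_of_nonneg_right h6 h4.le
      simp only [wt, pow_zero, mul_one, one_mul]
      nlinarith
    have e4 : ∫ x, ⟪F x • x, vel T H x⟫ * rho x ∂μ ≤ 1 / 8 * Q + 2 * VW μ T H W 0 := by
      have e5 : 1 / 8 * Q + 2 * VW μ T H W 0 = ∫ x, (1 / 8 * (W x ^ 2 * ‖x‖ ^ 2 * rho x)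
          + 2 * (W x ^ 2 * wt 0 x * ‖vel T H x‖ ^ 2 * rho x)) ∂μ := by
        rw [integral_comb2 iq i2]; rfl
      rw [e5]
      refine integral_mono (hS.integrable_inner_vel hXpg.cont.aestronglyMeasurable hXpg.b0)
        ((iq.const_mul _).add (i2.const_mul _)) fun x => ?_
      have h4 := rho_pos x
      have h6 : ⟪F x • x, vel T H x⟫ ≤ 1 / 8 * (W x ^ 2 * ‖x‖ ^ 2)
          + 2 * (W x ^ 2 * ‖vel T H x‖ ^ 2) := by
        rw [real_inner_smul_left]
        have h7 : ⟪x, vel T H x⟫ ≤ ‖x‖ * ‖vel T H x‖ := real_inner_le_norm _ _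
        have h8 : ‖x‖ * ‖vel T H x‖ ≤ 1 / 8 * ‖x‖ ^ 2 + 2 * ‖vel T H x‖ ^ 2 := by
          nlinarith [sq_nonneg (‖x‖ - 4 * ‖vel T H x‖)]
        have h9 := mul_le_mul_of_nonneg_left (h7.trans h8) (sq_nonneg (W x))
        simp only [hF]
        linarith
      have h7 := mul_le_mul_of_nonneg_right h6 h4.le
      simp only [wt, pow_zero, mul_one]
      nlinarith
    linarith
  rw [eD1]
  have h8 : Q ≤ 4 * (m * DD μ W 0 + 8 * TG μ T W 0 + 2 * VW μ T H W 0) := by linarith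
  have hm0 : (0 : ℝ) ≤ m := m.cast_nonneg
  have h9 : (m : ℝ) * DD μ W 0 ≤ m * (DD μ W 0 + dis μ T H + (DD μ f 0 + DD μ g 0)) := by
    gcongr; linarith
  have h10 : K ^ 2 * dis μ T H ≤ K ^ 2 * (DD μ W 0 + dis μ T H + (DD μ f 0 + DD μ g 0)) := by
    gcongr; linarith
  nlinarith

end

end Vale.Agent.P218N.G
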