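import Vale.Agent.P218N.G.LIArea
import Vale.Agent.P218N.G.Tube

/-! Energy comparison, part 4: geometry of tube functions (foot point, Jacobian, density of the
zero set). -/

open MeasureTheory Set Filter Topology Metric
open scoped ENNReal NNReal RealInnerProductSpace

namespace Vale.Agent.P218N.G

open Vale.Agent.P214 (IntegralVarifold proj IsApproxTangent weightOf)
open Vale.Agent.P218 Vale.Agent.P218.H313

set_option linter.unusedSectionVars false
set_option linter.unusedVariables false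

variable {E : Type*} [NormedAddCommGroup E] [InnerProductSpace ℝ E] [FiniteDimensional ℝ E]
  [MeasurableSpace E] [BorelSpace E]
variable {m : ℕ} {W : E → ℝ} {c K : ℝ}

/-- the foot point -/
noncomputable def foot (W : E → ℝ) (y : E) : E := y - W y • grad W y

lemma fderiv_eq_innerSL (W : E → ℝ) (x : E) : fderiv ℝ W x = innerSL ℝ (grad W x) := by
  ext v; rw [innerSL_apply_apply, inner_grad]

namespace Tube0

lemma li_cd1 (hW : Tube0 W c K) : ContDiff ℝ 1 W := hW.pg.cd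

lemma li_gdiff (hW : Tube0 W c K) (x : E) : DifferentiableAt ℝ (grad W) x := hW.pg_grad.diff x

lemma contDiff_foot (hW : Tube0 W c K) : ContDiff ℝ 1 (foot W) :=
  contDiff_id.sub (hW.li_cd1.smul hW.grad_cd)

lemma fderiv_foot (hW : Tube0 W c K) (y v : E) :
    fderiv ℝ (foot W) y v = v - ⟪grad W y, v⟫ • grad W y - W y • fderiv ℝ (grad W) y v := by
  have h1 := (hasFDerivAt_id y).sub ((hW.diff y).hasFDerivAt.smul (hW.li_gdiff y).hasFDerivAt)
  have h2 : fderiv ℝ (foot W) y = _ := h1.fderiv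
  rw [h2, inner_grad]
  simp only [sub_apply, add_apply, smul_apply, ContinuousLinearMap.smulRight_apply,
    ContinuousLinearMap.id_apply]
  abel

lemma li_grad_lip (hW : Tube0 W c K) (y z : E) : ‖grad W z - grad W y‖ ≤ K * ‖z - y‖ :=
  convex_univ.norm_image_sub_le_of_norm_fderiv_le (fun x _ => hW.li_gdiff x)
    (fun x _ => hW.b2 x) (mem_univ y) (mem_univ z)

lemma li_lip (hW : Tube0 W c K) (y z : E) : |W z - W y| ≤ K * ‖z - y‖ :=
  convex_univ.norm_image_sub_le_of_norm_fderiv_le (f := W) (fun x _ => hW.diff x)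
    (fun x _ => by rw [← norm_grad]; exact hW.b1 x) (mem_univ y) (mem_univ z)

lemma li_flat (hW : Tube0 W c K) {p y z : E} {r : ℝ} (hy : y ∈ closedBall p r)
    (hz : z ∈ closedBall p r) : |W z - W y - ⟪grad W p, z - y⟫| ≤ K * r * ‖z - y‖ := by
  have h := (convex_closedBall p r).norm_image_sub_le_of_norm_fderiv_le' (f := W)
    (φ := innerSL ℝ (grad W p)) (C := K * r) (fun x _ => hW.diff x) (fun x hx => ?_) hy hz
  · exact h
  · rw [fderiv_eq_innerSL, ← map_sub, innerSL_apply_norm]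
    refine (hW.li_grad_lip p x).trans (mul_le_mul_of_nonneg_left ?_ hW.K_nonneg)
    rwa [mem_closedBall, dist_eq_norm] at hx

lemma li_taylor (hW : Tube0 W c K) (y z : E) :
    |W z - W y - ⟪grad W y, z - y⟫| ≤ K * ‖z - y‖ ^ 2 := by
  have := hW.li_flat (p := y) (r := ‖z - y‖) (mem_closedBall_self (norm_nonneg _))
    (by rw [mem_closedBall, dist_eq_norm])
  rwa [mul_assoc, ← sq] at this

lemma one_le_K (hW : Tube0 W c K) {x : E} (hx : |W x| < c) : 1 ≤ K := hW.eik x hx ▸ hW.b1 x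

lemma norm_foot_sub (hW : Tube0 W c K) {y : E} (hy : |W y| < c) : ‖foot W y - y‖ = |W y| := by
  unfold foot
  rw [sub_sub_cancel_left, norm_neg, norm_smul, hW.eik y hy, mul_one, Real.norm_eq_abs]

/-- the foot point lies on the zero set -/
lemma W_foot (hW : Tube0 W c K) {y : E} (hy : |W y| * (1 + K) < c) : W (foot W y) = 0 := by
  have hK := hW.K_nonneg
  have hw0 := abs_nonneg (W y)
  have hyc : |W y| < c := by nlinarith
  set ν := grad W y with hν
  have hν1 : ‖ν‖ = 1 := hW.eik y hyc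
  let γ : ℝ → E := fun s => y - (s * W y) • ν
  have hγ : ∀ s, HasDerivAt γ (-(W y • ν)) s := fun s => by
    have := (((hasDerivAt_id s).mul_const (W y)).smul_const ν).const_sub y
    simpa using this
  have hin : ∀ s ∈ Icc (0:ℝ) 1, |W (γ s)| < c := by
    intro s hs
    have h1 := hW.li_lip y (γ s)
    have h2 : ‖γ s - y‖ ≤ |W y| := by
      simp only [γ]
      rw [sub_sub_cancel_left, norm_neg, norm_smul, hν1, mul_one, Real.norm_eq_abs, abs_mul,
        abs_of_nonneg hs.1]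
      exact mul_le_of_le_one_left hw0 hs.2
    have h3 := abs_sub_abs_le_abs_sub (W (γ s)) (W y)
    have h4 : K * ‖γ s - y‖ ≤ K * |W y| := by gcongr
    nlinarith
  let u : ℝ → E := fun s => grad W (γ s) - ν
  have hu : ∀ s, HasDerivAt u (fderiv ℝ (grad W) (γ s) (-(W y • ν))) s := fun s =>
    ((hW.li_gdiff (γ s)).hasFDerivAt.comp_hasDerivAt s (hγ s)).sub_const ν
  have hz : ∀ s ∈ Icc (0:ℝ) 1, u s = 0 := by
    intro s hs
    have h := norm_le_gronwallBound_of_norm_deriv_right_le (f := u)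
      (f' := fun s => fderiv ℝ (grad W) (γ s) (-(W y • ν))) (δ := 0) (K := |W y| * K) (ε := 0)
      (a := 0) (b := 1) (fun s _ => (hu s).continuousAt.continuousWithinAt)
      (fun s _ => (hu s).hasDerivWithinAt) (by simp [u, γ, hν]) (fun s hs => ?_) s hs
    · rw [gronwallBound_ε0_δ0] at h
      exact norm_le_zero_iff.1 h
    · have h1 := hW.hess_grad (hin s ⟨hs.1, hs.2.le⟩)
      have h2 : fderiv ℝ (grad W) (γ s) (-(W y • ν)) = W y • fderiv ℝ (grad W) (γ s) (u s) := by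
        simp only [u]
        rw [map_sub, h1, map_neg, map_smul, zero_sub, smul_neg]
      rw [h2, norm_smul, Real.norm_eq_abs, add_zero, mul_assoc]
      gcongr
      exact ((fderiv ℝ (grad W) (γ s)).le_opNorm _).trans
        (mul_le_mul_of_nonneg_right (hW.b2 _) (norm_nonneg _))
  have hφ : ∀ s ∈ Icc (0:ℝ) 1, HasDerivAt (fun s => W (γ s) + s * W y) 0 s := by
    intro s hs
    have h1 := ((hW.diff (γ s)).hasFDerivAt.comp_hasDerivAt s (hγ s)).add
      ((hasDerivAt_id s).mul_const (W y))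
    refine h1.congr_deriv ?_
    have h2 : grad W (γ s) = ν := sub_eq_zero.1 (hz s hs)
    rw [← inner_grad, h2, inner_neg_right, real_inner_smul_right, real_inner_self_eq_norm_sq, hν1]
    ring
  have h3 := constant_of_has_deriv_right_zero (f := fun s => W (γ s) + s * W y) (a := 0) (b := 1)
    (fun s hs => (hφ s hs).continuousAt.continuousWithinAt)
    (fun s hs => (hφ s ⟨hs.1, hs.2.le⟩).hasDerivWithinAt) 1 ⟨zero_le_one, le_rfl⟩
  simp only [γ, one_mul, zero_mul, zero_smul, sub_zero, add_zero] at h3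
  unfold foot
  linarith

/-- points of a fibre are separated by `W` -/
lemma fibre_sep (hW : Tube0 W c K) {y y' : E} (h : foot W y = foot W y') (hy : |W y| < c)
    (hy' : |W y'| * K ≤ 1 / 2) : ‖y - y'‖ ≤ 2 * |W y - W y'| := by
  have h1 : y - y' = (W y - W y') • grad W y + W y' • (grad W y - grad W y') := by
    unfold foot at h
    have : y - y' = W y • grad W y - W y' • grad W y' := by
      rw [sub_eq_sub_iff_sub_eq_sub, h]
    rw [this, sub_smul, smul_sub]; abel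
  have h2 := hW.li_grad_lip y' y
  have h3 : ‖y - y'‖ ≤ |W y - W y'| + |W y'| * (K * ‖y - y'‖) := by
    calc ‖y - y'‖ ≤ ‖(W y - W y') • grad W y‖ + ‖W y' • (grad W y - grad W y')‖ := by
          conv_lhs => rw [h1]
          exact norm_add_le _ _
      _ ≤ _ := by
          rw [norm_smul, norm_smul, hW.eik y hy, mul_one, Real.norm_eq_abs, Real.norm_eq_abs]
          gcongr
  have h4 : |W y'| * K * ‖y - y'‖ ≤ 1 / 2 * ‖y - y'‖ := by gcongr
  linarith

/-- the normal component of a vector -/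
lemma norm_perp_le (hW : Tube0 W c K) (hE : Module.finrank ℝ E = m + 1) {x : E}
    {T : Submodule ℝ E} (hT : Module.finrank ℝ T = m) (hx : |W x| < c) (v : E) :
    ‖v - proj T v‖ ≤ |⟪v, grad W x⟫| + ‖v‖ * ‖proj T (grad W x)‖ := by
  have hφ : v - proj T v ∈ Tᗮ := Submodule.sub_starProjection_mem_orthogonal v
  have h1 := hW.normal_est hE x T hT hx hφ v
  set φ := v - proj T v with hφd
  have h2 : ⟪v, φ⟫ = ‖φ‖ ^ 2 := by
    have : v = φ + proj T v := by rw [hφd, sub_add_cancel]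
    have h3 : ⟪proj T v, φ⟫ = 0 := Submodule.inner_right_of_mem_orthogonal (H552.proj_mem T v) hφ
    conv_lhs => rw [this]
    rw [inner_add_left, h3, add_zero, real_inner_self_eq_norm_sq]
  have h4 : |⟪grad W x, φ⟫| ≤ ‖φ‖ := by
    have := abs_real_inner_le_norm (grad W x) φ
    rwa [hW.eik x hx, one_mul] at this
  have h5 : ⟪v, grad W x⟫ * ⟪grad W x, φ⟫ ≤ |⟪v, grad W x⟫| * ‖φ‖ := by
    refine (le_abs_self _).trans ?_
    rw [abs_mul]; gcongr
  have h6 := le_of_abs_le h1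
  rw [h2] at h6
  rcases (norm_nonneg φ).eq_or_lt with h0 | h0
  · rw [← h0]; positivity
  · refine le_of_mul_le_mul_right ?_ h0
    nlinarith

lemma norm_fderiv_foot_sq (hW : Tube0 W c K) {y : E} (hy : |W y| < c) (z : E) :
    ‖fderiv ℝ (foot W) y z‖ ^ 2 = ‖z‖ ^ 2 - ⟪grad W y, z⟫ ^ 2
      - 2 * W y * ⟪z, fderiv ℝ (grad W) y z⟫ + W y ^ 2 * ‖fderiv ℝ (grad W) y z‖ ^ 2 := by
  have h1 : ⟪grad W y, fderiv ℝ (grad W) y z⟫ = 0 := by
    rw [← hess_symm hW.smooth, hW.hess_grad hy, inner_zero_left]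
  have h2 := hW.eik y hy
  rw [hW.fderiv_foot, norm_sub_sq_real, norm_sub_sq_real, inner_sub_left, real_inner_smul_right,
    real_inner_smul_right, real_inner_smul_left, real_inner_smul_right, h1, norm_smul, norm_smul,
    h2, real_inner_comm (grad W y) z, mul_pow, mul_pow, Real.norm_eq_abs, Real.norm_eq_abs, sq_abs,
    sq_abs]
  ring

lemma abs_hess_le (hW : Tube0 W c K) (y z : E) :
    |⟪z, fderiv ℝ (grad W) y z⟫| ≤ K * ‖z‖ ^ 2 ∧ ‖fderiv ℝ (grad W) y z‖ ≤ K * ‖z‖ := by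
  have h1 : ‖fderiv ℝ (grad W) y z‖ ≤ K * ‖z‖ :=
    ((fderiv ℝ (grad W) y).le_opNorm z).trans (mul_le_mul_of_nonneg_right (hW.b2 y) (norm_nonneg _))
  refine ⟨(abs_real_inner_le_norm _ _).trans ?_, h1⟩
  calc ‖z‖ * ‖fderiv ℝ (grad W) y z‖ ≤ ‖z‖ * (K * ‖z‖) := by gcongr
    _ = _ := by ring

lemma norm_fderiv_foot (hW : Tube0 W c K) {y : E} (hy : |W y| < c) (hK : |W y| * K ≤ 1) :
    ‖fderiv ℝ (foot W) y‖ ≤ 2 := by
  refine ContinuousLinearMap.opNorm_le_bound _ (by norm_num) fun z => ?_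
  refine le_of_sq_le_sq ?_ (by positivity)
  rw [hW.norm_fderiv_foot_sq hy]
  obtain ⟨h1, h2⟩ := hW.abs_hess_le y z
  have h3 : -(2 * W y * ⟪z, fderiv ℝ (grad W) y z⟫) ≤ 2 * ‖z‖ ^ 2 := by
    refine (neg_le_abs _).trans ?_
    rw [abs_mul, abs_mul, abs_two]
    calc 2 * |W y| * |⟪z, fderiv ℝ (grad W) y z⟫| ≤ 2 * |W y| * (K * ‖z‖ ^ 2) := by gcongr
      _ = 2 * (|W y| * K) * ‖z‖ ^ 2 := by ring
      _ ≤ 2 * 1 * ‖z‖ ^ 2 := by gcongr
      _ = _ := by ring
  have h4 : W y ^ 2 * ‖fderiv ℝ (grad W) y z‖ ^ 2 ≤ ‖z‖ ^ 2 := by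
    rw [← sq_abs (W y), ← mul_pow]
    refine pow_le_pow_left₀ (by positivity) ?_ 2
    calc |W y| * ‖fderiv ℝ (grad W) y z‖ ≤ |W y| * (K * ‖z‖) := by gcongr
      _ = (|W y| * K) * ‖z‖ := by ring
      _ ≤ 1 * ‖z‖ := by gcongr
      _ = _ := one_mul _
  nlinarith [sq_nonneg ⟪grad W y, z⟫]

lemma inner_sq_le_tilt {T : Submodule ℝ E} (g : E) {z : E} (hz : z ∈ T) :
    ⟪g, z⟫ ^ 2 ≤ ‖proj T g‖ ^ 2 * ‖z‖ ^ 2 := by
  have h1 : proj T z = z := Submodule.starProjection_eq_self_iff.2 hz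
  have h2 : ⟪g, z⟫ = ⟪proj T g, z⟫ := by rw [H552.inner_proj_left, h1]
  rw [h2, ← mul_pow, ← sq_abs]
  exact pow_le_pow_left₀ (abs_nonneg _) (abs_real_inner_le_norm _ _) 2

/-- the defect of the length of the image of a tangent vector -/
lemma defect_le (hW : Tube0 W c K) {y : E} (hy : |W y| < c) {T : Submodule ℝ E} {z : E}
    (hz : z ∈ T) (hK : |W y| * K ≤ 1) :
    |‖z‖ ^ 2 - ‖fderiv ℝ (foot W) y z‖ ^ 2|
      ≤ (‖proj T (grad W y)‖ ^ 2 + 3 * (|W y| * K)) * ‖z‖ ^ 2 := by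
  rw [hW.norm_fderiv_foot_sq hy]
  obtain ⟨h1, h2⟩ := hW.abs_hess_le y z
  have h0 := inner_sq_le_tilt (grad W y) hz
  have hK0 := hW.K_nonneg
  have h3 : |2 * W y * ⟪z, fderiv ℝ (grad W) y z⟫| ≤ 2 * (|W y| * K) * ‖z‖ ^ 2 := by
    rw [abs_mul, abs_mul, abs_two]
    calc 2 * |W y| * |⟪z, fderiv ℝ (grad W) y z⟫| ≤ 2 * |W y| * (K * ‖z‖ ^ 2) := by gcongr
      _ = 2 * (|W y| * K) * ‖z‖ ^ 2 := by ring
  have h4 : W y ^ 2 * ‖fderiv ℝ (grad W) y z‖ ^ 2 ≤ (|W y| * K) * ‖z‖ ^ 2 := by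
    have h5 : W y ^ 2 * ‖fderiv ℝ (grad W) y z‖ ^ 2 ≤ (|W y| * K) ^ 2 * ‖z‖ ^ 2 := by
      rw [← sq_abs (W y), ← mul_pow, ← mul_pow, mul_assoc]
      exact pow_le_pow_left₀ (by positivity) (by gcongr) 2
    have h6 : (|W y| * K) ^ 2 ≤ |W y| * K := by
      have : 0 ≤ |W y| * K := by positivity
      nlinarith
    exact h5.trans (by gcongr)
  have h7 := abs_le.1 h3
  have h8 : 0 ≤ W y ^ 2 * ‖fderiv ℝ (grad W) y z‖ ^ 2 := by positivity
  have h9 := sq_nonneg ⟪grad W y, z⟫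
  have h10 : 0 ≤ ‖proj T (grad W y)‖ ^ 2 * ‖z‖ ^ 2 := by positivity
  have h11 : 0 ≤ (|W y| * K) * ‖z‖ ^ 2 := by positivity
  rw [abs_le]
  constructor <;> nlinarith

lemma foot_inj (hW : Tube0 W c K) {y : E} (hy : |W y| < c) {T : Submodule ℝ E} {z : E}
    (hz : z ∈ T) (h1 : ‖proj T (grad W y)‖ ^ 2 ≤ 1 / 8) (h2 : |W y| * K ≤ 1 / 8) :
    ‖z‖ ≤ 2 * ‖fderiv ℝ (foot W) y z‖ := by
  have h := le_of_abs_le (hW.defect_le hy hz (by linarith))
  refine le_of_sq_le_sq ?_ (by positivity)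
  have h3 : (‖proj T (grad W y)‖ ^ 2 + 3 * (|W y| * K)) * ‖z‖ ^ 2 ≤ 1 / 2 * ‖z‖ ^ 2 := by
    gcongr; linarith
  nlinarith [sq_nonneg ‖z‖]

end Tube0

lemma jl_sq (L : E →L[ℝ] E) (ι : Rm m →L[ℝ] E) :
    ∃ b : OrthonormalBasis (Fin m) ℝ (Rm m), jl L ι ^ 2 = ∏ i, ‖L (ι (b i))‖ ^ 2 := by
  set F : Rm m →ₗ[ℝ] E := ((L.comp ι : Rm m →L[ℝ] E) : Rm m →ₗ[ℝ] E) with hF
  have hMx : ∀ x y, ⟪x, (F.adjoint ∘ₗ F) y⟫ = ⟪F x, F y⟫ := fun x y => by
    rw [LinearMap.comp_apply, LinearMap.adjoint_inner_right]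
  have hsym : (F.adjoint ∘ₗ F).IsSymmetric := fun x y => by
    rw [hMx, real_inner_comm, hMx, real_inner_comm]
  have hn : Module.finrank ℝ (Rm m) = m := by simp
  refine ⟨hsym.eigenvectorBasis hn, ?_⟩
  have h1 := F.normDet_sq
  have h2 := hsym.det_eq_prod_eigenvalues hn
  simp only [RCLike.ofReal_real_eq_id, id_eq] at h1 h2
  unfold jl
  rw [← hF, h1, h2]
  refine Finset.prod_congr rfl fun i _ => ?_
  have h3 := hsym.apply_eigenvectorBasis hn i
  have h4 := hMx (hsym.eigenvectorBasis hn i) (hsym.eigenvectorBasis hn i)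
  rw [h3, RCLike.ofReal_real_eq_id, id, real_inner_smul_right, real_inner_self_eq_norm_sq,
    OrthonormalBasis.norm_eq_one, real_inner_self_eq_norm_sq] at h4
  rw [one_pow, mul_one] at h4
  exact h4

lemma tr_proj_eq_sum {T : Submodule ℝ E} {ι : Rm m →ₗᵢ[ℝ] E} (hr : range ι = (T : Set E))
    (b : OrthonormalBasis (Fin m) ℝ (Rm m)) (A : E →L[ℝ] E) :
    tr ((proj T).comp A) = ∑ i, ⟪ι (b i), A (ι (b i))⟫ := by
  set a := ContinuousLinearMap.adjoint ι.toContinuousLinearMap with ha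
  have hmem : ∀ q, ι q ∈ T := fun q => by rw [← SetLike.mem_coe, ← hr]; exact ⟨q, rfl⟩
  have h : ∀ z, proj T z = ι (a z) := by
    intro z
    refine Submodule.eq_starProjection_of_mem_of_inner_eq_zero (hmem _) fun w hw => ?_
    have hw' : w ∈ range ι := by rw [hr]; exact hw
    obtain ⟨q, rfl⟩ := hw'
    rw [inner_sub_left, ι.inner_map_map, ha, ContinuousLinearMap.adjoint_inner_left]
    simp
  have e1 : (((proj T).comp A : E →L[ℝ] E) : E →ₗ[ℝ] E)
      = ι.toLinearMap ∘ₗ (a.toLinearMap ∘ₗ A.toLinearMap) := by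
    ext z
    exact h (A z)
  unfold tr
  rw [e1, LinearMap.trace_comp_comm', LinearMap.trace_eq_sum_inner _ b]
  refine Finset.sum_congr rfl fun i _ => ?_
  show ⟪b i, a (A (ι (b i)))⟫ = _
  rw [ha, ContinuousLinearMap.adjoint_inner_right]
  rfl

lemma exp_le_one_sub {x : ℝ} (hx : x ≤ 1 / 2) : Real.exp (-x - 2 * x ^ 2) ≤ 1 - x := by
  have h1 := Real.add_one_le_exp (x + 2 * x ^ 2)
  have h2 : Real.exp (-x - 2 * x ^ 2) * Real.exp (x + 2 * x ^ 2) = 1 := by
    rw [← Real.exp_add]; simp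
  have h3 := Real.exp_pos (-x - 2 * x ^ 2)
  have h4 : 1 ≤ (1 - x) * (x + 2 * x ^ 2 + 1) := by nlinarith [sq_nonneg x]
  have h5 : 1 ≤ (1 - x) * Real.exp (x + 2 * x ^ 2) :=
    h4.trans (mul_le_mul_of_nonneg_left h1 (by linarith))
  have h6 := Real.exp_pos (x + 2 * x ^ 2)
  nlinarith

namespace Tube0

/-- lower bounds for the Jacobian of the foot point map -/
lemma jl_foot (hW : Tube0 W c K) {y : E} (hy : |W y| < c) {T : Submodule ℝ E}
    {ι : Rm m →ₗᵢ[ℝ] E} (hr : range ι = (T : Set E)) (h1 : ‖proj T (grad W y)‖ ^ 2 ≤ 1 / 8)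
    (h2 : |W y| * K ≤ 1 / 8) :
    Real.exp (-(W y * tr ((proj T).comp (fderiv ℝ (grad W) y))) - m / 2 * ‖proj T (grad W y)‖ ^ 2
      - m * (‖proj T (grad W y)‖ ^ 2 + 3 * (|W y| * K)) ^ 2)
      ≤ jl (fderiv ℝ (foot W) y) ι.toContinuousLinearMap := by
  obtain ⟨b, hb⟩ := jl_sq (fderiv ℝ (foot W) y) ι.toContinuousLinearMap
  have hmem : ∀ q, ι q ∈ T := fun q => by rw [← SetLike.mem_coe, ← hr]; exact ⟨q, rfl⟩
  set e := ‖proj T (grad W y)‖ ^ 2 with he
  set d := e + 3 * (|W y| * K) with hd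
  have hn : ∀ i, ‖ι (b i)‖ = 1 := fun i => by rw [ι.norm_map, b.norm_eq_one]
  have key : ∀ i, Real.exp (-(2 * W y * ⟪ι (b i), fderiv ℝ (grad W) y (ι (b i))⟫) - e - 2 * d ^ 2)
      ≤ ‖fderiv ℝ (foot W) y (ι (b i))‖ ^ 2 := by
    intro i
    have k1 := hW.defect_le hy (hmem (b i)) (by linarith)
    have k2 := hW.norm_fderiv_foot_sq hy (ι (b i))
    have k3 := inner_sq_le_tilt (grad W y) (hmem (b i))
    rw [hn, one_pow] at k1 k2 k3
    rw [mul_one] at k1 k3
    set x := 1 - ‖fderiv ℝ (foot W) y (ι (b i))‖ ^ 2 with hx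
    have k4 : x ≤ 1 / 2 := (le_of_abs_le k1).trans (by linarith)
    have k5 := exp_le_one_sub k4
    have k6 : x ^ 2 ≤ d ^ 2 := by rw [← sq_abs]; exact pow_le_pow_left₀ (abs_nonneg _) k1 2
    have k7 : 0 ≤ W y ^ 2 * ‖fderiv ℝ (grad W) y (ι (b i))‖ ^ 2 := by positivity
    refine le_trans (Real.exp_le_exp.2 ?_) (k5.trans (by rw [hx]; linarith))
    linarith
  refine le_of_sq_le_sq ?_ (jl_nonneg _ _)
  rw [hb, ← Real.exp_nat_mul]
  refine le_trans (le_of_eq ?_) (Finset.prod_le_prod (fun i _ => (Real.exp_pos _).le)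
    fun i _ => key i)
  rw [← Real.exp_sum, tr_proj_eq_sum hr b]
  congr 1
  simp only [Finset.sum_sub_distrib, Finset.sum_neg_distrib, Finset.sum_const, Finset.card_univ,
    Fintype.card_fin, nsmul_eq_mul, mul_assoc, ← Finset.mul_sum]
  push_cast
  ring

/-- the first order term of the energy comparison -/
noncomputable def fo (W : E → ℝ) (y : E) : ℝ :=
  |W y| * |tr (fderiv ℝ (grad W) y) - 1 / 2 * ⟪y, grad W y⟫|

lemma rho_le (hW : Tube0 W c K) (hE : Module.finrank ℝ E = m + 1) {y : E} (hy : |W y| < c)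
    {T : Submodule ℝ E} (hT : Module.finrank ℝ T = m)
    {ι : Rm m →ₗᵢ[ℝ] E} (hr : range ι = (T : Set E)) (h1 : ‖proj T (grad W y)‖ ^ 2 ≤ 1 / 8)
    (h2 : |W y| * K ≤ 1 / 8) :
    rho y * (1 - fo W y - (1 + m + 18 * m * K ^ 2) * (‖proj T (grad W y)‖ ^ 2 + W y ^ 2))
      ≤ rho (foot W y) * jl (fderiv ℝ (foot W) y) ι.toContinuousLinearMap := by
  have k1 := hW.jl_foot hy hr h1 h2
  have k2 := hW.trace_est hE y T hT hy
  unfold ricE at k2
  set e := ‖proj T (grad W y)‖ ^ 2 with he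
  have he0 : 0 ≤ e := sq_nonneg _
  set t := tr ((proj T).comp (fderiv ℝ (grad W) y)) with ht
  set t' := tr (fderiv ℝ (grad W) y) with ht'
  have k3 : |t - t'| ≤ K * e := by
    refine le_trans (le_of_eq ?_) k2
    congr 1; ring
  have k4 : rho (foot W y) = rho y * Real.exp (W y * ⟪y, grad W y⟫ / 2 - W y ^ 2 / 4) := by
    unfold rho foot
    rw [← Real.exp_add, norm_sub_sq_real, real_inner_smul_right, norm_smul, hW.eik y hy,
      Real.norm_eq_abs, mul_one, sq_abs]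
    congr 1; ring
  rw [k4, mul_assoc (rho y)]
  refine mul_le_mul_of_nonneg_left ?_ (rho_pos y).le
  refine le_trans ?_ (mul_le_mul_of_nonneg_left k1 (Real.exp_pos _).le)
  rw [← Real.exp_add]
  refine le_trans ?_ (Real.add_one_le_exp _)
  have k5 : W y * (t' - 1 / 2 * ⟪y, grad W y⟫) ≤ fo W y := by
    unfold fo
    rw [← abs_mul]; exact le_abs_self _
  have k6 : W y * (t - t') ≤ 1 / 8 * e := by
    refine (le_abs_self _).trans ?_
    rw [abs_mul]
    calc |W y| * |t - t'| ≤ |W y| * (K * e) := by gcongr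
      _ = (|W y| * K) * e := by ring
      _ ≤ _ := by gcongr
  have k7 : (e + 3 * (|W y| * K)) ^ 2 ≤ e / 4 + 18 * K ^ 2 * W y ^ 2 := by
    have a1 : (|W y| * K) ^ 2 = K ^ 2 * W y ^ 2 := by rw [mul_pow, sq_abs]; ring
    nlinarith [sq_nonneg (e - 3 * (|W y| * K))]
  have hm : (0:ℝ) ≤ m := Nat.cast_nonneg m
  have k8 := mul_le_mul_of_nonneg_left k7 hm
  have k9 : 0 ≤ m * e := by positivity
  have k10 : 0 ≤ m * W y ^ 2 := by positivity
  have k11 : 0 ≤ m * K ^ 2 * e := by positivity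
  have k12 := sq_nonneg (W y)
  nlinarith

lemma jl_foot_ge (hW : Tube0 W c K) {y : E} (hy : |W y| < c) {T : Submodule ℝ E}
    {ι : Rm m →ₗᵢ[ℝ] E} (hr : range ι = (T : Set E)) {δ : ℝ} (hδ : δ ≤ 1 / 8)
    (h1 : ‖proj T (grad W y)‖ ^ 2 ≤ δ) (h2 : |W y| * K ≤ δ) :
    (1 - 4 * δ) ^ m ≤ jl (fderiv ℝ (foot W) y) ι.toContinuousLinearMap := by
  obtain ⟨b, hb⟩ := jl_sq (fderiv ℝ (foot W) y) ι.toContinuousLinearMap
  have hmem : ∀ q, ι q ∈ T := fun q => by rw [← SetLike.mem_coe, ← hr]; exact ⟨q, rfl⟩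
  have hδ0 : 0 ≤ δ := (sq_nonneg _).trans h1
  refine le_of_sq_le_sq ?_ (jl_nonneg _ _)
  rw [hb, ← pow_mul, mul_comm m 2, pow_mul]
  have : ((1 - 4 * δ) ^ 2) ^ m = ∏ _i : Fin m, (1 - 4 * δ) ^ 2 := by simp
  rw [this]
  refine Finset.prod_le_prod (fun i _ => sq_nonneg _) fun i _ => ?_
  have k1 := le_of_abs_le (hW.defect_le hy (hmem (b i)) (by linarith))
  rw [ι.norm_map, b.norm_eq_one, one_pow, mul_one] at k1
  show (1 - 4 * δ) ^ 2 ≤ ‖fderiv ℝ (foot W) y (ι (b i))‖ ^ 2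
  nlinarith

/-- points of the zero set with smaller norm -/
lemma exists_smaller (hW : Tube0 W c K) {p : E} (hp : W p = 0) (hK : K < ‖p‖) {ε : ℝ}
    (hε : 0 < ε) : ∃ p', W p' = 0 ∧ ‖p'‖ < ‖p‖ ∧ dist p' p < ε := by
  have hpc : |W p| < c := by rw [hp, abs_zero]; exact hW.cpos
  have hK0 := hW.K_nonneg
  set ν := grad W p with hν
  have hν1 : ‖ν‖ = 1 := hW.eik p hpc
  set v := p - ⟪p, ν⟫ • ν with hv
  have hvν : ⟪ν, v⟫ = 0 := by
    rw [hv, inner_sub_right, real_inner_smul_right, real_inner_self_eq_norm_sq, hν1,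
      real_inner_comm]; ring
  have hpv : ⟪p, v⟫ = ‖p‖ ^ 2 - ⟪p, ν⟫ ^ 2 := by
    rw [hv, inner_sub_right, real_inner_smul_right, real_inner_self_eq_norm_sq]; ring
  have hpos : 0 < ⟪p, v⟫ := by
    have h1 : ⟪p, ν⟫ ^ 2 ≤ K ^ 2 := by
      rw [← sq_abs]; exact pow_le_pow_left₀ (abs_nonneg _) (hW.bx p) 2
    rw [hpv]; nlinarith
  let γ : ℝ → E := fun s => foot W (p - s • v)
  have hfp : foot W p = p := by unfold foot; rw [hp, zero_smul, sub_zero]
  have hγ0 : γ 0 = p := by simp only [γ, zero_smul, sub_zero, hfp]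
  have hl : HasDerivAt (fun s : ℝ => p - s • v) (-v) 0 := by
    simpa using ((hasDerivAt_id (0:ℝ)).smul_const v).const_sub p
  have hγ : HasDerivAt γ (-v) 0 := by
    have h1 := (hW.contDiff_foot.differentiable (by norm_num) (p - (0:ℝ) • v)).hasFDerivAt
    have h2 := h1.comp_hasDerivAt (0:ℝ) hl
    refine h2.congr_deriv ?_
    rw [zero_smul, sub_zero, hW.fderiv_foot, hp, zero_smul, sub_zero, inner_neg_right, ← hν, hvν,
      neg_zero, zero_smul, sub_zero]
  have hn : HasDerivAt (fun s => ‖γ s‖ ^ 2) (2 * ⟪γ 0, -v⟫) 0 := hγ.norm_sq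
  rw [hγ0, inner_neg_right] at hn
  have e1 : ∀ᶠ s in 𝓝[>] (0:ℝ), ‖γ s‖ ^ 2 < ‖p‖ ^ 2 := by
    have h1 := (hasDerivAt_iff_tendsto_slope_left_right.1 hn).2
    filter_upwards [h1.eventually (gt_mem_nhds (show 2 * -⟪p, v⟫ < 0 by linarith)),
      self_mem_nhdsWithin] with s hs hs0
    have hs0' : 0 < s := hs0
    rw [slope_def_field, hγ0, sub_zero, div_neg_iff] at hs
    rcases hs with hs | hs
    · linarith [hs.2]
    · linarith [hs.1]
  have e2 : ∀ᶠ s in 𝓝 (0:ℝ), dist (γ s) p < ε := by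
    have := hγ.continuousAt.eventually (ball_mem_nhds _ hε)
    rwa [hγ0] at this
  have e3 : ∀ᶠ s in 𝓝 (0:ℝ), |W (p - s • v)| * (1 + K) < c := by
    have h1 : ContinuousAt (fun s : ℝ => |W (p - s • v)| * (1 + K)) 0 := by
      have := hW.cont
      fun_prop
    refine h1.eventually (gt_mem_nhds ?_)
    simp [hp, hW.cpos]
  obtain ⟨s, a1, a2, a3⟩ := (e1.and ((e2.and e3).filter_mono nhdsWithin_le_nhds)).exists
  exact ⟨γ s, hW.W_foot a3, lt_of_pow_lt_pow_left₀ 2 (norm_nonneg _) a1, a2⟩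

/-- **upper density bound for the zero set** -/
lemma sig_ker_le (hW : Tube0 W c K) (hE : Module.finrank ℝ E = m + 1) {p : E} (hp : |W p| < c)
    {r : ℝ} (hr : 0 < r) (hKr : K * r ≤ 1 / 2) :
    ∫⁻ z in {z | W z = 0}, ENNReal.ofReal (ker (r⁻¹ • (z - p))) ∂(μH[m] : Measure E)
      ≤ ENNReal.ofReal ((1 + 2 * (K * r)) ^ m * (r ^ m * om m)) := by
  have hK0 := hW.K_nonneg
  set ν := grad W p with hν
  have hν1 : ‖ν‖ = 1 := hW.eik p hp
  have hν0 : ν ≠ 0 := by rw [← norm_ne_zero_iff, hν1]; exact one_ne_zero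
  set T : Submodule ℝ E := (ℝ ∙ ν)ᗮ with hT
  have hTd : Module.finrank ℝ T = m := by
    have h1 := Submodule.finrank_add_finrank_orthogonal (ℝ ∙ ν)
    rw [finrank_span_singleton hν0] at h1
    rw [hT]; omega
  have hproj : ∀ v, ‖v‖ ≤ ‖proj T v‖ + |⟪ν, v⟫| := by
    intro v
    have h1 := hW.norm_perp_le hE hTd hp v
    have h2 : proj T ν = 0 := by
      refine (Submodule.starProjection_apply_eq_zero_iff T).2 ?_
      rw [hT, Submodule.orthogonal_orthogonal]
      exact Submodule.mem_span_singleton_self ν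
    rw [← hν, h2, norm_zero, mul_zero, add_zero, real_inner_comm] at h1
    calc ‖v‖ = ‖proj T v + (v - proj T v)‖ := by rw [add_sub_cancel]
      _ ≤ ‖proj T v‖ + ‖v - proj T v‖ := norm_add_le _ _
      _ ≤ _ := by linarith
  set S : Set E := {z | W z = 0} with hS
  have hSc : IsClosed S := isClosed_eq hW.cont continuous_const
  set A : Set E := closedBall p r ∩ S with hA
  set q : E → E := fun y => proj T (y - p) with hq
  have hqc : Continuous q := (proj T).continuous.comp (by fun_prop)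
  have hL : 0 ≤ 1 + 2 * (K * r) := by positivity
  have hmap : ((μH[m] : Measure E).restrict A).map q
      ≤ ENNReal.ofReal ((1 + 2 * (K * r)) ^ m) • (μH[m] : Measure E).restrict T := by
    refine Measure.le_iff.2 fun s hs => ?_
    rw [Measure.map_apply hqc.measurable hs, Measure.restrict_apply (hqc.measurable hs),
      Measure.smul_apply, Measure.restrict_apply hs, smul_eq_mul]
    have h1 := hd_le (q ⁻¹' s ∩ A) q id hL (fun y hy y' hy' => ?_) m
    · rw [image_id] at h1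
      refine h1.trans (mul_le_mul_right (measure_mono ?_) _)
      rintro _ ⟨y, hy, rfl⟩
      exact ⟨hy.1, H552.proj_mem T _⟩
    · have h3 := hW.li_flat hy'.2.1 hy.2.1
      rw [show W y = 0 from hy.2.2, show W y' = 0 from hy'.2.2, sub_self, zero_sub, abs_neg] at h3
      have h4 : q y - q y' = proj T (y - y') := by
        simp only [hq]; rw [← map_sub]; congr 1; abel
      rw [id, id, dist_eq_norm, dist_eq_norm, h4]
      have h5 := hproj (y - y')
      have h6 : (1 - K * r) * ‖y - y'‖ ≤ ‖proj T (y - y')‖ := by linarith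
      have h7 : 0 ≤ K * r := by positivity
      have h8 : 1 ≤ (1 + 2 * (K * r)) * (1 - K * r) := by nlinarith
      calc ‖y - y'‖ ≤ (1 + 2 * (K * r)) * (1 - K * r) * ‖y - y'‖ :=
            le_mul_of_one_le_left (norm_nonneg _) h8
        _ = (1 + 2 * (K * r)) * ((1 - K * r) * ‖y - y'‖) := by ring
        _ ≤ _ := by gcongr
  have hmeas : Measurable fun z : E => ENNReal.ofReal (ker (r⁻¹ • z)) :=
    (continuous_ker.comp (continuous_const_smul _)).measurable.ennreal_ofReal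
  calc ∫⁻ y in S, ENNReal.ofReal (ker (r⁻¹ • (y - p))) ∂(μH[m] : Measure E)
      = ∫⁻ y in A, ENNReal.ofReal (ker (r⁻¹ • (y - p))) ∂(μH[m] : Measure E) := by
        rw [hA, ← Measure.restrict_restrict measurableSet_closedBall,
          ← lintegral_indicator measurableSet_closedBall]
        refine lintegral_congr fun y => ?_
        by_cases hy : y ∈ closedBall p r
        · rw [indicator_of_mem hy]
        · rw [indicator_of_notMem hy, ker_scale_zero' hr hy, ENNReal.ofReal_zero]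
    _ ≤ ∫⁻ y in A, ENNReal.ofReal (ker (r⁻¹ • q y)) ∂(μH[m] : Measure E) := by
        refine lintegral_mono fun y => ENNReal.ofReal_le_ofReal (ker_anti ?_)
        rw [norm_smul, norm_smul]
        exact mul_le_mul_of_nonneg_left (norm_proj_apply_le T _) (norm_nonneg _)
    _ = ∫⁻ z, ENNReal.ofReal (ker (r⁻¹ • z)) ∂(((μH[m] : Measure E).restrict A).map q) := by
        rw [lintegral_map hmeas hqc.measurable]
    _ ≤ ∫⁻ z, ENNReal.ofReal (ker (r⁻¹ • z))
          ∂(ENNReal.ofReal ((1 + 2 * (K * r)) ^ m) • (μH[m] : Measure E).restrict T) :=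
        lintegral_mono' hmap le_rfl
    _ = ENNReal.ofReal ((1 + 2 * (K * r)) ^ m) * ENNReal.ofReal (r ^ m * om m) := by
        rw [lintegral_smul_measure, smul_eq_mul, lintegral_ker_plane hTd hr]
    _ = _ := by rw [← ENNReal.ofReal_mul (by positivity)]

end Tube0

end Vale.Agent.P218N.G
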