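import Vale.Agent.P218N.G.LIRev
import Vale.Agent.P218N.G.LITube

/-! Energy comparison, part 6: good points, the number of sheets over a point, the bad set. -/

open MeasureTheory Set Filter Topology Metric
open scoped ENNReal NNReal RealInnerProductSpace

namespace Vale.Agent.P218N.G

open Vale.Agent.P214 (IntegralVarifold proj divAlong IsApproxTangent weightOf)
open Vale.Agent.P218 Vale.Agent.P218.H313

set_option linter.unusedSectionVars false
set_option linter.unusedVariables false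

variable {E : Type*} [NormedAddCommGroup E] [InnerProductSpace ℝ E] [FiniteDimensional ℝ E]
  [MeasurableSpace E] [BorelSpace E]
variable {m : ℕ} {μ : Measure E} {T : E → Submodule ℝ E} {H : E → E} {W : E → ℝ} {c K : ℝ}

/-- tilt and velocity -/
noncomputable def xs (T : E → Submodule ℝ E) (H : E → E) (W : E → ℝ) (y : E) : ℝ :=
  (1 + ‖y‖ ^ 2) * tg T W y ^ 2 + ‖vel T H y‖ ^ 2

/-- height, tilt and velocity -/
noncomputable def ex (T : E → Submodule ℝ E) (H : E → E) (W : E → ℝ) (y : E) : ℝ :=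
  W y ^ 2 + xs T H W y

lemma xs_nonneg (y : E) : 0 ≤ xs T H W y := by unfold xs; positivity

lemma ex_nonneg (y : E) : 0 ≤ ex T H W y := add_nonneg (sq_nonneg _) (xs_nonneg y)

lemma xs_le_ex (y : E) : xs T H W y ≤ ex T H W y := le_add_of_nonneg_left (sq_nonneg _)

lemma tg_sq_le (y : E) : tg T W y ^ 2 ≤ xs T H W y := by
  unfold xs
  have h1 : 0 ≤ ‖y‖ ^ 2 * tg T W y ^ 2 := by positivity
  nlinarith [sq_nonneg ‖vel T H y‖]

lemma xs_meas (hS : Slice m μ T H) (hW : ContDiff ℝ 1 W) : AEStronglyMeasurable (xs T H W) μ :=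
  ((by fun_prop : Continuous fun y : E => 1 + ‖y‖ ^ 2).aestronglyMeasurable.mul
    ((tg_meas hS hW).pow 2)).add (hS.vel_meas.norm.pow 2)

lemma ex_meas (hS : Slice m μ T H) (hW : ContDiff ℝ 1 W) : AEStronglyMeasurable (ex T H W) μ :=
  (hW.continuous.pow 2).aestronglyMeasurable.add (xs_meas hS hW)

lemma xs_integrableOn (hS : Slice m μ T H) (hW : ContDiff ℝ 1 W) {A : Set E} (hA : IsCompact A) :
    IntegrableOn (xs T H W) A μ := by
  have := hS.mc.fin
  have h1 : Continuous fun y : E => (1 + ‖y‖ ^ 2) * ‖grad W y‖ ^ 2 + ‖y‖ ^ 2 := by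
    have := continuous_grad hW
    fun_prop
  refine Integrable.mono' ((h1.continuousOn.integrableOn_compact hA).add
    ((hS.mc.locL2 A hA).const_mul 2)) (xs_meas hS hW).restrict (Eventually.of_forall fun y => ?_)
  rw [Real.norm_of_nonneg (xs_nonneg y)]
  have a1 : tg T W y ^ 2 ≤ ‖grad W y‖ ^ 2 :=
    pow_le_pow_left₀ (norm_nonneg _) (norm_proj_apply_le _ _) 2
  have a2 : ‖vel T H y‖ ≤ ‖H y‖ + 1 / 2 * ‖y‖ := by
    unfold vel
    refine (norm_add_le _ _).trans ?_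
    rw [norm_smul, Real.norm_of_nonneg (by norm_num)]
    have := norm_sub_proj_le (T y) y
    linarith
  have a3 := pow_le_pow_left₀ (norm_nonneg _) a2 2
  have a4 : (1 + ‖y‖ ^ 2) * tg T W y ^ 2 ≤ (1 + ‖y‖ ^ 2) * ‖grad W y‖ ^ 2 := by gcongr
  show xs T H W y ≤ (1 + ‖y‖ ^ 2) * ‖grad W y‖ ^ 2 + ‖y‖ ^ 2 + 2 * ‖H y‖ ^ 2
  unfold xs
  nlinarith [sq_nonneg (‖H y‖ - 1 / 2 * ‖y‖), sq_nonneg ‖y‖]

lemma ex_integrableOn (hS : Slice m μ T H) (hW : ContDiff ℝ 1 W) {A : Set E} (hA : IsCompact A) :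
    IntegrableOn (ex T H W) A μ := by
  have := hS.mc.fin
  exact ((hW.continuous.pow 2).continuousOn.integrableOn_compact hA).add (xs_integrableOn hS hW hA)

lemma normH_le (hE : Module.finrank ℝ E = m + 1) (hW : Tube0 W c K) {y : E}
    (hT : Module.finrank ℝ (T y) = m) (hy : |W y| < c) : ‖H y‖ ≤ K + 2 + xs T H W y := by
  have h1 := hW.norm_perp_le hE hT hy y
  have h2 := hW.bx y
  have h3 : ‖H y‖ ≤ ‖vel T H y‖ + 1 / 2 * ‖y - proj (T y) y‖ := by
    have : H y = vel T H y - (1 / 2 : ℝ) • (y - proj (T y) y) := by unfold vel; abel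
    conv_lhs => rw [this]
    refine (norm_sub_le _ _).trans ?_
    rw [norm_smul, Real.norm_of_nonneg (by norm_num)]
  have h4 := hW.K_nonneg
  unfold xs tg
  nlinarith [sq_nonneg (‖vel T H y‖ - 1), sq_nonneg (‖y‖ * ‖proj (T y) (grad W y)‖ - 1),
    sq_nonneg ‖proj (T y) (grad W y)‖, sq_nonneg ‖vel T H y‖,
    sq_nonneg (‖y‖ * ‖proj (T y) (grad W y)‖)]

lemma integral_const_add_le [IsFiniteMeasureOnCompacts μ] {x : E} {t a b : ℝ} {g : E → ℝ}
    (hg : IntegrableOn g (closedBall x t) μ) :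
    IntegrableOn (fun y => a + b * g y) (closedBall x t) μ ∧
    ∫ y in closedBall x t, (a + b * g y) ∂μ
      = a * μ.real (closedBall x t) + b * ∫ y in closedBall x t, g y ∂μ := by
  have hprop : ProperSpace E := FiniteDimensional.proper_real E
  have h1 : IntegrableOn (fun _ : E => a) (closedBall x t) μ :=
    (locallyIntegrable_const a).integrableOn_isCompact (isCompact_closedBall x t)
  refine ⟨h1.add (hg.const_mul b), ?_⟩
  rw [integral_add h1 (hg.const_mul b), setIntegral_const, integral_const_mul, smul_eq_mul,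
    mul_comm]

/-- good points -/
structure Good (m : ℕ) (μ : Measure E) (T : E → Submodule ℝ E) (H : E → E) (W : E → ℝ)
    (θ : E → ℕ) (K β δ r₀ : ℝ) (y : E) : Prop where
  w : |W y| * K ≤ δ
  e : tg T W y ^ 2 ≤ δ
  mx : ∀ t, 0 < t → t ≤ r₀ → ∫ z in closedBall y t, xs T H W z ∂μ ≤ β ^ 2 * t ^ m
  one : 1 ≤ θ y
  tan : IsApproxTangent m μ y (θ y) (T y)

/-- the constants -/
structure Par (m k nb : ℕ) (c K C₀ β δ r₀ Λ M s τ : ℝ) : Prop where
  K1 : 1 ≤ K
  C0 : 0 < C₀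
  β0 : 0 < β
  β1 : β ≤ 1
  δ0 : 0 < δ
  δ1 : δ ≤ 1 / 8
  r0 : 0 < r₀
  r1 : r₀ ≤ 1
  Λ0 : 0 < Λ
  M0 : 0 < M
  hM : ∀ s, |deriv Real.smoothTransition s| ≤ M
  tube : 2 * δ + K * r₀ < c
  sep : Λ * (4 * δ) ≤ r₀
  err : 2 * (k + 1) * ((k + 1) * (2 * M * (k + 1) * Λ) * (β * (C₀ + 1))
    + r₀ * ((K + 2) * C₀ + 1) + 8 * C₀ / Λ) < om m / 4
  s0 : 0 < s
  s1 : s ≤ r₀
  s2 : 4 * C₀ * (s / r₀) ≤ om m / 4
  d2 : 4 * C₀ * (δ / r₀) ≤ om m / 4
  Ks : K * s ≤ 1 / 2
  τ0 : 0 < τ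
  gap : k * ((1 + 2 * (K * s)) ^ m * om m) / (1 - 4 * δ) ^ m + 4 * C₀ * (δ / s)
    + (K ^ 2 / δ ^ 2 + nb * (C₀ / β ^ 2)) * τ / s ^ m + r₀ * (12 * K ^ 2 * C₀ + (K + 2) * C₀)
    + 13 * τ / s ^ (m + 3) ≤ (k + 1 / 4) * om m

variable {θ : E → ℕ} {k nb : ℕ} {C₀ β δ r₀ Λ M s τ : ℝ}

lemma Good.abs_le (hP : Par m k nb c K C₀ β δ r₀ Λ M s τ) {y : E}
    (hy : Good m μ T H W θ K β δ r₀ y) : |W y| ≤ δ :=
  (le_mul_of_one_le_right (abs_nonneg _) hP.K1).trans hy.w

lemma Good.lt_c (hP : Par m k nb c K C₀ β δ r₀ Λ M s τ) {y : E}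
    (hy : Good m μ T H W θ K β δ r₀ y) : |W y| < c := by
  have h1 := hy.abs_le hP
  have h2 := hP.tube
  have h3 : 0 < K * r₀ := mul_pos (by linarith [hP.K1]) hP.r0
  linarith [hP.δ0]

lemma Good.foot_zero (hP : Par m k nb c K C₀ β δ r₀ Λ M s τ) (hW : Tube0 W c K) {y : E}
    (hy : Good m μ T H W θ K β δ r₀ y) : W (foot W y) = 0 := by
  refine hW.W_foot ?_
  have h1 := hy.abs_le hP
  have h2 := hP.tube
  have h3 : 0 < K * r₀ := mul_pos (by linarith [hP.K1]) hP.r0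
  have h4 := hy.w
  linarith

lemma Good.ctl (hE : Module.finrank ℝ E = m + 1) (hP : Par m k nb c K C₀ β δ r₀ Λ M s τ)
    (hW : Tube0 W c K) (hS : Slice m μ T H)
    (hratio : ∀ (x : E) (r : ℝ), 0 < r → r ≤ 1 → μ.real (closedBall x r) ≤ C₀ * r ^ m) {y : E}
    (hy : Good m μ T H W θ K β δ r₀ y) :
    Ctl m μ T H W (β * (C₀ + 1)) ((K + 2) * C₀ + 1) r₀ y := by
  have hfin := hS.mc.fin
  have hprop : ProperSpace E := FiniteDimensional.proper_real E
  intro t ht htr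
  have hK := isCompact_closedBall y t
  have hx := xs_integrableOn hS hW.li_cd1 hK
  have h1 := hratio y t ht (htr.trans hP.r1)
  have h2 := hy.mx t ht htr
  have hβ := hP.β0
  have hp : 0 < t ^ m := by positivity
  constructor
  · obtain ⟨i1, i2⟩ := integral_const_add_le (a := β) (b := β⁻¹) hx
    refine (integral_mono (tg_integrableOn hS hW.li_cd1 hK) i1 fun z => ?_).trans ?_
    · show tg T W z ≤ β + β⁻¹ * xs T H W z
      have a1 := tg_sq_le (T := T) (H := H) (W := W) z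
      have a2 : tg T W z * β ≤ β ^ 2 + xs T H W z := by nlinarith [sq_nonneg (tg T W z - β)]
      calc tg T W z = tg T W z * β * β⁻¹ := by field_simp
        _ ≤ (β ^ 2 + xs T H W z) * β⁻¹ := by gcongr
        _ = _ := by field_simp
    · rw [i2]
      calc β * μ.real (closedBall y t) + β⁻¹ * ∫ z in closedBall y t, xs T H W z ∂μ
          ≤ β * (C₀ * t ^ m) + β⁻¹ * (β ^ 2 * t ^ m) := by gcongr
        _ = _ := by field_simp
  · obtain ⟨i1, i2⟩ := integral_const_add_le (a := K + 2) (b := 1) hx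
    refine (integral_mono_ae (normH_integrableOn hS hK) i1 ?_).trans ?_
    · filter_upwards [ae_restrict_of_ae hS.mc.dim, ae_restrict_mem measurableSet_closedBall]
        with z hz1 hz2
      rw [one_mul]
      refine normH_le hE hW hz1 ?_
      have a1 := hW.li_lip y z
      have a2 := abs_sub_abs_le_abs_sub (W z) (W y)
      rw [mem_closedBall, dist_eq_norm] at hz2
      have a3 : K * ‖z - y‖ ≤ K * r₀ := mul_le_mul_of_nonneg_left (hz2.trans htr) hW.K_nonneg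
      linarith [hy.abs_le hP, hP.tube, hP.δ0]
    · rw [i2]
      have a1 : β ^ 2 ≤ 1 := pow_le_one₀ hβ.le hP.β1
      have a2 := hW.K_nonneg
      calc (K + 2) * μ.real (closedBall y t) + 1 * ∫ z in closedBall y t, xs T H W z ∂μ
          ≤ (K + 2) * (C₀ * t ^ m) + 1 * (1 * t ^ m) := by
            gcongr
            exact h2.trans (by gcongr)
        _ = _ := by ring

/-- **at most `k` sheets over a point** -/
theorem fibre_le (hE : Module.finrank ℝ E = m + 1) (hP : Par m k nb c K C₀ β δ r₀ Λ M s τ)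
    (hW : Tube0 W c K) (hS : Slice m μ T H)
    (hratio : ∀ (x : E) (r : ℝ), 0 < r → r ≤ 1 → μ.real (closedBall x r) ≤ C₀ * r ^ m)
    (Y : Finset E) (p : E) (hY : ∀ y ∈ Y, Good m μ T H W θ K β δ r₀ y ∧ foot W y = p ∧
      JJ m μ (fun _ => 1) y r₀ ≤ (k + 3 / 4) * om m) : ∑ y ∈ Y, θ y ≤ k := by
  have hC := hP.C0
  have hK := hW.K_nonneg
  have hβ := hP.β0
  have hΛ := hP.Λ0
  have hM := hP.M0
  have hr := hP.r0
  have main : ∀ Y' : Finset E, Y' ⊆ Y → Y'.card ≤ k + 1 → ∑ y ∈ Y', θ y ≤ k := by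
    intro Y' hsub hcard
    rcases Y'.eq_empty_or_nonempty with rfl | ⟨x, hx⟩
    · simp
    have h := multi hS hW.li_cd1 (θ := θ) (a := β * (C₀ + 1)) (b := (K + 2) * C₀ + 1) (r₀ := r₀)
      (by positivity) (by positivity) hC.le hΛ hM hP.hM
      (fun x r h1 h2 => hratio x r h1 (h2.trans hP.r1)) (k + 1) (k + 1) Y' (fun _ => 1) 0 r₀ 0 x
      hcard hcard hx (fun y hy => ⟨(hY y (hsub hy)).1.ctl hE hP hW hS hratio,
        ⟨_, (hY y (hsub hy)).1.tan⟩, rfl⟩) (fun y hy y' hy' => ?_) (Wt.one T W) hr le_rfl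
      (by simp)
    · have h1 := (hY x (hsub hx)).2.2
      have h2 := hP.err
      set δ' := (k + 1) * (2 * M * (k + 1) * Λ) * (β * (C₀ + 1))
        + r₀ * ((K + 2) * C₀ + 1) + 8 * C₀ / Λ with hδ'
      have h3 : 0 ≤ δ' := by positivity
      have h4 : (Y'.card : ℝ) ≤ k + 1 := by exact_mod_cast hcard
      have h5 : (2 * (Y'.card : ℝ) - 1) * δ' ≤ 2 * (k + 1) * δ' :=
        mul_le_mul_of_nonneg_right (by linarith) h3
      push_cast at h
      rw [zero_add, ← hδ'] at h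
      have h6 : (∑ y ∈ Y', (θ y : ℝ)) * om m < (k + 1) * om m := by linarith
      have h7 := lt_of_mul_lt_mul_right h6 (om_pos m).le
      have h8 : ∑ y ∈ Y', θ y < k + 1 := by exact_mod_cast h7
      omega
    · obtain ⟨g1, f1, -⟩ := hY y (hsub hy)
      obtain ⟨g2, f2, -⟩ := hY y' (hsub hy')
      have a1 := hW.fibre_sep (f1.trans f2.symm) (g1.lt_c hP) (by linarith [g2.w, hP.δ1])
      refine ⟨a1, le_trans ?_ hP.sep⟩
      have a2 := abs_sub (W y) (W y')
      have a3 := g1.abs_le hP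
      have a4 := g2.abs_le hP
      exact mul_le_mul_of_nonneg_left (by linarith) hΛ.le
  by_cases hc : Y.card ≤ k + 1
  · exact main Y subset_rfl hc
  · obtain ⟨Y', h1, h2⟩ := Finset.exists_subset_card_eq (s := Y) (n := k + 1) (by omega)
    have h3 := main Y' h1 h2.le
    have h4 : Y'.card ≤ ∑ y ∈ Y', θ y := by
      rw [Finset.card_eq_sum_ones]
      exact Finset.sum_le_sum fun y hy => (hY y (h1 hy)).1.one
    omega

/-- weighted maximal function estimate -/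
lemma bad_max [IsFiniteMeasureOnCompacts μ] {ω g : E → ℝ} (hω : Continuous ω) (ω0 : ∀ y, 0 ≤ ω y)
    (g0 : ∀ y, 0 ≤ g y) (hg : ∀ x t, IntegrableOn g (closedBall x t) μ) {Γ : ℝ} (hΓ : 0 ≤ Γ)
    (hC : 0 ≤ C₀) (hβ : 0 < β)
    (hratio : ∀ (x : E) (r : ℝ), 0 < r → r ≤ 1 → μ.real (closedBall x r) ≤ C₀ * r ^ m)
    {A U : Set E} (hU : MeasurableSet U)
    (hA : ∀ y ∈ A, ∃ t, 0 < t ∧ t ≤ 1 ∧ closedBall y t ⊆ U ∧
      (∀ z ∈ closedBall y t, ω z ≤ Γ * ω y ∧ ω y ≤ Γ * ω z) ∧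
      β ^ 2 * t ^ m < ∫ z in closedBall y t, g z ∂μ) :
    μ.withDensity (fun y => ENNReal.ofReal (ω y)) A ≤ (P214.BES.nB E : ℝ≥0∞) *
      (ENNReal.ofReal (C₀ / β ^ 2 * Γ ^ 2) * ∫⁻ y in U, ENNReal.ofReal (g y * ω y) ∂μ) := by
  have hprop : ProperSpace E := FiniteDimensional.proper_real E
  choose! r hr using hA
  have h := P214.BES.weak_type (μ.withDensity fun y => ENNReal.ofReal (ω y))
    (ENNReal.ofReal (C₀ / β ^ 2 * Γ ^ 2) • μ.withDensity fun y => ENNReal.ofReal (g y * ω y)) A U r 1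
    (fun x hx => (hr x hx).1) (fun x hx => (hr x hx).2.1) (fun x hx => ?_)
    (fun x hx => (hr x hx).2.2.1)
  · rwa [Measure.smul_apply, withDensity_apply _ hU, smul_eq_mul] at h
  obtain ⟨h1, h2, -, h4, h5⟩ := hr x hx
  set t := r x with ht
  have hx0 := ω0 x
  rw [Measure.smul_apply, withDensity_apply _ measurableSet_closedBall,
    withDensity_apply _ measurableSet_closedBall, smul_eq_mul]
  have e1 : μ (closedBall x t) = ENNReal.ofReal (μ.real (closedBall x t)) := by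
    rw [Measure.real, ENNReal.ofReal_toReal (isCompact_closedBall x t).measure_lt_top.ne]
  have e2 : C₀ * t ^ m ≤ C₀ / β ^ 2 * ∫ z in closedBall x t, g z ∂μ := by
    calc C₀ * t ^ m = C₀ / β ^ 2 * (β ^ 2 * t ^ m) := by field_simp
      _ ≤ _ := mul_le_mul_of_nonneg_left h5.le (by positivity)
  calc ∫⁻ z in closedBall x t, ENNReal.ofReal (ω z) ∂μ
      ≤ ∫⁻ z in closedBall x t, ENNReal.ofReal (Γ * ω x) ∂μ :=
        setLIntegral_mono measurable_const fun z hz => ENNReal.ofReal_le_ofReal (h4 z hz).1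
    _ = ENNReal.ofReal (Γ * ω x * μ.real (closedBall x t)) := by
        rw [setLIntegral_const, e1, ← ENNReal.ofReal_mul (by positivity)]
    _ ≤ ENNReal.ofReal (∫ z in closedBall x t, Γ * ω x * (C₀ / β ^ 2) * g z ∂μ) := by
        refine ENNReal.ofReal_le_ofReal ?_
        rw [integral_const_mul, mul_assoc (Γ * ω x)]
        exact mul_le_mul_of_nonneg_left ((hratio x t h1 h2).trans e2) (by positivity)
    _ = ∫⁻ z in closedBall x t, ENNReal.ofReal (Γ * ω x * (C₀ / β ^ 2) * g z) ∂μ :=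
        ofReal_integral_eq_lintegral_ofReal ((hg x t).const_mul _)
          (Eventually.of_forall fun z => by have := g0 z; positivity)
    _ ≤ ∫⁻ z in closedBall x t, ENNReal.ofReal (C₀ / β ^ 2 * Γ ^ 2)
          * ENNReal.ofReal (g z * ω z) ∂μ := by
        refine lintegral_mono_ae ?_
        filter_upwards [ae_restrict_mem measurableSet_closedBall] with z hz
        rw [← ENNReal.ofReal_mul (by positivity)]
        refine ENNReal.ofReal_le_ofReal ?_
        have a1 := (h4 z hz).2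
        have a2 := g0 z
        calc Γ * ω x * (C₀ / β ^ 2) * g z ≤ Γ * (Γ * ω z) * (C₀ / β ^ 2) * g z := by gcongr
          _ = _ := by ring
    _ = _ := lintegral_const_mul' _ _ ENNReal.ofReal_ne_top

/-- the weighted measure of the bad points -/
theorem bad_le (hP : Par m k nb c K C₀ β δ r₀ Λ M s τ) (hW : Tube0 W c K) (hS : Slice m μ T H)
    (hratio : ∀ (x : E) (r : ℝ), 0 < r → r ≤ 1 → μ.real (closedBall x r) ≤ C₀ * r ^ m)
    (htan : ∀ᵐ y ∂μ, 1 ≤ θ y ∧ IsApproxTangent m μ y (θ y) (T y))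
    {ω : E → ℝ} (hω : Continuous ω) (ω0 : ∀ y, 0 ≤ ω y) {Γ : ℝ} (hΓ : 0 ≤ Γ) {x : E} {R : ℝ}
    (hωΓ : ∀ y ∈ closedBall x R, ∀ z ∈ closedBall y 1, ω z ≤ Γ * ω y ∧ ω y ≤ Γ * ω z) :
    μ.withDensity (fun y => ENNReal.ofReal (ω y))
        {y | y ∈ closedBall x R ∧ ¬ Good m μ T H W θ K β δ r₀ y}
      ≤ ENNReal.ofReal (K ^ 2 / δ ^ 2 + P214.BES.nB E * (C₀ / β ^ 2 * Γ ^ 2))
        * ∫⁻ y in closedBall x (R + 1), ENNReal.ofReal (ex T H W y * ω y) ∂μ := by
  have hfin := hS.mc.fin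
  have hprop : ProperSpace E := FiniteDimensional.proper_real E
  set ν := μ.withDensity (fun y => ENNReal.ofReal (ω y)) with hν
  set I := ∫⁻ y in closedBall x (R + 1), ENNReal.ofReal (ex T H W y * ω y) ∂μ with hI
  set A₁ : Set E := {y | y ∈ closedBall x R ∧ 1 ≤ K ^ 2 / δ ^ 2 * ex T H W y} with hA₁
  set A₂ : Set E := {y | y ∈ closedBall x R ∧ ∃ t, 0 < t ∧ t ≤ r₀ ∧
    β ^ 2 * t ^ m < ∫ z in closedBall y t, xs T H W z ∂μ} with hA₂
  set A₃ : Set E := {y | ¬ (1 ≤ θ y ∧ IsApproxTangent m μ y (θ y) (T y))} with hA₃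
  have hδ := hP.δ0
  have hK1 := hP.K1
  have hsub : {y | y ∈ closedBall x R ∧ ¬ Good m μ T H W θ K β δ r₀ y} ⊆ A₁ ∪ A₂ ∪ A₃ := by
    rintro y ⟨hy1, hy2⟩
    by_contra hcon
    simp only [mem_union, not_or, hA₁, hA₂, hA₃, mem_ofPred_eq, not_and, not_le, not_exists,
      not_lt] at hcon
    obtain ⟨⟨a1, a2⟩, a3⟩ := hcon
    have b1 := a1 hy1
    rw [div_mul_eq_mul_div, div_lt_one (by positivity)] at b1
    have b2 : K ^ 2 * W y ^ 2 ≤ K ^ 2 * ex T H W y := by
      gcongr; exact le_add_of_nonneg_right (xs_nonneg y)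
    have b3 : tg T W y ^ 2 ≤ K ^ 2 * ex T H W y :=
      ((tg_sq_le y).trans (xs_le_ex y)).trans
        (le_mul_of_one_le_left (ex_nonneg y) (one_le_pow₀ hK1))
    refine hy2 ⟨?_, ?_, fun t h1 h2 => a2 hy1 t h1 h2, ?_, ?_⟩
    · refine le_of_sq_le_sq ?_ hδ.le
      rw [mul_pow, sq_abs]; linarith
    · nlinarith [hP.δ1]
    · by_contra h; exact absurd (a3 · ) (by tauto)
    · by_contra h; exact absurd (a3 · ) (by tauto)
  have h3 : ν A₃ = 0 := withDensity_absolutelyContinuous μ _ (ae_iff.1 htan)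
  have h2 : ν A₂ ≤ (P214.BES.nB E : ℝ≥0∞) * (ENNReal.ofReal (C₀ / β ^ 2 * Γ ^ 2) * I) := by
    refine (bad_max (U := closedBall x (R + 1)) hω ω0 (fun y => xs_nonneg y)
      (fun x t => xs_integrableOn hS hW.li_cd1 (isCompact_closedBall x t)) hΓ hP.C0.le hP.β0 hratio
      measurableSet_closedBall fun y hy => ?_).trans ?_
    · obtain ⟨a1, t, a2, a3, a4⟩ := hy
      have a5 : t ≤ 1 := a3.trans hP.r1
      refine ⟨t, a2, a5, closedBall_subset_closedBall' ?_,
        fun z hz => hωΓ y a1 z (closedBall_subset_closedBall a5 hz), a4⟩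
      rw [mem_closedBall] at a1; linarith
    · exact mul_le_mul_right (mul_le_mul_right (lintegral_mono fun y =>
        ENNReal.ofReal_le_ofReal (mul_le_mul_of_nonneg_right (xs_le_ex y) (ω0 y))) _) _
  have h1 : ν A₁ ≤ ENNReal.ofReal (K ^ 2 / δ ^ 2) * I := by
    have hA₁m : NullMeasurableSet A₁ μ :=
      measurableSet_closedBall.nullMeasurableSet.inter (nullMeasurableSet_le aemeasurable_const
        ((ex_meas hS hW.li_cd1).aemeasurable.const_mul _))
    rw [hν, withDensity_apply₀ _ hA₁m, hI, ← lintegral_const_mul' _ _ ENNReal.ofReal_ne_top]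
    calc ∫⁻ y in A₁, ENNReal.ofReal (ω y) ∂μ
        ≤ ∫⁻ y in A₁, ENNReal.ofReal (K ^ 2 / δ ^ 2) * ENNReal.ofReal (ex T H W y * ω y) ∂μ := by
          refine lintegral_mono_ae ?_
          filter_upwards [ae_restrict_mem₀ hA₁m] with y hy
          rw [← ENNReal.ofReal_mul (by positivity), ← mul_assoc]
          exact ENNReal.ofReal_le_ofReal (le_mul_of_one_le_left (ω0 y) hy.2)
      _ ≤ _ := lintegral_mono_set fun y hy => closedBall_subset_closedBall (by linarith) hy.1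
  have hC := hP.C0
  calc ν _ ≤ ν (A₁ ∪ A₂ ∪ A₃) := measure_mono hsub
    _ ≤ ν A₁ + ν A₂ + ν A₃ := (measure_union_le _ _).trans (by gcongr; exact measure_union_le _ _)
    _ ≤ ENNReal.ofReal (K ^ 2 / δ ^ 2) * I
        + (P214.BES.nB E : ℝ≥0∞) * (ENNReal.ofReal (C₀ / β ^ 2 * Γ ^ 2) * I) + 0 := by
        rw [h3]; gcongr
    _ = _ := by
        rw [add_zero, ENNReal.ofReal_add (by positivity) (by positivity),
          ENNReal.ofReal_mul (Nat.cast_nonneg _), ENNReal.ofReal_natCast]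
        ring

end Vale.Agent.P218N.G
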