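import Vale.Agent.P218N.G.Model

/-! The Hausdorff measure of the zero set of a tube function: uniform density bounds and full
support. -/

open MeasureTheory Set Filter Topology Metric
open scoped ENNReal NNReal RealInnerProductSpace

namespace Vale.Agent.P218N.G

open Vale.Agent.P214 (proj)
open Vale.Agent.P218 Vale.Agent.P218.H313

set_option linter.unusedSectionVars false
set_option linter.unusedVariables false

variable {E : Type*} [NormedAddCommGroup E] [InnerProductSpace ℝ E] [FiniteDimensional ℝ E]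
variable {m : ℕ} {W : E → ℝ} {c K : ℝ}

lemma Tube0.grad_lip (hW : Tube0 W c K) (x z : E) : ‖grad W z - grad W x‖ ≤ K * ‖z - x‖ := by
  apply Convex.norm_image_sub_le_of_norm_hasFDerivWithin_le (𝕜 := ℝ) (s := univ)
    (f' := fderiv ℝ (grad W)) _ (fun y _ => hW.b2 y) convex_univ (mem_univ _) (mem_univ _)
  intro y _
  exact (hW.grad_cd.differentiable (by norm_num) y).hasFDerivAt.hasFDerivWithinAt

lemma Tube0.lip (hW : Tube0 W c K) (x z : E) : |W z - W x| ≤ K * ‖z - x‖ := by
  rw [← Real.norm_eq_abs]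
  apply Convex.norm_image_sub_le_of_norm_hasFDerivWithin_le (𝕜 := ℝ) (s := univ)
    (f' := fderiv ℝ W) _ (fun y _ => by rw [← norm_grad]; exact hW.b1 y) convex_univ
    (mem_univ _) (mem_univ _)
  intro y _
  exact (hW.diff y).hasFDerivAt.hasFDerivWithinAt

/-- first order expansion in a ball -/
lemma Tube0.taylor (hW : Tube0 W c K) {x : E} {r : ℝ} {y y' : E}
    (hy : y ∈ closedBall x r) (hy' : y' ∈ closedBall x r) :
    |W y - W y' - ⟪grad W x, y - y'⟫| ≤ K * r * ‖y - y'‖ := by
  set F : E → ℝ := fun z => W z - ⟪grad W x, z⟫ with hF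
  have hFd : ∀ z ∈ closedBall x r, HasFDerivWithinAt F (fderiv ℝ W z - innerSL ℝ (grad W x))
      (closedBall x r) z := by
    intro z _
    exact ((hW.diff z).hasFDerivAt.sub (innerSL ℝ (grad W x)).hasFDerivAt).hasFDerivWithinAt
  have hlip : ∀ z ∈ closedBall x r, ‖fderiv ℝ W z - innerSL ℝ (grad W x)‖ ≤ K * r := by
    intro z hz
    have h1 := hW.grad_lip x z
    have h2 : ‖z - x‖ ≤ r := by rwa [← dist_eq_norm]
    have hK := hW.K_nonneg
    refine ContinuousLinearMap.opNorm_le_bound _ (by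
      have : 0 ≤ r := (norm_nonneg _).trans h2
      positivity) fun v => ?_
    have h3 : (fderiv ℝ W z - innerSL ℝ (grad W x)) v = ⟪grad W z - grad W x, v⟫ := by
      rw [inner_sub_left, inner_grad]; rfl
    rw [h3]
    refine (norm_inner_le_norm _ _).trans ?_
    apply mul_le_mul_of_nonneg_right _ (norm_nonneg _)
    exact h1.trans (mul_le_mul_of_nonneg_left h2 hK)
  have h4 := (convex_closedBall x r).norm_image_sub_le_of_norm_hasFDerivWithin_le (𝕜 := ℝ)
    hFd hlip hy' hy
  simp only [hF] at h4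
  rw [Real.norm_eq_abs] at h4
  refine le_trans (le_of_eq ?_) h4
  rw [inner_sub_right]
  congr 1
  ring

lemma proj_orth {g : E} (hg1 : ‖g‖ = 1) (v : E) :
    proj ((ℝ ∙ g)ᗮ : Submodule ℝ E) v = v - ⟪g, v⟫ • g := by
  unfold proj
  rw [Submodule.starProjection_orthogonal_val v, Submodule.starProjection_unit_singleton ℝ hg1]

lemma finrank_orth (hE : Module.finrank ℝ E = m + 1) {g : E} (hg1 : ‖g‖ = 1) :
    Module.finrank ℝ ((ℝ ∙ g)ᗮ : Submodule ℝ E) = m := by
  have hg0 : g ≠ 0 := by intro h; rw [h, norm_zero] at hg1; norm_num at hg1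
  have : Fact (Module.finrank ℝ E = m + 1) := ⟨hE⟩
  exact Submodule.finrank_orthogonal_span_singleton hg0

/-- the constant in the density bound -/
noncomputable def LK (K r : ℝ) : ℝ := (√(1 - (K * r) ^ 2))⁻¹

lemma LK_pos {K r : ℝ} (h0 : 0 ≤ K * r) (h : K * r < 1) : 0 < LK K r := by
  have : 0 < 1 - (K * r) ^ 2 := by nlinarith
  unfold LK
  positivity

lemma tendsto_LK (K : ℝ) : Tendsto (LK K) (𝓝 0) (𝓝 1) := by
  have h2 : ContinuousAt (LK K) 0 := by
    unfold LK
    apply ContinuousAt.inv₀ (by fun_prop)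
    simp
  have h3 := h2.tendsto
  have h4 : LK K 0 = 1 := by simp [LK]
  rwa [h4] at h3

variable [MeasurableSpace E] [BorelSpace E]

lemma Tube0.isClosed (hW : Tube0 W c K) : IsClosed {x | W x = 0} :=
  isClosed_eq hW.cont continuous_const

lemma Tube0.ae_zero (hW : Tube0 W c K) : ∀ᵐ x ∂(sig m W), W x = 0 :=
  ae_restrict_mem hW.isClosed.measurableSet

/-- **uniform density bound** -/
theorem Tube0.lintegral_ker_le (hE : Module.finrank ℝ E = m + 1) (hW : Tube0 W c K) (x : E)
    {r : ℝ} (hr0 : 0 < r) (h2 : K * r < 1) (h3 : K * r < c) :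
    ∫⁻ y, ENNReal.ofReal (ker (r⁻¹ • (y - x))) ∂(sig m W)
      ≤ ENNReal.ofReal (LK K r ^ m * (r ^ m * om m)) := by
  set S : Set E := {z | W z = 0} with hS
  have hSc : IsClosed S := hW.isClosed
  have hK := hW.K_nonneg
  set A : Set E := S ∩ closedBall x r with hA
  have e0 : ∫⁻ y, ENNReal.ofReal (ker (r⁻¹ • (y - x))) ∂(sig m W)
      = ∫⁻ y in A, ENNReal.ofReal (ker (r⁻¹ • (y - x))) ∂(μH[m] : Measure E) := by
    have e1 : ∫⁻ y in S, ENNReal.ofReal (ker (r⁻¹ • (y - x))) ∂(μH[m] : Measure E)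
        = ∫⁻ y in S, (closedBall x r).indicator
          (fun y => ENNReal.ofReal (ker (r⁻¹ • (y - x)))) y ∂(μH[m] : Measure E) := by
      apply lintegral_congr
      intro y
      by_cases hy : y ∈ closedBall x r
      · rw [indicator_of_mem hy]
      · rw [indicator_of_notMem hy, ker_scale_zero' hr0 hy, ENNReal.ofReal_zero]
    unfold sig
    rw [e1, lintegral_indicator isClosed_closedBall.measurableSet,
      Measure.restrict_restrict isClosed_closedBall.measurableSet, inter_comm]
  rw [e0]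
  by_cases hx : |W x| < c
  swap
  · have h4 : A = ∅ := by
      rw [eq_empty_iff_forall_notMem]
      rintro y ⟨hy1, hy2⟩
      have h5 := hW.lip x y
      have h6 : W y = 0 := hy1
      have h7 : ‖y - x‖ ≤ r := by rwa [← dist_eq_norm]
      rw [h6, zero_sub, abs_neg] at h5
      have h8 := mul_le_mul_of_nonneg_left h7 hK
      exact hx (by linarith)
    rw [h4]
    simp
  set g := grad W x with hg
  have hg1 : ‖g‖ = 1 := hW.eik x hx
  set T : Submodule ℝ E := (ℝ ∙ g)ᗮ with hT
  have hTd : Module.finrank ℝ T = m := finrank_orth hE hg1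
  have hproj : ∀ v, proj T v = v - ⟪g, v⟫ • g := proj_orth hg1
  have hKr0 : 0 ≤ K * r := by positivity
  have hpos : 0 < 1 - (K * r) ^ 2 := by nlinarith
  have hLpos : 0 < LK K r := LK_pos hKr0 h2
  set q : E → E := fun y => proj T (y - x) with hq
  have hqc : Continuous q := (proj T).continuous.comp (by fun_prop)
  have hqT : ∀ y, q y ∈ T := fun y => H552.proj_mem T _
  have hexp : ∀ y ∈ A, ∀ y' ∈ A, dist y y' ≤ LK K r * dist (q y) (q y') := by
    intro y hy y' hy'
    have h3 := hW.taylor hy.2 hy'.2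
    have h0 : W y = 0 := hy.1
    have h0' : W y' = 0 := hy'.1
    rw [h0, h0', sub_self, zero_sub, abs_neg] at h3
    have h4 : q y - q y' = proj T (y - y') := by
      simp only [hq]; rw [← map_sub]; congr 1; abel
    have h5 : ‖proj T (y - y')‖ ^ 2 = ‖y - y'‖ ^ 2 - ⟪g, y - y'⟫ ^ 2 :=
      H63.norm_proj_sq hg1 hproj _
    have h6 : (1 - (K * r) ^ 2) * ‖y - y'‖ ^ 2 ≤ ‖proj T (y - y')‖ ^ 2 := by
      rw [h5]
      have h7 : ⟪g, y - y'⟫ ^ 2 ≤ (K * r * ‖y - y'‖) ^ 2 := by
        rw [← sq_abs]; exact pow_le_pow_left₀ (abs_nonneg _) h3 2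
      nlinarith
    rw [dist_eq_norm, dist_eq_norm, h4]
    have h8 : √(1 - (K * r) ^ 2) * ‖y - y'‖ ≤ ‖proj T (y - y')‖ := by
      apply le_of_sq_le_sq _ (norm_nonneg _)
      rw [mul_pow, Real.sq_sqrt hpos.le]
      exact h6
    have h9 : 0 < √(1 - (K * r) ^ 2) := Real.sqrt_pos.2 hpos
    calc ‖y - y'‖ = LK K r * (√(1 - (K * r) ^ 2) * ‖y - y'‖) := by
          unfold LK
          rw [← mul_assoc, inv_mul_cancel₀ h9.ne', one_mul]
      _ ≤ LK K r * ‖proj T (y - y')‖ := mul_le_mul_of_nonneg_left h8 hLpos.le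
  have hmeasle : ∀ s : Set E, MeasurableSet s → (μH[m] : Measure E) (A ∩ q ⁻¹' s)
      ≤ ENNReal.ofReal (LK K r ^ m) * (μH[m] : Measure E) (T ∩ s) := by
    intro s hs
    have hanti : AntilipschitzWith (LK K r).toNNReal (fun y : A => q y) := by
      refine AntilipschitzWith.of_le_mul_dist fun y y' => ?_
      rw [Real.coe_toNNReal _ hLpos.le]
      exact hexp y y.2 y' y'.2
    have h3 := hanti.hausdorffMeasure_preimage_le (d := (m : ℝ)) (Nat.cast_nonneg m)
      ((T : Set E) ∩ s)
    have h4 : (Subtype.val : A → E) '' ((fun y : A => q y) ⁻¹' ((T : Set E) ∩ s))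
        = A ∩ q ⁻¹' s := by
      ext y
      constructor
      · rintro ⟨z, hz, rfl⟩
        exact ⟨z.2, hz.2⟩
      · rintro ⟨hyA, hys⟩
        exact ⟨⟨y, hyA⟩, ⟨hqT y, hys⟩, rfl⟩
    rw [← h4, isometry_subtype_coe.hausdorffMeasure_image (Or.inl (Nat.cast_nonneg m))]
    refine h3.trans (le_of_eq ?_)
    congr 1
    rw [ENNReal.rpow_natCast, ENNReal.ofReal_pow hLpos.le]
    rfl
  have hmap : ((μH[m] : Measure E).restrict A).map q
      ≤ ENNReal.ofReal (LK K r ^ m) • (μH[m] : Measure E).restrict T := by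
    refine Measure.le_iff.2 fun s hs => ?_
    rw [Measure.map_apply hqc.measurable hs, Measure.restrict_apply (hqc.measurable hs),
      Measure.smul_apply, Measure.restrict_apply hs, smul_eq_mul, inter_comm _ A, inter_comm s]
    exact hmeasle s hs
  have hmeas : Measurable fun z : E => ENNReal.ofReal (ker (r⁻¹ • z)) :=
    (continuous_ker.comp (continuous_const_smul _)).measurable.ennreal_ofReal
  have hom : 0 ≤ om m := (om_pos m).le
  calc ∫⁻ y in A, ENNReal.ofReal (ker (r⁻¹ • (y - x))) ∂(μH[m] : Measure E)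
      ≤ ∫⁻ y in A, ENNReal.ofReal (ker (r⁻¹ • q y)) ∂(μH[m] : Measure E) := by
        apply lintegral_mono
        intro y
        apply ENNReal.ofReal_le_ofReal
        apply ker_anti
        rw [norm_smul, norm_smul]
        apply mul_le_mul_of_nonneg_left _ (norm_nonneg _)
        exact norm_proj_apply_le T _
    _ = ∫⁻ z, ENNReal.ofReal (ker (r⁻¹ • z)) ∂(((μH[m] : Measure E).restrict A).map q) := by
        rw [lintegral_map hmeas hqc.measurable]
    _ ≤ ∫⁻ z, ENNReal.ofReal (ker (r⁻¹ • z))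
          ∂(ENNReal.ofReal (LK K r ^ m) • (μH[m] : Measure E).restrict T) :=
        lintegral_mono' hmap le_rfl
    _ = ENNReal.ofReal (LK K r ^ m) * ENNReal.ofReal (r ^ m * om m) := by
        rw [lintegral_smul_measure, smul_eq_mul, lintegral_ker_plane hTd hr0]
    _ = _ := by rw [← ENNReal.ofReal_mul (by positivity)]

/-- the density bound for the Bochner integral -/
theorem Tube0.integral_ker_le (hE : Module.finrank ℝ E = m + 1) (hW : Tube0 W c K) (x : E)
    {r : ℝ} (hr0 : 0 < r) (h2 : K * r < 1) (h3 : K * r < c) :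
    (∫ y, ker (r⁻¹ • (y - x)) ∂(sig m W)) / r ^ m ≤ LK K r ^ m * om m := by
  have hLpos : 0 < LK K r := LK_pos (mul_nonneg hW.K_nonneg hr0.le) h2
  have hom : 0 ≤ om m := (om_pos m).le
  rw [div_le_iff₀ (by positivity),
    integral_eq_lintegral_of_nonneg_ae (Eventually.of_forall fun y => ker_nonneg _)
      (continuous_ker.comp (by fun_prop)).aestronglyMeasurable]
  refine (ENNReal.toReal_le_of_le_ofReal (by positivity)
    (hW.lintegral_ker_le hE x hr0 h2 h3)).trans (le_of_eq ?_)
  ring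

/-- the mass of small balls -/
theorem Tube0.sig_ball_le (hE : Module.finrank ℝ E = m + 1) (hW : Tube0 W c K) (x : E)
    {r : ℝ} (hr0 : 0 < r) (h2 : K * (2 * r) < 1) (h3 : K * (2 * r) < c) :
    sig m W (closedBall x r)
      ≤ ENNReal.ofReal (2 * (LK K (2 * r) ^ m * ((2 * r) ^ m * om m))) := by
  have h1 := hW.lintegral_ker_le hE x (r := 2 * r) (by positivity) h2 h3
  have h4 : sig m W (closedBall x r)
      ≤ ∫⁻ y, 2 * ENNReal.ofReal (ker ((2 * r)⁻¹ • (y - x))) ∂(sig m W) := by
    rw [← lintegral_indicator_one isClosed_closedBall.measurableSet]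
    refine lintegral_mono fun y => ?_
    by_cases hy : y ∈ closedBall x r
    · rw [indicator_of_mem hy, Pi.one_apply]
      have h5 : ‖y - x‖ ≤ r := by rwa [← dist_eq_norm]
      have h6 : ‖(2 * r)⁻¹ • (y - x)‖ ≤ 1 / 2 := by
        rw [norm_smul, norm_inv, Real.norm_of_nonneg (by positivity), inv_mul_le_iff₀ (by positivity)]
        linarith
      have h7 : 1 / 2 ≤ ker ((2 * r)⁻¹ • (y - x)) := by
        unfold H313.ker
        have h8 : ‖(2 * r)⁻¹ • (y - x)‖ ^ 2 ≤ 1 / 4 := by nlinarith [norm_nonneg ((2 * r)⁻¹ • (y - x))]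
        have h9 : 3 / 4 ≤ max (1 - ‖(2 * r)⁻¹ • (y - x)‖ ^ 2) 0 := le_max_of_le_left (by linarith)
        nlinarith
      rw [← ENNReal.ofReal_ofNat, ← ENNReal.ofReal_mul (by norm_num), ← ENNReal.ofReal_one]
      exact ENNReal.ofReal_le_ofReal (by linarith)
    · rw [indicator_of_notMem hy]
      exact zero_le
  refine h4.trans ?_
  rw [lintegral_const_mul' _ _ (by simp), ENNReal.ofReal_mul (by norm_num), ENNReal.ofReal_ofNat]
  exact mul_le_mul_right h1 _

theorem Tube0.sig_locFin (hE : Module.finrank ℝ E = m + 1) (hW : Tube0 W c K) :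
    IsLocallyFiniteMeasure (sig m W) := by
  refine ⟨fun x => ?_⟩
  have hK := hW.K_nonneg
  have hc := hW.cpos
  set r : ℝ := min 1 c / (4 * (K + 1)) with hr
  have hm : 0 < min 1 c := lt_min one_pos hc
  have hr0 : 0 < r := by positivity
  have h1 : K * (2 * r) < min 1 c := by
    rw [hr, show K * (2 * (min 1 c / (4 * (K + 1)))) = min 1 c * (K / (2 * (K + 1))) by
      field_simp; ring]
    refine mul_lt_of_lt_one_right hm ?_
    rw [div_lt_one (by positivity)]
    linarith
  exact ⟨closedBall x r, closedBall_mem_nhds x hr0, (hW.sig_ball_le hE x hr0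
    (h1.trans_le (min_le_left _ _)) (h1.trans_le (min_le_right _ _))).trans_lt
      ENNReal.ofReal_lt_top⟩

/-- **full support** -/
theorem Tube0.sig_pos (hE : Module.finrank ℝ E = m + 1) (hW : Tube0 W c K) {z : E} (hz : W z = 0)
    {ε : ℝ} (hε : 0 < ε) : sig m W (closedBall z ε) ≠ 0 := by
  have hK := hW.K_nonneg
  set δ : ℝ := min (ε / 2) (1 / (8 * (K + 1))) with hδ
  have hδ0 : 0 < δ := lt_min (by positivity) (by positivity)
  have hδ1 : 2 * δ ≤ ε := by have := min_le_left (ε / 2) (1 / (8 * (K + 1))); linarith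
  have hδ2 : K * (2 * δ) * (2 * δ) < δ := by
    have h1 : δ ≤ 1 / (8 * (K + 1)) := min_le_right _ _
    rw [le_div_iff₀ (by positivity)] at h1
    nlinarith
  set g := grad W z with hg
  have hg1 : ‖g‖ = 1 := hW.eik z (by rw [hz, abs_zero]; exact hW.cpos)
  set T : Submodule ℝ E := (ℝ ∙ g)ᗮ with hT
  have hTd : Module.finrank ℝ T = m := finrank_orth hE hg1
  have hproj : ∀ v, proj T v = v - ⟪g, v⟫ • g := proj_orth hg1
  set q : E → E := fun y => proj T (y - z) with hq
  have hsub : (T : Set E) ∩ closedBall 0 δ ⊆ q '' ({x | W x = 0} ∩ closedBall z ε) := by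
    rintro v ⟨hvT, hv⟩
    rw [mem_closedBall_zero_iff] at hv
    have hgv : ⟪g, v⟫ = 0 := Submodule.mem_orthogonal_singleton_iff_inner_right.1 hvT
    have hn : ∀ t ∈ Icc (-δ) δ, ‖z + v + t • g - z‖ ≤ 2 * δ := by
      intro t ht
      have e : z + v + t • g - z = v + t • g := by abel
      rw [e]
      refine (norm_add_le _ _).trans ?_
      rw [norm_smul, hg1, mul_one, Real.norm_eq_abs]
      have := abs_le.2 ⟨ht.1, ht.2⟩
      linarith
    have hval : ∀ t ∈ Icc (-δ) δ, |W (z + v + t • g) - t| < δ := by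
      intro t ht
      have h1 := hW.taylor (x := z) (r := 2 * δ) (y := z + v + t • g) (y' := z)
        (by rw [mem_closedBall, dist_eq_norm]; exact hn t ht)
        (mem_closedBall_self (by positivity))
      have e : ⟪grad W z, z + v + t • g - z⟫ = t := by
        have e1 : z + v + t • g - z = v + t • g := by abel
        rw [e1, inner_add_right, ← hg, hgv, real_inner_smul_right, real_inner_self_eq_norm_sq, hg1]
        ring
      rw [hz, sub_zero, e] at h1
      have h2 := mul_le_mul_of_nonneg_left (hn t ht) (show 0 ≤ K * (2 * δ) by positivity)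
      linarith
    have hcont : ContinuousOn (fun t : ℝ => W (z + v + t • g)) (Icc (-δ) δ) :=
      (hW.cont.comp (by fun_prop)).continuousOn
    have h1 := abs_lt.1 (hval (-δ) ⟨le_rfl, by linarith⟩)
    have h2 := abs_lt.1 (hval δ ⟨by linarith, le_rfl⟩)
    obtain ⟨t, ht, ht0⟩ := intermediate_value_Icc (by linarith : -δ ≤ δ) hcont
      (show (0 : ℝ) ∈ Icc (W (z + v + (-δ) • g)) (W (z + v + δ • g)) from
        ⟨by linarith [h1.2], by linarith [h2.1]⟩)
    refine ⟨z + v + t • g, ⟨ht0, ?_⟩, ?_⟩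
    · rw [mem_closedBall, dist_eq_norm]
      exact (hn t ht).trans hδ1
    · have e1 : z + v + t • g - z = v + t • g := by abel
      simp only [hq]
      rw [e1, hproj, inner_add_right, hgv, real_inner_smul_right, real_inner_self_eq_norm_sq, hg1]
      simp
  have hlip : LipschitzWith 1 q := by
    refine LipschitzWith.of_dist_le_mul fun y y' => ?_
    have h4 : q y - q y' = proj T (y - y') := by
      simp only [hq]; rw [← map_sub]; congr 1; abel
    rw [dist_eq_norm, dist_eq_norm, h4, NNReal.coe_one, one_mul]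
    exact norm_proj_apply_le T _
  have h1 := hlip.hausdorffMeasure_image_le (d := (m : ℝ)) (Nat.cast_nonneg m)
    ({x | W x = 0} ∩ closedBall z ε)
  simp only [ENNReal.coe_one, ENNReal.one_rpow, one_mul] at h1
  intro h0
  unfold sig at h0
  rw [Measure.restrict_apply isClosed_closedBall.measurableSet, inter_comm] at h0
  have h2 : (μH[m] : Measure E) ((T : Set E) ∩ closedBall 0 δ) = 0 :=
    le_antisymm ((measure_mono hsub).trans (h1.trans h0.le)) zero_le
  have h3 := lintegral_ker_plane hTd hδ0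
  have h4 : ∫⁻ y in (T : Set E), ENNReal.ofReal (ker (δ⁻¹ • y)) ∂(μH[m] : Measure E) = 0 := by
    refine lintegral_eq_zero_of_ae_eq_zero ?_
    have h5 : ∀ᵐ y ∂(μH[m] : Measure E).restrict (T : Set E), y ∉ closedBall (0 : E) δ := by
      rw [ae_iff]
      simp only [not_not, ofPred_mem_eq]
      rw [Measure.restrict_apply isClosed_closedBall.measurableSet, inter_comm]
      exact h2
    filter_upwards [h5] with y hy
    have := ker_scale_zero' hδ0 hy
    rw [sub_zero] at this
    simp [this]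
  rw [h4, eq_comm, ENNReal.ofReal_eq_zero] at h3
  have := om_pos m
  have h6 : 0 < δ ^ m * om m := by positivity
  linarith

/-- continuous functions vanishing almost everywhere on the zero set vanish on it -/
theorem Tube0.eq_zero_of_ae (hE : Module.finrank ℝ E = m + 1) (hW : Tube0 W c K) {f : E → ℝ}
    (hf : Continuous f) (h : ∀ᵐ x ∂(sig m W), f x = 0) {z : E} (hz : W z = 0) : f z = 0 := by
  by_contra hne
  have h1 : ∀ᶠ y in 𝓝 z, f y ≠ 0 := hf.continuousAt.eventually_ne hne
  obtain ⟨ε, hε, hb⟩ := Metric.nhds_basis_closedBall.eventually_iff.1 h1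
  refine hW.sig_pos hE hz hε (measure_mono_null (fun y hy => ?_) (ae_iff.1 h))
  exact hb hy

end Vale.Agent.P218N.G
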