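import Vale.Agent.P218N.G.LIGood

/-! Energy comparison, part 7: the gap lemma and propagation of the density bound along the zero
set of the tube function. -/

open MeasureTheory Set Filter Topology Metric
open scoped ENNReal NNReal RealInnerProductSpace

namespace Vale.Agent.P218N.G

open Vale.Agent.P214 (IntegralVarifold proj divAlong IsApproxTangent weightOf)
open Vale.Agent.P218 Vale.Agent.P218.H313

set_option linter.unusedSectionVars false
set_option linter.unusedVariables false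

variable {E : Type*} [NormedAddCommGroup E] [InnerProductSpace ℝ E] [FiniteDimensional ℝ E]
  [MeasurableSpace E] [BorelSpace E]
variable {m : ℕ} {μ : Measure E} {T : E → Submodule ℝ E} {H : E → E} {W : E → ℝ} {c K : ℝ}
variable {θ : E → ℕ} {k nb : ℕ} {C₀ β δ r₀ Λ M s τ : ℝ}

lemma exists_small {p : ℝ → Prop} (h : ∀ᶠ x in 𝓝 (0:ℝ), p x) : ∃ x, 0 < x ∧ p x :=
  ((show ∀ᶠ x in 𝓝[>] (0:ℝ), 0 < x from self_mem_nhdsWithin).and
    (h.filter_mono nhdsWithin_le_nhds)).exists

lemma ev_lt {f : ℝ → ℝ} {a : ℝ} (hf : ContinuousAt f 0) (h : f 0 < a) :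
    ∀ᶠ x in 𝓝 (0:ℝ), f x < a := hf.eventually (gt_mem_nhds h)

theorem exists_par (m k nb : ℕ) {c K C₀ : ℝ} (hc : 0 < c) (hK : 1 ≤ K) (hC : 0 < C₀) :
    ∃ r₁, 0 < r₁ ∧ ∀ r₀, 0 < r₀ → r₀ ≤ r₁ →
      ∃ β δ Λ M s τ, Par m k nb c K C₀ β δ r₀ Λ M s τ := by
  have hom := om_pos m
  obtain ⟨M, hM0, hM⟩ := exists_step
  set Λ : ℝ := 2 * (k + 1) * (8 * C₀) * 12 / om m with hΛ
  have hΛ0 : 0 < Λ := by positivity
  have e1 : 2 * (k + 1) * (8 * C₀ / Λ) = om m / 12 := by rw [hΛ]; field_simp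
  obtain ⟨β, β0, β1, β2⟩ := exists_small ((ev_lt (f := fun x => x) (a := 1) (by fun_prop)
    one_pos).and (ev_lt (f := fun x => 2 * (k + 1) * ((k + 1) * (2 * M * (k + 1) * Λ)
      * (x * (C₀ + 1)))) (a := om m / 12) (by fun_prop) (by simp; positivity)))
  obtain ⟨r₁, q0, q1, q2, q3, q4⟩ := exists_small ((ev_lt (f := fun x => x) (a := 1) (by fun_prop)
    one_pos).and ((ev_lt (f := fun x => 2 * (k + 1) * (x * ((K + 2) * C₀ + 1))) (a := om m / 12)
      (by fun_prop) (by simp; positivity)).and ((ev_lt (f := fun x => K * x) (a := c / 2)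
      (by fun_prop) (by simp; positivity)).and
      (ev_lt (f := fun x => x * (12 * K ^ 2 * C₀ + (K + 2) * C₀)) (a := om m / 16)
      (by fun_prop) (by simp; positivity)))))
  refine ⟨r₁, q0, fun r₀ r0 hr => ?_⟩
  have hK0 : 0 ≤ K := by linarith
  have r1 : r₀ < 1 := hr.trans_lt q1
  have r2 : 2 * (k + 1) * (r₀ * ((K + 2) * C₀ + 1)) < om m / 12 :=
    lt_of_le_of_lt (by gcongr) q2
  have r3 : K * r₀ < c / 2 := lt_of_le_of_lt (by gcongr) q3
  have r4 : r₀ * (12 * K ^ 2 * C₀ + (K + 2) * C₀) < om m / 16 := lt_of_le_of_lt (by gcongr) q4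
  obtain ⟨s, s0, s1, s2, s3, s4⟩ := exists_small ((ev_lt (f := fun x => x) (a := r₀) (by fun_prop)
    r0).and ((ev_lt (f := fun x => 4 * C₀ * (x / r₀)) (a := om m / 4)
      (by fun_prop) (by simp; positivity)).and ((ev_lt (f := fun x => K * x) (a := 1 / 2)
      (by fun_prop) (by simp)).and
      (ev_lt (f := fun x => k * ((1 + 2 * (K * x)) ^ m * om m)) (a := (k + 1 / 16) * om m)
      (by fun_prop) (by simp; linarith)))))
  obtain ⟨δ, δ0, δ1, δ2, δ3, δ4, δ5⟩ := exists_small ((ev_lt (f := fun x => x) (a := 1 / 8)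
    (by fun_prop) (by norm_num)).and ((ev_lt (f := fun x => 2 * x) (a := c / 2)
      (by fun_prop) (by simp; positivity)).and ((ev_lt (f := fun x => Λ * (4 * x)) (a := r₀)
      (by fun_prop) (by simpa using r0)).and ((ev_lt (f := fun x => 4 * C₀ * (x / r₀))
      (a := om m / 4) (by fun_prop) (by simp; positivity)).and
      (ev_lt (f := fun x => k * ((1 + 2 * (K * s)) ^ m * om m) / (1 - 4 * x) ^ m
        + 4 * C₀ * (x / s)) (a := (k + 1 / 16) * om m)
      (by fun_prop (disch := simp)) (by simpa using s4))))))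
  obtain ⟨τ, τ0, τ1⟩ := exists_small (ev_lt (f := fun x => (K ^ 2 / δ ^ 2 + nb * (C₀ / β ^ 2)) * x
    / s ^ m + 13 * x / s ^ (m + 3)) (a := om m / 8) (by fun_prop) (by simp; positivity))
  exact ⟨β, δ, Λ, M, s, τ, hK, hC, β0, β1.le, δ0, δ1.le, r0, r1.le, hΛ0, hM0, hM,
    by linarith, δ3.le, by linarith, s0, s1.le, s2.le, δ4.le, s3.le, τ0, by linarith⟩

lemma JJ_one (x : E) (r : ℝ) :
    JJ m μ (fun _ => 1) x r = (∫ y, ker (r⁻¹ • (y - x)) ∂μ) / r ^ m := by
  unfold JJ; simp only [mul_one]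

lemma Par.rev (hE : Module.finrank ℝ E = m + 1) (hP : Par m k nb c K C₀ β δ r₀ Λ M s τ)
    (hW : Tube0 W c K) (hS : Slice m μ T H)
    (hratio : ∀ (x : E) (r : ℝ), 0 < r → r ≤ 1 → μ.real (closedBall x r) ≤ C₀ * r ^ m)
    {p : E} (hp : W p = 0) (hτ : ∫ y in closedBall p 2, ex T H W y ∂μ ≤ τ) :
    JJ m μ (fun _ => 1) p r₀ ≤ JJ m μ (fun _ => 1) p s
      + (r₀ * (12 * K ^ 2 * C₀ + (K + 2) * C₀) + 13 * τ / s ^ (m + 3)) := by
  have hfin := hS.mc.fin
  have hprop : ProperSpace E := FiniteDimensional.proper_real E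
  have hK := hW.K_nonneg
  have hC := hP.C0
  have hs := hP.s0
  have hτ0 := hP.τ0
  have h := JJ_rev hS (x := p) (lam := 12 * K ^ 2 * C₀ + (K + 2) * C₀ + 13 * τ / s ^ (m + 3))
    hs hP.s1 fun t ht1 ht2 => ?_
  · refine h.trans (add_le_add_right ?_ _)
    have a1 : 0 ≤ 12 * K ^ 2 * C₀ + (K + 2) * C₀ := by positivity
    have a2 : 0 ≤ 13 * τ / s ^ (m + 3) := by positivity
    have a3 : 13 * τ / s ^ (m + 3) * (r₀ - s) ≤ 13 * τ / s ^ (m + 3) * 1 :=
      mul_le_mul_of_nonneg_left (by linarith [hP.r1]) a2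
    have a4 : (12 * K ^ 2 * C₀ + (K + 2) * C₀) * (r₀ - s) ≤ (12 * K ^ 2 * C₀ + (K + 2) * C₀) * r₀ :=
      mul_le_mul_of_nonneg_left (by linarith) a1
    linarith
  have ht0 : 0 < t := hs.trans_le ht1
  have ht3 : t ≤ 1 := ht2.trans hP.r1
  obtain ⟨i1, i2⟩ := integral_const_add_le (a := 12 * K ^ 2 * t ^ 2 + t * (K + 2)) (b := 13 / t ^ 2)
    (ex_integrableOn hS hW.li_cd1 (isCompact_closedBall p t))
  refine ⟨_, i1, ?_, ?_⟩
  · filter_upwards [hS.mc.dim] with y hy1 hy2
    rw [mem_closedBall, dist_eq_norm] at hy2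
    have a0 : |W y| < c := by
      have a1 := hW.li_lip p y
      rw [hp, sub_zero] at a1
      have a3 : K * ‖y - p‖ ≤ K * r₀ := mul_le_mul_of_nonneg_left (hy2.trans ht2) hK
      linarith [hP.tube, hP.δ0]
    have a1 := hW.norm_perp_le hE hy1 a0 (y - p)
    have a2 := normH_le (H := H) hE hW hy1 a0
    have a3 : |⟪y - p, grad W y⟫| ≤ |W y| + K * t ^ 2 := by
      have b1 := hW.li_taylor y p
      rw [hp, zero_sub, ← neg_sub y p, inner_neg_right, norm_neg, real_inner_comm] at b1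
      have b2 : K * ‖y - p‖ ^ 2 ≤ K * t ^ 2 := by gcongr
      have b3 := abs_add_le (-W y - -⟪y - p, grad W y⟫) (W y)
      rw [show -W y - -⟪y - p, grad W y⟫ + W y = ⟪y - p, grad W y⟫ by ring] at b3
      linarith
    have a4 : ‖y - p‖ * ‖proj (T y) (grad W y)‖ ≤ t * tg T W y :=
      mul_le_mul_of_nonneg_right hy2 (norm_nonneg _)
    have a5 : ‖y - p - proj (T y) (y - p)‖ ^ 2 ≤ (|W y| + K * t ^ 2 + t * tg T W y) ^ 2 :=
      pow_le_pow_left₀ (norm_nonneg _) (by linarith) 2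
    have a6 : (|W y| + K * t ^ 2 + t * tg T W y) ^ 2
        ≤ 3 * (|W y| ^ 2 + (K * t ^ 2) ^ 2 + (t * tg T W y) ^ 2) := by
      nlinarith [sq_nonneg (|W y| - K * t ^ 2), sq_nonneg (|W y| - t * tg T W y),
        sq_nonneg (K * t ^ 2 - t * tg T W y)]
    have a7 : (t * tg T W y) ^ 2 ≤ xs T H W y := by
      rw [mul_pow]
      exact (mul_le_of_le_one_left (sq_nonneg _) (pow_le_one₀ ht0.le ht3)).trans (tg_sq_le y)
    have a8 : ‖y - p - proj (T y) (y - p)‖ ^ 2 / t ^ 2
        ≤ 3 * K ^ 2 * t ^ 2 + 3 * (ex T H W y / t ^ 2) := by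
      rw [div_le_iff₀ (by positivity)]
      have : (3 * K ^ 2 * t ^ 2 + 3 * (ex T H W y / t ^ 2)) * t ^ 2
          = 3 * (K * t ^ 2) ^ 2 + 3 * ex T H W y := by field_simp
      rw [this]
      unfold ex
      rw [sq_abs] at a6
      linarith
    have a9 : t * xs T H W y ≤ ex T H W y / t ^ 2 := by
      rw [le_div_iff₀ (by positivity)]
      have b1 : t * t ^ 2 ≤ 1 := mul_le_one₀ ht3 (by positivity) (pow_le_one₀ ht0.le ht3)
      calc t * xs T H W y * t ^ 2 = (t * t ^ 2) * xs T H W y := by ring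
        _ ≤ 1 * ex T H W y := mul_le_mul b1 (xs_le_ex y) (xs_nonneg y) zero_le_one
        _ = _ := one_mul _
    have a10 := mul_le_mul_of_nonneg_left a2 ht0.le
    have a11 : 13 / t ^ 2 * ex T H W y = 13 * (ex T H W y / t ^ 2) := by ring
    rw [a11]
    linarith
  · rw [i2]
    have a1 := hratio p t ht0 ht3
    have a2 : ∫ y in closedBall p t, ex T H W y ∂μ ≤ τ :=
      le_trans (setIntegral_mono_set (ex_integrableOn hS hW.li_cd1 (isCompact_closedBall p 2))
        (Eventually.of_forall fun y => ex_nonneg y)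
        (closedBall_subset_closedBall (by linarith)).eventuallyLE) hτ
    have a3 : 13 / t ^ 2 * τ ≤ 13 * τ / s ^ (m + 3) * t ^ (m + 1) := by
      calc 13 / t ^ 2 * τ = 13 * τ / t ^ (m + 3) * t ^ (m + 1) := by field_simp; ring
        _ ≤ _ := by gcongr
    have a4 : 12 * K ^ 2 * t ^ 2 ≤ 12 * K ^ 2 * t := by
      have : t ^ 2 ≤ t := by nlinarith
      gcongr
    calc (12 * K ^ 2 * t ^ 2 + t * (K + 2)) * μ.real (closedBall p t)
          + 13 / t ^ 2 * ∫ y in closedBall p t, ex T H W y ∂μ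
        ≤ (12 * K ^ 2 * t + t * (K + 2)) * (C₀ * t ^ m) + 13 / t ^ 2 * τ := by gcongr
      _ ≤ (12 * K ^ 2 * t + t * (K + 2)) * (C₀ * t ^ m) + 13 * τ / s ^ (m + 3) * t ^ (m + 1) := by
          gcongr
      _ = _ := by ring

/-- **the gap lemma** -/
theorem Par.gap_lemma (hE : Module.finrank ℝ E = m + 1)
    (hP : Par m k (P214.BES.nB E) c K C₀ β δ r₀ Λ M s τ)
    (hW : Tube0 W c K) (hS : Slice m μ T H) [IsFiniteMeasure μ]
    (hratio : ∀ (x : E) (r : ℝ), 0 < r → r ≤ 1 → μ.real (closedBall x r) ≤ C₀ * r ^ m)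
    (hθ : Measurable θ) (htan : ∀ᵐ y ∂μ, 1 ≤ θ y ∧ IsApproxTangent m μ y (θ y) (T y))
    (hB : ∀ (q : ℕ) (B : Set E), MeasurableSet B → B ⊆ θ ⁻¹' {q} → μ B ≤ q * μH[m] B)
    {p : E} (hp : W p = 0) (hτ : ∫ y in closedBall p 2, ex T H W y ∂μ ≤ τ)
    (hJ : JJ m μ (fun _ => 1) p r₀ ≤ (k + 1 / 2) * om m) :
    JJ m μ (fun _ => 1) p r₀ ≤ (k + 1 / 4) * om m := by
  have hprop : ProperSpace E := FiniteDimensional.proper_real E
  have hK := hW.K_nonneg
  have hC := hP.C0
  have hs := hP.s0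
  have hτ0 := hP.τ0
  have hδ := hP.δ0
  have hβ := hP.β0
  have hom := om_pos m
  have hs1 : s ≤ 1 := hP.s1.trans hP.r1
  have h4δ : 0 < 1 - 4 * δ := by linarith [hP.δ1]
  set bad : Set E := {y | y ∈ closedBall p s ∧ ¬ Good m μ T H W θ K β δ r₀ y} with hbad
  set b₃ : ℝ := (K ^ 2 / δ ^ 2 + P214.BES.nB E * (C₀ / β ^ 2)) * τ with hb₃
  have hb : μ bad ≤ ENNReal.ofReal b₃ := by
    have h1 := bad_le hP hW hS hratio htan (ω := fun _ => 1) continuous_const
      (fun _ => zero_le_one) (Γ := 1) zero_le_one (x := p) (R := s) (fun _ _ _ _ => by simp)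
    simp only [ENNReal.ofReal_one, one_pow, mul_one] at h1
    rw [show (fun _ : E => (1:ℝ≥0∞)) = 1 from rfl, withDensity_one] at h1
    refine h1.trans ?_
    rw [hb₃, ENNReal.ofReal_mul (by positivity)]
    refine mul_le_mul_right ((lintegral_mono_set
      (closedBall_subset_closedBall (by linarith : s + 1 ≤ 2))).trans ?_) _
    rw [← ofReal_integral_eq_lintegral_ofReal
      (ex_integrableOn hS hW.li_cd1 (isCompact_closedBall p 2))
      (Eventually.of_forall fun y => ex_nonneg y)]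
    exact ENNReal.ofReal_le_ofReal hτ
  set N := toMeasurable μ bad with hN
  have hNm : MeasurableSet N := measurableSet_toMeasurable μ bad
  set G := closedBall p s \ N with hG
  have hGm : MeasurableSet G := measurableSet_closedBall.diff hNm
  have hgood : ∀ y ∈ G, Good m μ T H W θ K β δ r₀ y := fun y hy => by
    by_contra h
    exact hy.2 (subset_toMeasurable μ bad ⟨hy.1, h⟩)
  have hfc := hW.contDiff_foot.continuous
  have hkc : Continuous fun y => ker (s⁻¹ • (foot W y - p)) := continuous_kern.comp (by fun_prop)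
  have harea := area_le hθ hB hW.contDiff_foot hGm (S := {z | W z = 0})
    (isClosed_eq hW.cont continuous_const).measurableSet
    (fun y hy => (hgood y hy).foot_zero hP hW) (fun y hy => ⟨(hgood y hy).one, (hgood y hy).tan⟩)
    (fun y hy => hW.norm_fderiv_foot ((hgood y hy).lt_c hP) (by linarith [(hgood y hy).w, hP.δ1]))
    (fun y hy z hz => hW.foot_inj ((hgood y hy).lt_c hP) hz ((hgood y hy).e.trans hP.δ1)
      ((hgood y hy).w.trans hP.δ1)) (k := k)
    (fun Y q hY => fibre_le hE hP hW hS hratio Y q fun y hy => ⟨hgood y (hY y hy).1, (hY y hy).2, by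
      have a1 := JJ_shift (m := m) (μ := μ) (h := fun _ => 1) continuous_const
        (fun _ => zero_le_one) (fun _ => le_rfl) hP.r0 y p (hratio y r₀ hP.r0 hP.r1)
      have a2 : ‖y - p‖ ≤ s := by rw [← dist_eq_norm]; exact (hY y hy).1.1
      have a3 : 4 * C₀ * (‖y - p‖ / r₀) ≤ 4 * C₀ * (s / r₀) := by
        have := hP.r0
        gcongr
      linarith [hP.s2]⟩)
    (w := fun y => ENNReal.ofReal ((1 - 4 * δ) ^ m) * ENNReal.ofReal (ker (s⁻¹ • (foot W y - p))))
    (g := fun z => ENNReal.ofReal (ker (s⁻¹ • (z - p))))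
    (hkc.measurable.ennreal_ofReal.const_mul _)
    (continuous_ker_scale s p).measurable.ennreal_ofReal (fun y hy ι hι => by
      rw [mul_comm]
      exact mul_le_mul_right (ENNReal.ofReal_le_ofReal (hW.jl_foot_ge ((hgood y hy).lt_c hP) hι
        hP.δ1 (hgood y hy).e (hgood y hy).w)) _)
  rw [lintegral_const_mul' _ _ ENNReal.ofReal_ne_top] at harea
  have hsig := hW.sig_ker_le hE (p := p) (by rw [hp, abs_zero]; exact hW.cpos) hs hP.Ks
  set b₁ : ℝ := k * ((1 + 2 * (K * s)) ^ m * (s ^ m * om m)) / (1 - 4 * δ) ^ m with hb₁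
  have h1 : ∫⁻ y in G, ENNReal.ofReal (ker (s⁻¹ • (foot W y - p))) ∂μ ≤ ENNReal.ofReal b₁ := by
    have a1 : ENNReal.ofReal ((1 - 4 * δ) ^ m) ≠ 0 := by
      rw [Ne, ENNReal.ofReal_eq_zero, not_le]; positivity
    refine (ENNReal.mul_le_mul_iff_right a1 ENNReal.ofReal_ne_top).1 (harea.trans ?_)
    rw [← ENNReal.ofReal_mul (by positivity), hb₁, mul_div_cancel₀ _ (by positivity),
      ENNReal.ofReal_mul (Nat.cast_nonneg _), ENNReal.ofReal_natCast]
    exact mul_le_mul_right hsig _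
  have h2 : ∫⁻ y, ENNReal.ofReal (ker (s⁻¹ • (y - p))) ∂μ
      ≤ ENNReal.ofReal (b₁ + 4 * (δ / s) * (C₀ * s ^ m) + b₃) := by
    have a1 : ∀ y, ENNReal.ofReal (ker (s⁻¹ • (y - p)))
        ≤ G.indicator (fun y => ENNReal.ofReal (ker (s⁻¹ • (foot W y - p)))) y
          + (closedBall p s).indicator (fun _ => ENNReal.ofReal (4 * (δ / s))) y
          + N.indicator 1 y := by
      intro y
      by_cases hy : y ∈ closedBall p s
      · by_cases hy' : y ∈ N
        · rw [indicator_of_mem hy']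
          exact le_add_left (ENNReal.ofReal_le_one.2 (kern_le_one _))
        · have hyG : y ∈ G := ⟨hy, hy'⟩
          rw [indicator_of_mem hyG, indicator_of_mem hy,
            ← ENNReal.ofReal_add (kern_nonneg _) (by positivity)]
          refine le_add_right (ENNReal.ofReal_le_ofReal ?_)
          have b1 := (le_abs_self _).trans
            (abs_ker_sub_le (s⁻¹ • (y - p)) (s⁻¹ • (foot W y - p)))
          rw [← smul_sub, sub_sub_sub_cancel_right, norm_smul, norm_inv, Real.norm_of_nonneg hs.le,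
            ← div_eq_inv_mul, norm_sub_rev, hW.norm_foot_sub ((hgood y hyG).lt_c hP)] at b1
          have b2 : |W y| / s ≤ δ / s := div_le_div_of_nonneg_right ((hgood y hyG).abs_le hP) hs.le
          linarith
      · rw [ker_scale_zero' hs hy, ENNReal.ofReal_zero]; exact zero_le
    refine (lintegral_mono a1).trans ?_
    rw [lintegral_add_right _ (measurable_one.indicator hNm),
      lintegral_add_right _ (measurable_const.indicator measurableSet_closedBall),
      lintegral_indicator hGm, lintegral_indicator measurableSet_closedBall,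
      lintegral_indicator_one hNm, setLIntegral_const, hN, measure_toMeasurable,
      ENNReal.ofReal_add (by positivity) (by positivity),
      ENNReal.ofReal_add (by positivity) (by positivity),
      ENNReal.ofReal_mul (p := 4 * (δ / s)) (by positivity)]
    gcongr
    rw [← ENNReal.ofReal_toReal (measure_ne_top μ (closedBall p s))]
    exact ENNReal.ofReal_le_ofReal (hratio p s hs hs1)
  have h3 : JJ m μ (fun _ => 1) p s ≤ k * ((1 + 2 * (K * s)) ^ m * om m) / (1 - 4 * δ) ^ m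
      + 4 * C₀ * (δ / s) + b₃ / s ^ m := by
    rw [JJ_one, div_le_iff₀ (by positivity),
      integral_eq_lintegral_of_nonneg_ae (Eventually.of_forall fun y => kern_nonneg _)
        (continuous_ker_scale s p).aestronglyMeasurable]
    refine (ENNReal.toReal_le_of_le_ofReal (by positivity) h2).trans (le_of_eq ?_)
    rw [hb₁]; field_simp
  have h4 := hP.rev hE hW hS hratio hp hτ
  have h5 := hP.gap
  linarith

/-- **propagation of the density bound** -/
theorem Par.chain (hE : Module.finrank ℝ E = m + 1)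
    (hP : Par m k (P214.BES.nB E) c K C₀ β δ r₀ Λ M s τ)
    (hW : Tube0 W c K) (hS : Slice m μ T H) [IsFiniteMeasure μ]
    (hratio : ∀ (x : E) (r : ℝ), 0 < r → r ≤ 1 → μ.real (closedBall x r) ≤ C₀ * r ^ m)
    (hθ : Measurable θ) (htan : ∀ᵐ y ∂μ, 1 ≤ θ y ∧ IsApproxTangent m μ y (θ y) (T y))
    (hB : ∀ (q : ℕ) (B : Set E), MeasurableSet B → B ⊆ θ ⁻¹' {q} → μ B ≤ q * μH[m] B)
    {R : ℝ} (hτ : ∀ p, ‖p‖ ≤ R → ∫ y in closedBall p 2, ex T H W y ∂μ ≤ τ)
    (hnear : ∀ p, W p = 0 → ‖p‖ ≤ K → JJ m μ (fun _ => 1) p r₀ ≤ (k + 1 / 2) * om m)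
    {q : E} (hq : W q = 0) (hqR : ‖q‖ ≤ R) : JJ m μ (fun _ => 1) q r₀ ≤ (k + 1 / 2) * om m := by
  have hprop : ProperSpace E := FiniteDimensional.proper_real E
  have hom := om_pos m
  have hC := hP.C0
  have hr := hP.r0
  by_contra hcon
  rw [not_le] at hcon
  set Z : Set E := closedBall 0 R ∩ ({p | W p = 0} ∩
    {p | (k + 1 / 2) * om m ≤ JJ m μ (fun _ => 1) p r₀}) with hZ
  have hJc : Continuous fun p => JJ m μ (fun _ => 1) p r₀ := by
    simp only [JJ_one]
    exact (continuous_int_shift continuous_kern abs_ker_le r₀).div_const _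
  have hZc : IsCompact Z := (isCompact_closedBall 0 R).inter_right
    ((isClosed_eq hW.cont continuous_const).inter (isClosed_le continuous_const hJc))
  obtain ⟨p, ⟨hp1, hp2, hp3⟩, hmin⟩ := hZc.exists_isMinOn
    ⟨q, mem_closedBall_zero_iff.2 hqR, hq, hcon.le⟩ continuous_norm.continuousOn
  rw [mem_closedBall_zero_iff] at hp1
  have hp3' : (k + 1 / 2) * om m ≤ JJ m μ (fun _ => 1) p r₀ := hp3
  by_cases hpK : ‖p‖ ≤ K
  · have := hP.gap_lemma hE hW hS hratio hθ htan hB hp2 (hτ p hp1) (hnear p hp2 hpK)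
    linarith
  · obtain ⟨p', a1, a2, a3⟩ := hW.exists_smaller hp2 (not_le.1 hpK) (ε := δ / 2)
      (half_pos hP.δ0)
    have a4 : JJ m μ (fun _ => 1) p' r₀ ≤ (k + 1 / 2) * om m := by
      by_contra h
      have : ‖p‖ ≤ ‖p'‖ := hmin (show p' ∈ Z from
        ⟨mem_closedBall_zero_iff.2 (by linarith), a1, (not_le.1 h).le⟩)
      linarith
    have a5 := hP.gap_lemma hE hW hS hratio hθ htan hB a1 (hτ p' (by linarith)) a4
    have a6 := JJ_shift (m := m) (μ := μ) (h := fun _ => 1) continuous_const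
      (fun _ => zero_le_one) (fun _ => le_rfl) hr p p' (hratio p r₀ hr hP.r1)
    rw [dist_comm, dist_eq_norm] at a3
    have a7 : 4 * C₀ * (‖p - p'‖ / r₀) ≤ 4 * C₀ * (δ / 2 / r₀) := by gcongr
    have a8 : 4 * C₀ * (δ / 2 / r₀) = 4 * C₀ * (δ / r₀) / 2 := by ring
    linarith [hP.d2]

end Vale.Agent.P218N.G
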