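import Vale.Agent.P218N.G.LIArea

/-! Energy comparison, part 2: the area inequality. -/

open MeasureTheory Set Filter Topology Metric
open scoped ENNReal NNReal RealInnerProductSpace

namespace Vale.Agent.P218N.G

open Vale.Agent.P214 (IntegralVarifold proj IsApproxTangent weightOf)
open Vale.Agent.P218.H313

set_option linter.unusedSectionVars false
set_option linter.unusedVariables false

variable {E : Type*} [NormedAddCommGroup E] [InnerProductSpace ℝ E] [FiniteDimensional ℝ E]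
  [MeasurableSpace E] [BorelSpace E]
variable {m : ℕ}

lemma norm_adj_le {ι : Rm m →L[ℝ] E} (hι : ∀ v, ‖ι v‖ = ‖v‖) (z : E) :
    ‖ι (ContinuousLinearMap.adjoint ι z)‖ ≤ ‖z‖ := by
  rw [hι]
  have h1 : ‖ι‖ ≤ 1 := ι.opNorm_le_bound zero_le_one fun v => by rw [hι, one_mul]
  have h2 : ‖ContinuousLinearMap.adjoint ι‖ = ‖ι‖ := LinearIsometryEquiv.norm_map _ _
  calc ‖ContinuousLinearMap.adjoint ι z‖ ≤ ‖ContinuousLinearMap.adjoint ι‖ * ‖z‖ :=
        (ContinuousLinearMap.adjoint ι).le_opNorm z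
    _ ≤ 1 * ‖z‖ := by rw [h2]; gcongr
    _ = ‖z‖ := one_mul _

/-- countable cover by pieces on which the map is almost linear -/
theorem exists_pieces (m : ℕ) (μ : Measure E) [IsFiniteMeasure μ] {f : E → E}
    (hf : ContDiff ℝ 1 f) {ε : ℝ} (hε : 0 < ε) (hε1 : ε ≤ 1 / 42) :
    ∃ (C : ℕ → Set E) (J : ℕ → ℝ), (∀ i, IsClosed (C i)) ∧ (∀ i, 0 ≤ J i) ∧
      (∀ i, InjOn f (C i)) ∧
      (∀ i, ∀ B ⊆ C i, ENNReal.ofReal (J i) * μH[m] B
        ≤ ENNReal.ofReal ((1 + 4 * ε) ^ m * (1 + 42 * ε) ^ m) * μH[m] (f '' B)) ∧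
      ∀ (y : E) (q : ℕ) (T : Submodule ℝ E) (ι : Rm m →ₗᵢ[ℝ] E), 1 ≤ q →
        IsApproxTangent m μ y q T → range ι = (T : Set E) → ‖fderiv ℝ f y‖ ≤ 2 →
        (∀ z ∈ T, ‖z‖ ≤ 2 * ‖fderiv ℝ f y z‖) →
        ∃ i, y ∈ C i ∧ jl (fderiv ℝ f y) ι.toContinuousLinearMap ≤ (1 + ε) * J i := by
  set S : Set ((E →L[ℝ] E) × (Rm m →L[ℝ] E)) :=
    {p | (∀ v, ‖p.2 v‖ = ‖v‖) ∧ ‖p.1‖ ≤ 2 ∧ ∀ v, ‖v‖ ≤ 2 * ‖p.1 (p.2 v)‖} with hS
  obtain ⟨D, hDS, hDc, hDd⟩ := (TopologicalSpace.IsSeparable.of_separableSpace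
    S).exists_countable_dense_subset
  rcases D.eq_empty_or_nonempty with hD | hD
  · refine ⟨fun _ => ∅, fun _ => 0, fun _ => isClosed_empty, fun _ => le_rfl,
      fun _ => injOn_empty _, fun i B hB => by simp, ?_⟩
    intro y q T ι hq hT hr h1 h2
    have : (fderiv ℝ f y, ι.toContinuousLinearMap) ∈ S :=
      ⟨fun v => ι.norm_map v, h1, fun v => by
        have := h2 (ι v) (by rw [← SetLike.mem_coe, ← hr]; exact ⟨v, rfl⟩)
        rwa [ι.norm_map] at this⟩
    have := hDd this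
    rw [hD, closure_empty] at this
    exact this.elim
  obtain ⟨d, hd⟩ := hDc.exists_eq_range hD
  have hdS : ∀ n, d n ∈ S := fun n => hDS (by rw [hd]; exact ⟨n, rfl⟩)
  let Q : ℕ → E →L[ℝ] E := fun n => (d n).2.comp (ContinuousLinearMap.adjoint (d n).2)
  let c : ℕ → E := TopologicalSpace.denseSeq E
  let A : ℕ × ℕ × ℕ → Set E := fun i =>
    {y | ∀ z ∈ closedBall (c i.2.2) (1 / (i.2.1 + 1) / 2), ‖fderiv ℝ f z - (d i.1).1‖ ≤ ε} ∩
      (pc m μ (Q i.1) ε (1 / (i.2.1 + 1)) ∩ closedBall (c i.2.2) (1 / (i.2.1 + 1) / 2))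
  let e : ℕ ≃ ℕ × ℕ × ℕ := (Denumerable.eqv (ℕ × ℕ × ℕ)).symm
  have hmain : ∀ j : ℕ × ℕ × ℕ, ∀ B ⊆ A j, InjOn f B ∧
      ENNReal.ofReal (jl (d j.1).1 (d j.1).2) * μH[m] B
        ≤ ENNReal.ofReal ((1 + 4 * ε) ^ m * (1 + 42 * ε) ^ m) * μH[m] (f '' B) := by
    intro j B hB
    obtain ⟨h1, h2, h3⟩ := hdS j.1
    refine piece_le h1 h2 h3 hε hε1 (fun y hy y' hy' => ?_) (fun y hy y' hy' => ?_)
    · have hd' : ‖y' - y‖ ≤ 1 / (j.2.1 + 1) := by
        have h4 := mem_closedBall.1 (hB hy).2.2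
        have h5 := mem_closedBall.1 (hB hy').2.2
        rw [← dist_eq_norm]
        have := dist_triangle_right y' y (c j.2.2)
        linarith
      exact cone_pc (Q := Q j.1) (norm_adj_le h1) hε (by linarith) (hB hy).2.1 (hB hy').2.1 hd'
    · exact (convex_closedBall (c j.2.2) (1 / (j.2.1 + 1) / 2)).norm_image_sub_le_of_norm_fderiv_le'
        (fun z _ => hf.differentiable (by norm_num) z) (hB hy).1 (hB hy).2.2 (hB hy').2.2
  refine ⟨fun i => A (e i), fun i => jl (d (e i).1).1 (d (e i).1).2, fun i => ?_,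
    fun i => jl_nonneg _ _, fun i => (hmain _ _ Subset.rfl).1, fun i B hB => (hmain _ _ hB).2, ?_⟩
  · exact isClosed_const.inter ((isClosed_pc _ _ _ _ _).inter isClosed_closedBall)
  intro y q T ι hq hT hr h1 h2
  set p₀ : (E →L[ℝ] E) × (Rm m →L[ℝ] E) := (fderiv ℝ f y, ι.toContinuousLinearMap) with hp₀
  have h3 : ∀ v, ‖v‖ ≤ 2 * ‖fderiv ℝ f y (ι v)‖ := fun v => by
    have := h2 (ι v) (by rw [← SetLike.mem_coe, ← hr]; exact ⟨v, rfl⟩)
    rwa [ι.norm_map] at this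
  have hp₀S : p₀ ∈ S := ⟨fun v => ι.norm_map v, h1, h3⟩
  have hJ : 0 < jl p₀.1 p₀.2 := by
    refine P218GA.normDet_pos fun v w hvw => ?_
    have h4 := h3 (v - w)
    have h5 : fderiv ℝ f y (ι (v - w)) = 0 := by
      rw [map_sub, map_sub]; exact sub_eq_zero.2 hvw
    rw [h5, norm_zero, mul_zero] at h4
    exact sub_eq_zero.1 (norm_le_zero_iff.1 h4)
  have hQc : Continuous fun p : (E →L[ℝ] E) × (Rm m →L[ℝ] E) =>
      p.2.comp (ContinuousLinearMap.adjoint p.2) := by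
    have : Continuous fun p : (E →L[ℝ] E) × (Rm m →L[ℝ] E) => ContinuousLinearMap.adjoint p.2 :=
      (ContinuousLinearMap.adjoint (𝕜 := ℝ) (E := Rm m) (F := E)).continuous.comp continuous_snd
    exact continuous_snd.clm_comp this
  have n1 : ∀ᶠ p in 𝓝 p₀, jl p₀.1 p₀.2 < (1 + ε) * jl p.1 p.2 := by
    have h4 : Continuous fun p : (E →L[ℝ] E) × (Rm m →L[ℝ] E) => (1 + ε) * jl p.1 p.2 :=
      continuous_const.mul continuous_jl
    exact (h4.tendsto p₀).eventually (lt_mem_nhds (by nlinarith))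
  have n2 : ∀ᶠ p in 𝓝 p₀, dist p.1 p₀.1 < ε / 2 :=
    (continuous_fst.tendsto p₀).eventually (ball_mem_nhds _ (by positivity))
  have n3 : ∀ᶠ p in 𝓝 p₀, dist (p.2.comp (ContinuousLinearMap.adjoint p.2))
      (p₀.2.comp (ContinuousLinearMap.adjoint p₀.2)) < ε :=
    (hQc.tendsto p₀).eventually (ball_mem_nhds _ hε)
  obtain ⟨p, hp1, hp2⟩ := mem_closure_iff_nhds.1 (hDd hp₀S) _ (n1.and (n2.and n3))
  rw [hd] at hp2
  obtain ⟨n, rfl⟩ := hp2
  obtain ⟨k1, k2, k3⟩ := hp1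
  have hM : ∀ z ∈ T, ‖z - Q n z‖ ≤ ε * ‖z‖ := by
    intro z hz
    have hz' : z ∈ range ι := by rw [hr]; exact hz
    obtain ⟨v, rfl⟩ := hz'
    have ha : ContinuousLinearMap.adjoint ι.toContinuousLinearMap (ι v) = v := by
      refine ext_inner_right ℝ fun w => ?_
      rw [ContinuousLinearMap.adjoint_inner_left]
      exact ι.inner_map_map v w
    have h4 : ι v - Q n (ι v)
        = (p₀.2.comp (ContinuousLinearMap.adjoint p₀.2) - Q n) (ι v) := by
      show _ = ι (ContinuousLinearMap.adjoint ι.toContinuousLinearMap (ι v)) - Q n (ι v)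
      rw [ha]
    rw [h4]
    refine ((p₀.2.comp (ContinuousLinearMap.adjoint p₀.2) - Q n).le_opNorm _).trans ?_
    rw [dist_comm, dist_eq_norm] at k3
    exact mul_le_mul_of_nonneg_right k3.le (norm_nonneg _)
  obtain ⟨δ, hδ, hyδ⟩ := eventually_mem_pc hq hT hε hM
  obtain ⟨δ', hδ', hfδ⟩ := Metric.continuousAt_iff.1
    ((hf.continuous_fderiv (by norm_num)).continuousAt (x := y)) (ε / 2) (by positivity)
  obtain ⟨k, hk⟩ := exists_nat_one_div_lt (lt_min hδ hδ')
  obtain ⟨l, hl⟩ := (TopologicalSpace.denseRange_denseSeq E).exists_dist_lt y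
    (ε := 1 / ((k:ℝ) + 1) / 2) (by positivity)
  refine ⟨e.symm (n, k, l), ?_, ?_⟩
  · show y ∈ A (e (e.symm (n, k, l)))
    rw [Equiv.apply_symm_apply]
    refine ⟨fun z hz => ?_, fun r hr hrk => hyδ r hr ?_, mem_closedBall.2 hl.le⟩
    · have h4 : dist z y < δ' := by
        have h5 : dist z (c l) ≤ 1 / ((k:ℝ) + 1) / 2 := mem_closedBall.1 hz
        have h6 := dist_triangle_right z y (c l)
        have h7 := (lt_min_iff.1 hk).2
        have h8 : dist y (c l) < 1 / ((k:ℝ) + 1) / 2 := hl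
        linarith
      have h5 := hfδ h4
      have h6 := dist_triangle_right (fderiv ℝ f z) (d n).1 (fderiv ℝ f y)
      rw [← dist_eq_norm]
      have h7 : dist (d n).1 (fderiv ℝ f y) < ε / 2 := k2
      show dist (fderiv ℝ f z) (d n).1 ≤ ε
      linarith
    · exact hrk.trans (lt_min_iff.1 hk).1.le
  · show _ ≤ (1 + ε) * jl (d (e (e.symm (n, k, l))).1).1 (d (e (e.symm (n, k, l))).1).2
    rw [Equiv.apply_symm_apply]
    exact k1.le

/-- **the area inequality** -/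
theorem area_le {μ : Measure E} [IsFiniteMeasure μ] {θ : E → ℕ} (hθ : Measurable θ)
    (hB : ∀ (q : ℕ) (B : Set E), MeasurableSet B → B ⊆ θ ⁻¹' {q} → μ B ≤ q * μH[m] B)
    {T : E → Submodule ℝ E} {f : E → E} (hf : ContDiff ℝ 1 f) {G S : Set E}
    (hG : MeasurableSet G) (hS : MeasurableSet S) (hGS : ∀ y ∈ G, f y ∈ S)
    (htan : ∀ y ∈ G, 1 ≤ θ y ∧ IsApproxTangent m μ y (θ y) (T y))
    (hn : ∀ y ∈ G, ‖fderiv ℝ f y‖ ≤ 2) (hinj : ∀ y ∈ G, ∀ z ∈ T y, ‖z‖ ≤ 2 * ‖fderiv ℝ f y z‖)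
    {k : ℕ} (hfib : ∀ (Y : Finset E) (p : E), (∀ y ∈ Y, y ∈ G ∧ f y = p) → ∑ y ∈ Y, θ y ≤ k)
    {w g : E → ℝ≥0∞} (hw : Measurable w) (hg : Measurable g)
    (hwg : ∀ y ∈ G, ∀ ι : Rm m →ₗᵢ[ℝ] E, range ι = (T y : Set E) →
      w y ≤ g (f y) * ENNReal.ofReal (jl (fderiv ℝ f y) ι.toContinuousLinearMap)) :
    ∫⁻ y in G, w y ∂μ ≤ k * ∫⁻ p in S, g p ∂μH[m] := by
  classical
  have hfc := hf.continuous
  have hfm := hfc.measurable
  have key : ∀ ε : ℝ, 0 < ε → ε ≤ 1 / 42 → ∫⁻ y in G, w y ∂μ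
      ≤ ENNReal.ofReal ((1 + ε) * ((1 + 4 * ε) ^ m * (1 + 42 * ε) ^ m))
        * (k * ∫⁻ p in S, g p ∂μH[m]) := by
    intro ε hε hε1
    obtain ⟨C, J, hCc, hJ0, hCi, hCm, hcov⟩ := exists_pieces m μ hf hε hε1
    let e : ℕ ≃ ℕ × ℕ := (Denumerable.eqv (ℕ × ℕ)).symm
    let A : ℕ → Set E := fun n => G ∩ (C (e n).1 ∩ (θ ⁻¹' {(e n).2} ∩
      {y | w y ≤ g (f y) * ENNReal.ofReal ((1 + ε) * J (e n).1)}))
    have hAm : ∀ n, MeasurableSet (A n) := fun n =>
      hG.inter ((hCc _).measurableSet.inter ((hθ (measurableSet_singleton _)).inter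
        (measurableSet_le hw ((hg.comp hfm).mul_const _))))
    have hGA : G ⊆ ⋃ n, A n := by
      intro y hy
      obtain ⟨h1, h2⟩ := htan y hy
      obtain ⟨ι, hr, -, -⟩ := P214.AREA.exists_param h2.1
      obtain ⟨i, hi1, hi2⟩ := hcov y _ _ ι h1 h2 hr (hn y hy) (hinj y hy)
      refine mem_iUnion.2 ⟨e.symm (i, θ y), hy, ?_⟩
      simp only [Equiv.apply_symm_apply]
      refine ⟨hi1, rfl, (hwg y hy ι hr).trans ?_⟩
      exact mul_le_mul_right (ENNReal.ofReal_le_ofReal hi2) _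
    let D := disjointed A
    have hDm : ∀ n, MeasurableSet (D n) := MeasurableSet.disjointed hAm
    have hDA : ∀ n, D n ⊆ A n := disjointed_subset A
    have hDd : Pairwise (Function.onFun Disjoint D) := disjoint_disjointed A
    have hfD : ∀ n, MeasurableSet (f '' D n) := fun n =>
      (hDm n).image_of_continuousOn_injOn hfc.continuousOn
        ((hCi _).mono fun y hy => (hDA n hy).2.1)
    set c := ENNReal.ofReal ((1 + 4 * ε) ^ m * (1 + 42 * ε) ^ m) with hc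
    have hpiece : ∀ n, ∫⁻ y in D n, w y ∂μ ≤ ENNReal.ofReal (1 + ε) * c *
        ∫⁻ p, (f '' D n).indicator (fun p => ((e n).2 : ℝ≥0∞) * g p) p ∂μH[m] := by
      intro n
      have h1 : ENNReal.ofReal (J (e n).1) • (μ.restrict (D n)).map f
          ≤ (c * (e n).2) • (μH[m] : Measure E).restrict (f '' D n) := by
        refine Measure.le_iff.2 fun X hX => ?_
        rw [Measure.smul_apply, Measure.smul_apply, Measure.map_apply hfm hX,
          Measure.restrict_apply (hfm hX), Measure.restrict_apply hX, smul_eq_mul, smul_eq_mul]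
        have h2 := hB (e n).2 (f ⁻¹' X ∩ D n) ((hfm hX).inter (hDm n))
          fun y hy => (hDA n hy.2).2.2.1
        have h3 := hCm (e n).1 (f ⁻¹' X ∩ D n) fun y hy => (hDA n hy.2).2.1
        rw [image_preimage_inter] at h3
        calc ENNReal.ofReal (J (e n).1) * μ (f ⁻¹' X ∩ D n)
            ≤ ENNReal.ofReal (J (e n).1) * ((e n).2 * μH[m] (f ⁻¹' X ∩ D n)) := by gcongr
          _ = (e n).2 * (ENNReal.ofReal (J (e n).1) * μH[m] (f ⁻¹' X ∩ D n)) := by ring
          _ ≤ (e n).2 * (c * μH[m] (X ∩ f '' D n)) := by gcongr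
          _ = _ := by ring
      have h2 := lintegral_mono' h1 (le_refl g)
      rw [lintegral_smul_measure, lintegral_smul_measure, lintegral_map hg hfm, smul_eq_mul,
        smul_eq_mul] at h2
      rw [lintegral_indicator (hfD n), lintegral_const_mul _ hg]
      calc ∫⁻ y in D n, w y ∂μ
          ≤ ∫⁻ y in D n, g (f y) * ENNReal.ofReal ((1 + ε) * J (e n).1) ∂μ :=
            setLIntegral_mono ((hg.comp hfm).mul_const _) fun y hy => (hDA n hy).2.2.2
        _ = ENNReal.ofReal (1 + ε) * (ENNReal.ofReal (J (e n).1) * ∫⁻ y in D n, g (f y) ∂μ) := by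
            rw [lintegral_mul_const _ (show Measurable fun y => g (f y) from hg.comp hfm),
              ENNReal.ofReal_mul (by positivity)]
            ring
        _ ≤ ENNReal.ofReal (1 + ε) * (c * (e n).2 * ∫⁻ p in f '' D n, g p ∂μH[m]) := by gcongr
        _ = _ := by ring
    have hcount : ∀ p, ∑' n, (f '' D n).indicator (fun p => ((e n).2 : ℝ≥0∞) * g p) p
        ≤ S.indicator (fun p => (k : ℝ≥0∞) * g p) p := by
      intro p
      by_cases hp : p ∈ S
      · rw [indicator_of_mem hp, ENNReal.tsum_eq_iSup_sum]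
        refine iSup_le fun F => ?_
        set F' := F.filter fun n => p ∈ f '' D n with hF'
        have h1 : ∀ n ∈ F', ∃ y, y ∈ D n ∧ f y = p := fun n hn => (Finset.mem_filter.1 hn).2
        choose! y hy using h1
        have hyi : Set.InjOn y F' := by
          intro n hn n' hn' h
          by_contra hne
          exact Set.disjoint_left.1 (hDd hne) (hy n hn).1 (h ▸ (hy n' hn').1)
        have h2 := hfib (F'.image y) p fun z hz => by
          obtain ⟨n, hn, rfl⟩ := Finset.mem_image.1 hz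
          exact ⟨(hDA n (hy n hn).1).1, (hy n hn).2⟩
        rw [Finset.sum_image hyi] at h2
        have h3 : ∑ n ∈ F', ((e n).2 : ℝ≥0∞) ≤ k := by
          have h4 : ∑ n ∈ F', (e n).2 = ∑ n ∈ F', θ (y n) :=
            Finset.sum_congr rfl fun n hn => ((hDA n (hy n hn).1).2.2.1).symm
          rw [← h4] at h2
          exact_mod_cast h2
        calc ∑ n ∈ F, (f '' D n).indicator (fun p => ((e n).2 : ℝ≥0∞) * g p) p
            = ∑ n ∈ F', ((e n).2 : ℝ≥0∞) * g p := by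
              rw [hF', Finset.sum_filter]
              refine Finset.sum_congr rfl fun n _ => ?_
              rw [indicator_apply]
          _ = (∑ n ∈ F', ((e n).2 : ℝ≥0∞)) * g p := by rw [Finset.sum_mul]
          _ ≤ k * g p := by gcongr
      · have : ∀ n, (f '' D n).indicator (fun p => ((e n).2 : ℝ≥0∞) * g p) p = 0 := by
          intro n
          refine indicator_of_notMem ?_ _
          rintro ⟨y, hy, rfl⟩
          exact hp (hGS y (hDA n hy).1)
        simp [this]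
    calc ∫⁻ y in G, w y ∂μ ≤ ∫⁻ y in ⋃ n, D n, w y ∂μ :=
          lintegral_mono_set (by rw [iUnion_disjointed]; exact hGA)
      _ ≤ ∑' n, ∫⁻ y in D n, w y ∂μ := lintegral_iUnion_le _ _
      _ ≤ ∑' n, ENNReal.ofReal (1 + ε) * c *
          ∫⁻ p, (f '' D n).indicator (fun p => ((e n).2 : ℝ≥0∞) * g p) p ∂μH[m] :=
          ENNReal.tsum_le_tsum hpiece
      _ = ENNReal.ofReal (1 + ε) * c *
          ∫⁻ p, ∑' n, (f '' D n).indicator (fun p => ((e n).2 : ℝ≥0∞) * g p) p ∂μH[m] := by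
          rw [ENNReal.tsum_mul_left, lintegral_tsum fun n =>
            ((hg.const_mul _).indicator (hfD n)).aemeasurable]
      _ ≤ ENNReal.ofReal (1 + ε) * c *
          ∫⁻ p, S.indicator (fun p => (k : ℝ≥0∞) * g p) p ∂μH[m] := by
          gcongr with p
          exact hcount p
      _ = _ := by
          rw [lintegral_indicator hS, lintegral_const_mul _ hg, hc,
            ENNReal.ofReal_mul (show 0 ≤ 1 + ε by positivity)]
  have hlim : Tendsto (fun ε : ℝ => ENNReal.ofReal ((1 + ε) * ((1 + 4 * ε) ^ m * (1 + 42 * ε) ^ m))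
      * (k * ∫⁻ p in S, g p ∂μH[m])) (𝓝[>] 0) (𝓝 (1 * (k * ∫⁻ p in S, g p ∂μH[m]))) := by
    refine ENNReal.Tendsto.mul_const ?_ (Or.inl one_ne_zero)
    have h1 : Continuous fun ε : ℝ => (1 + ε) * ((1 + 4 * ε) ^ m * (1 + 42 * ε) ^ m) := by fun_prop
    have h2 := (ENNReal.continuous_ofReal.comp h1).tendsto 0
    simp only [Function.comp_def, add_zero, mul_zero, one_pow, mul_one, ENNReal.ofReal_one] at h2
    exact h2.mono_left nhdsWithin_le_nhds
  rw [one_mul] at hlim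
  refine ge_of_tendsto hlim ?_
  filter_upwards [Ioc_mem_nhdsGT (show (0:ℝ) < 1 / 42 by norm_num)] with ε hε
  exact key ε hε.1 hε.2

end Vale.Agent.P218N.G
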