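import Vale.Agent.P218N.G.LIMulti
import Vale.Agent.P218N.G.LIArea2

/-! Energy comparison, part 5: reverse monotonicity, Gaussian integrals from ratio bounds. -/

open MeasureTheory Set Filter Topology Metric
open scoped ENNReal NNReal RealInnerProductSpace

namespace Vale.Agent.P218N.G

open Vale.Agent.P214 (IntegralVarifold proj divAlong IsApproxTangent weightOf)
open Vale.Agent.P218 Vale.Agent.P218.H313

set_option linter.unusedSectionVars false
set_option linter.unusedVariables false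

variable {E : Type*} [NormedAddCommGroup E] [InnerProductSpace ℝ E] [FiniteDimensional ℝ E]
  [MeasurableSpace E] [BorelSpace E]
variable {m : ℕ} {μ : Measure E} {T : E → Submodule ℝ E} {H : E → E}

lemma key_upper (hS : Slice m μ T H) (x : E) {t : ℝ} (ht : 0 < t) {u : E → ℝ}
    (hu : IntegrableOn u (closedBall x t) μ)
    (hle : ∀ᵐ y ∂μ, y ∈ closedBall x t →
      4 * (‖(y - x) - proj (T y) (y - x)‖ ^ 2 / t ^ 2) + t * ‖H y‖ ≤ u y) :
    ∫ y, (-(m * psi (‖y - x‖ ^ 2 / t ^ 2))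
        - 2 * (‖y - x‖ ^ 2 / t ^ 2) * psi' (‖y - x‖ ^ 2 / t ^ 2)) * (1:ℝ) ∂μ
      ≤ ∫ y in closedBall x t, u y ∂μ := by
  have hprop : ProperSpace E := FiniteDimensional.proper_real E
  have hfin := hS.mc.fin
  set h : E → ℝ := fun _ => 1 with hh'
  have hh : ContDiff ℝ 1 h := contDiff_const
  set X : E → E := fun y => Fw h x t y • (y - x) with hX
  have hFc := contDiff_Fw hh x t
  have hXC : ContDiff ℝ 1 X := hFc.smul (contDiff_id.sub contDiff_const)
  have hXz : ∀ y, y ∉ closedBall x t → X y = 0 := by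
    intro y hy
    rw [hX]
    simp only
    rw [Fw_zero ht hy, zero_smul]
  have hXc : HasCompactSupport X := HasCompactSupport.intro (isCompact_closedBall x t) hXz
  have hfv := hS.mc.fv X hXC hXc
  have hdiv : ∀ y, divAlong (T y) X y = psi (‖y - x‖ ^ 2 / t ^ 2) * Module.finrank ℝ (T y)
      + psi' (‖y - x‖ ^ 2 / t ^ 2) * (2 * ⟪y - x, proj (T y) (y - x)⟫ / t ^ 2) := by
    intro y
    rw [hX, H552.divAlong_smul_sub (T y) (Fw h x t) x y (hFc.differentiable (by norm_num) y),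
      fderiv_Fw hh]
    simp [hh', Fw]
  set a : E → ℝ := fun y => (-(m * psi (‖y - x‖ ^ 2 / t ^ 2))
        - 2 * (‖y - x‖ ^ 2 / t ^ 2) * psi' (‖y - x‖ ^ 2 / t ^ 2)) * (1:ℝ) with ha
  have hout : ∀ y, y ∉ closedBall x t → 1 ≤ ‖y - x‖ ^ 2 / t ^ 2 := by
    intro y hy
    rw [mem_closedBall, not_le, dist_eq_norm] at hy
    rw [one_le_div (by positivity)]
    gcongr
  have haz : ∀ y, y ∉ closedBall x t → a y = 0 := by
    intro y hy
    rw [ha]
    simp only
    rw [psi_zero (hout y hy), psi'_zero (hout y hy)]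
    ring
  have hacont : Continuous a := by
    have h1 : Continuous fun y : E => ‖y - x‖ ^ 2 / t ^ 2 := by fun_prop
    have h2 := continuous_psi.comp h1
    have h3 := continuous_psi'.comp h1
    exact ((((continuous_const.mul h2)).neg).sub ((continuous_const.mul h1).mul h3)).mul
      continuous_const
  have hai : Integrable a μ :=
    hacont.integrable_of_hasCompactSupport
      (HasCompactSupport.intro (isCompact_closedBall x t) haz)
  have hdz : ∀ y, y ∉ closedBall x t → divAlong (T y) X y = 0 := by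
    intro y hy
    rw [hdiv, psi_zero (hout y hy), psi'_zero (hout y hy)]
    ring
  obtain ⟨C₁, hC₁⟩ := hXc.exists_bound_of_continuous hXC.continuous
  have hdi : Integrable (fun y => divAlong (T y) X y) μ := by
    have hc2 : HasCompactSupport (fderiv ℝ X) := hXc.fderiv (𝕜 := ℝ)
    obtain ⟨C₂, hC₂⟩ := hc2.exists_bound_of_continuous (hXC.continuous_fderiv (by norm_num))
    refine hS.integrable_ball (hS.div_meas hXC) hdz (C := Module.finrank ℝ E * |C₂|)
      (Eventually.of_forall fun y => ?_)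
    refine (abs_divAlong_le _ _ _).trans ?_
    have h1 := (hC₂ y).trans (le_abs_self _)
    have h2 : (Module.finrank ℝ E : ℝ) * ‖fderiv ℝ X y‖ ≤ Module.finrank ℝ E * |C₂| := by gcongr
    have h3 : 0 ≤ (Module.finrank ℝ E : ℝ) * |C₂| := by positivity
    nlinarith [sq_nonneg ‖H y‖]
  have hHi : Integrable (fun y => ⟪X y, H y⟫) μ := by
    refine hS.integrable_ball (hXC.continuous.aestronglyMeasurable.inner hS.mc.meas)
      (fun y hy => by rw [hXz y hy, inner_zero_left]) (C := |C₁|)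
      (Eventually.of_forall fun y => ?_)
    refine (abs_real_inner_le_norm _ _).trans ?_
    have h1 := (hC₁ y).trans (le_abs_self _)
    have e4 : ‖H y‖ ≤ 1 + ‖H y‖ ^ 2 := by
      nlinarith [sq_nonneg (‖H y‖ - 1), norm_nonneg (H y)]
    exact mul_le_mul h1 e4 (norm_nonneg _) (abs_nonneg _)
  have hsum : ∫ y, a y ∂μ = ∫ y, (a y + divAlong (T y) X y + ⟪X y, H y⟫) ∂μ := by
    have h1 : Integrable (fun y => a y + divAlong (T y) X y) μ := hai.add hdi
    rw [integral_add h1 hHi, integral_add hai hdi, hfv]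
    ring
  change ∫ y, a y ∂μ ≤ _
  rw [hsum, ← integral_indicator measurableSet_closedBall]
  refine integral_mono_ae ((hai.add hdi).add hHi)
    ((integrable_indicator_iff measurableSet_closedBall).2 hu) ?_
  filter_upwards [hS.mc.dim, hle] with y hdim hy'
  by_cases hy : y ∈ closedBall x t
  · rw [indicator_of_mem hy]
    refine le_trans ?_ (hy' hy)
    rw [mem_closedBall, dist_eq_norm] at hy
    rw [hdiv y, hdim]
    set s := ‖y - x‖ ^ 2 / t ^ 2 with hs
    set P := proj (T y) (y - x) with hP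
    have hs0 : 0 ≤ s := by positivity
    have e1 : ⟪y - x, P⟫ = ‖P‖ ^ 2 := by
      rw [hP, norm_proj_sq, real_inner_comm]
    have e2 : ‖y - x - P‖ ^ 2 / t ^ 2 = s - ‖P‖ ^ 2 / t ^ 2 := by
      rw [norm_sub_sq_real, e1, hs]; ring
    have e5 : ⟪y - x, H y⟫ ≤ t * ‖H y‖ :=
      (real_inner_le_norm _ _).trans (mul_le_mul_of_nonneg_right hy (norm_nonneg _))
    have e6 : ⟪X y, H y⟫ = psi s * ⟪y - x, H y⟫ := by
      rw [hX]
      simp only
      rw [real_inner_smul_left]
      simp [Fw, hh', hs]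
    have hp0 := psi_nonneg s
    have hp1 := psi_le_one hs0
    have hp2 := neg_le_of_abs_le (psi'_bound hs0)
    have e7 : a y = (-(m * psi s) - 2 * s * psi' s) * 1 := rfl
    have e9 : 2 * ‖P‖ ^ 2 / t ^ 2 = 2 * (‖P‖ ^ 2 / t ^ 2) := by ring
    rw [e6, e1, e7, e9]
    have e3 : 0 ≤ ‖y - x - P‖ ^ 2 / t ^ 2 := by positivity
    have k1 : -(psi' s) * (‖y - x - P‖ ^ 2 / t ^ 2) ≤ 2 * (‖y - x - P‖ ^ 2 / t ^ 2) :=
      mul_le_mul_of_nonneg_right (by linarith) e3
    have k2 : psi s * ⟪y - x, H y⟫ ≤ t * ‖H y‖ := by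
      have h2 : 0 ≤ t * ‖H y‖ := by positivity
      nlinarith
    rw [e2] at k1 ⊢
    linarith
  · rw [indicator_of_notMem hy, haz y hy, hdz y hy, hXz y hy, inner_zero_left]
    simp

/-- **reverse monotonicity** -/
theorem JJ_rev (hS : Slice m μ T H) {x : E} {lam r₀ r : ℝ} (hr₀ : 0 < r₀) (hr : r₀ ≤ r)
    (hA : ∀ t, r₀ ≤ t → t ≤ r → ∃ u : E → ℝ, IntegrableOn u (closedBall x t) μ ∧
      (∀ᵐ y ∂μ, y ∈ closedBall x t →
        4 * (‖(y - x) - proj (T y) (y - x)‖ ^ 2 / t ^ 2) + t * ‖H y‖ ≤ u y) ∧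
      ∫ y in closedBall x t, u y ∂μ ≤ lam * t ^ (m + 1)) :
    JJ m μ (fun _ => 1) x r ≤ JJ m μ (fun _ => 1) x r₀ + lam * (r - r₀) := by
  have hfin := hS.mc.fin
  set G : ℝ → ℝ := fun t => JJ m μ (fun _ => 1) x t - lam * t with hG
  have hder : ∀ t, 0 < t → HasDerivAt G (t⁻¹ * (∫ y, (-(m * psi (‖y - x‖ ^ 2 / t ^ 2))
        - 2 * (‖y - x‖ ^ 2 / t ^ 2) * psi' (‖y - x‖ ^ 2 / t ^ 2)) * (1:ℝ) ∂μ) / t ^ m
        - lam * 1) t := by
    intro t ht
    exact (hasDerivAt_JJ continuous_const x ht).sub ((hasDerivAt_id t).const_mul lam)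
  have hmono : AntitoneOn G (Icc r₀ r) := by
    refine antitoneOn_of_deriv_nonpos (convex_Icc r₀ r) ?_ ?_ ?_
    · intro t ht
      exact (hder t (lt_of_lt_of_le hr₀ ht.1)).continuousAt.continuousWithinAt
    · intro t ht
      rw [interior_Icc] at ht
      exact (hder t (lt_trans hr₀ ht.1)).differentiableAt.differentiableWithinAt
    · intro t ht
      rw [interior_Icc] at ht
      have ht0 : 0 < t := lt_trans hr₀ ht.1
      rw [(hder t ht0).deriv]
      obtain ⟨u, u1, u2, u3⟩ := hA t ht.1.le ht.2.le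
      have k1 := (key_upper hS x ht0 u1 u2).trans u3
      have hp : 0 < t ^ m := by positivity
      rw [mul_one, sub_nonpos, div_le_iff₀ hp, ← div_eq_inv_mul, div_le_iff₀ ht0, mul_assoc,
        ← pow_succ]
      exact k1
  have := hmono (left_mem_Icc.2 hr) (right_mem_Icc.2 hr) hr
  simp only [hG] at this
  linarith

/-- Gaussian integrals are bounded in terms of the mass of balls of a fixed radius -/
theorem exists_gauss_bound (E : Type*) [NormedAddCommGroup E] [InnerProductSpace ℝ E]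
    [FiniteDimensional ℝ E] [MeasurableSpace E] [BorelSpace E] {a r : ℝ} (ha : 0 < a)
    (hr : 0 < r) : ∃ C : ℝ≥0∞, C ≠ ⊤ ∧ ∀ (μ : Measure E) [SFinite μ] (C₀ : ℝ≥0∞),
      (∀ x, μ (closedBall x r) ≤ C₀) →
      ∫⁻ y, ENNReal.ofReal (Real.exp (-(a * ‖y‖ ^ 2))) ∂μ ≤ C * C₀ := by
  set v : ℝ≥0∞ := volume (closedBall (0:E) r) with hv
  have hv0 : v ≠ 0 := (measure_closedBall_pos _ _ hr).ne'
  have hvt : v ≠ ⊤ := measure_closedBall_lt_top.ne
  set g : E → ℝ≥0∞ := fun x => ENNReal.ofReal (Real.exp (a * r ^ 2) * Real.exp (-(a / 2) * ‖x‖ ^ 2))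
    with hg
  have hgm : Measurable g := by
    refine Measurable.ennreal_ofReal (Continuous.measurable ?_)
    fun_prop
  have hgi : ∫⁻ x, g x ≠ ⊤ := by
    have h1 : Integrable (fun x : E => Real.exp (-(a / 2) * ‖x‖ ^ 2)) := by
      have h2 := GaussianFourier.integrable_cexp_neg_mul_sq_norm_add (V := E) (b := (a / 2 : ℝ))
        (by simpa using ha) 0 0
      refine h2.norm.congr (Eventually.of_forall fun x => ?_)
      simp only [zero_mul, add_zero, Complex.norm_exp]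
      congr 1
      norm_cast
    exact ((h1.const_mul _).lintegral_lt_top).ne
  refine ⟨v⁻¹ * ∫⁻ x, g x, ENNReal.mul_ne_top (ENNReal.inv_ne_top.2 hv0) hgi, fun μ _ C₀ hC => ?_⟩
  set F : E → E → ℝ≥0∞ := fun y x => {p : E × E | dist p.1 p.2 ≤ r}.indicator (fun p => g p.2) (y, x)
    with hF
  have hFm : Measurable (Function.uncurry F) :=
    (hgm.comp measurable_snd).indicator (isClosed_le (by fun_prop) continuous_const).measurableSet
  have h1 : ∀ y : E, v * ENNReal.ofReal (Real.exp (-(a * ‖y‖ ^ 2))) ≤ ∫⁻ x, F y x := by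
    intro y
    rw [hv, ← Measure.addHaar_closedBall_center volume y r, mul_comm, ← setLIntegral_const,
      ← lintegral_indicator measurableSet_closedBall]
    refine lintegral_mono fun x => ?_
    by_cases hx : x ∈ closedBall y r
    · have hx' : (y, x) ∈ {p : E × E | dist p.1 p.2 ≤ r} := by
        rw [mem_closedBall, dist_comm] at hx; exact hx
      simp only [hF]
      rw [indicator_of_mem hx, indicator_of_mem hx']
      refine ENNReal.ofReal_le_ofReal ?_
      rw [← Real.exp_add]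
      refine Real.exp_le_exp.2 ?_
      have h2 : ‖x‖ ≤ ‖y‖ + r := by
        rw [mem_closedBall, dist_eq_norm] at hx
        have := norm_sub_norm_le x y
        linarith
      have h3 : ‖x‖ ^ 2 ≤ 2 * ‖y‖ ^ 2 + 2 * r ^ 2 := by
        have := pow_le_pow_left₀ (norm_nonneg _) h2 2
        nlinarith [sq_nonneg (‖y‖ - r)]
      show -(a * ‖y‖ ^ 2) ≤ a * r ^ 2 + -(a / 2) * ‖x‖ ^ 2
      nlinarith
    · rw [indicator_of_notMem hx]; exact zero_le
  have h2 : ∀ x : E, ∫⁻ y, F y x ∂μ ≤ g x * C₀ := by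
    intro x
    have : (fun y => F y x) = (closedBall x r).indicator fun _ => g x := by
      ext y
      simp only [hF, indicator, mem_closedBall]
      rfl
    rw [this, lintegral_indicator measurableSet_closedBall, setLIntegral_const]
    exact mul_le_mul_right (hC x) _
  have h3 : v * ∫⁻ y, ENNReal.ofReal (Real.exp (-(a * ‖y‖ ^ 2))) ∂μ ≤ (∫⁻ x, g x) * C₀ := by
    rw [← lintegral_const_mul' _ _ hvt]
    calc _ ≤ ∫⁻ y, ∫⁻ x, F y x ∂volume ∂μ := lintegral_mono h1
      _ = ∫⁻ x, ∫⁻ y, F y x ∂μ ∂volume := lintegral_lintegral_swap hFm.aemeasurable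
      _ ≤ ∫⁻ x, g x * C₀ := lintegral_mono h2
      _ = _ := lintegral_mul_const _ hgm
  calc ∫⁻ y, ENNReal.ofReal (Real.exp (-(a * ‖y‖ ^ 2))) ∂μ
      = v⁻¹ * (v * ∫⁻ y, ENNReal.ofReal (Real.exp (-(a * ‖y‖ ^ 2))) ∂μ) := by
        rw [← mul_assoc, ENNReal.inv_mul_cancel hv0 hvt, one_mul]
    _ ≤ v⁻¹ * ((∫⁻ x, g x) * C₀) := by gcongr
    _ = _ := by rw [mul_assoc]

/-- the area inequality for almost everywhere measurable weights -/
theorem area_le' {μ : Measure E} [IsFiniteMeasure μ] {θ : E → ℕ} (hθ : Measurable θ)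
    (hB : ∀ (q : ℕ) (B : Set E), MeasurableSet B → B ⊆ θ ⁻¹' {q} → μ B ≤ q * μH[m] B)
    {T : E → Submodule ℝ E} {f : E → E} (hf : ContDiff ℝ 1 f) {G S : Set E}
    (hG : MeasurableSet G) (hS : MeasurableSet S) (hGS : ∀ y ∈ G, f y ∈ S)
    (htan : ∀ y ∈ G, 1 ≤ θ y ∧ IsApproxTangent m μ y (θ y) (T y))
    (hn : ∀ y ∈ G, ‖fderiv ℝ f y‖ ≤ 2) (hinj : ∀ y ∈ G, ∀ z ∈ T y, ‖z‖ ≤ 2 * ‖fderiv ℝ f y z‖)
    {k : ℕ} (hfib : ∀ (Y : Finset E) (p : E), (∀ y ∈ Y, y ∈ G ∧ f y = p) → ∑ y ∈ Y, θ y ≤ k)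
    {w g : E → ℝ≥0∞} (hw : AEMeasurable w μ) (hg : Measurable g)
    (hwg : ∀ y ∈ G, ∀ ι : Rm m →ₗᵢ[ℝ] E, range ι = (T y : Set E) →
      w y ≤ g (f y) * ENNReal.ofReal (jl (fderiv ℝ f y) ι.toContinuousLinearMap)) :
    ∫⁻ y in G, w y ∂μ ≤ k * ∫⁻ p in S, g p ∂μH[m] := by
  set N := toMeasurable μ {y | w y ≠ hw.mk w y} with hN
  have hN0 : μ N = 0 := by rw [hN, measure_toMeasurable]; exact ae_iff.1 hw.ae_eq_mk
  have h1 := area_le hθ hB hf (hG.diff (measurableSet_toMeasurable μ {y | w y ≠ hw.mk w y})) hS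
    (fun y hy => hGS y hy.1) (fun y hy => htan y hy.1) (fun y hy => hn y hy.1)
    (fun y hy => hinj y hy.1) (k := k) (fun Y p h => hfib Y p fun y hy => ⟨(h y hy).1.1, (h y hy).2⟩)
    hw.measurable_mk hg (fun y hy ι hι => by
      have : w y = hw.mk w y := by
        by_contra hne
        exact hy.2 (subset_toMeasurable μ _ hne)
      rw [← this]
      exact hwg y hy.1 ι hι)
  refine le_trans (le_of_eq ?_) h1
  rw [setLIntegral_congr (sdiff_null_ae_eq_self hN0)]
  exact lintegral_congr_ae (ae_restrict_of_ae hw.ae_eq_mk)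

end Vale.Agent.P218N.G
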