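import Vale.Agent.P218N.G.Blow
import Vale.Agent.P218N.G.Model

/-! The static estimate: near the shrinker, in the gauge, the squared distance and the squared
multipliers are bounded by the dissipation. -/

open MeasureTheory Set Filter Topology Metric
open scoped ENNReal NNReal RealInnerProductSpace

namespace Vale.Agent.P218N.G

open Vale.Agent.P214 (IntegralVarifold proj divAlong IsTestField)
open Vale.Agent.P218 Vale.Agent.P218.H313

set_option linter.unusedSectionVars false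
set_option linter.unusedVariables false

variable {E : Type*} [NormedAddCommGroup E] [InnerProductSpace ℝ E] [FiniteDimensional ℝ E]
  [MeasurableSpace E] [BorelSpace E]
variable {m : ℕ}

lemma cont_w (q : ℕ) : Continuous (fun x : E => (1 + ‖x‖) ^ q) :=
  (continuous_const.add continuous_norm).pow q

lemma pb_w (q : ℕ) : PB (fun x : E => (1 + ‖x‖) ^ q) :=
  PB.of_le (C := 1) (p := q) fun x => by
    rw [Real.norm_of_nonneg (by positivity), one_mul]

/-- tube functions with a polynomial bound for the error -/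
lemma Tube0.tubeF {W f : E → ℝ} {c K L : ℝ} {q : ℕ} (hW : Tube0 W c K) (hf : Continuous f)
    (hb : PB f)
    (h : ∀ x, |W x| < c → |ricE W x - f x| ≤ K * W x ^ 2 + L * (1 + ‖x‖) ^ q) :
    TubeF W f (fun x => |L| * (1 + ‖x‖) ^ q) c K where
  toTube0 := hW
  fc := hf
  fb := hb
  gc := continuous_const.mul (cont_w q)
  gb := (pb_w q).const_mul _
  g0 x := by positivity
  ric x hx := by
    refine (h x hx).trans ?_
    have := le_abs_self L
    gcongr

/-- local `C²` convergence gives uniform convergence of the Jacobi operators -/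
lemma C2Lim.jac {ι : Type*} {l : Filter ι} {Wi : ι → E → ℝ} {W : E → ℝ} {c K : ℝ}
    (h : C2Lim l Wi W) (hW : Tube0 W c K) (hWi : ∀ᶠ i in l, Tube0 (Wi i) c K) {ζ : E → ℝ}
    (hζ : ContDiff ℝ 2 ζ) (hζc : HasCompactSupport ζ) {ε : ℝ} (hε : 0 < ε) :
    ∀ᶠ i in l, ∀ x, |jac (Wi i) ζ x - jac W ζ x| ≤ ε := by
  obtain ⟨B, hB, hζ0, hζ1, hζ2⟩ := exists_bounds2 hζ hζc
  have hK := hW.K_nonneg
  obtain ⟨R, hR⟩ := hζc.isCompact.isBounded.subset_closedBall (0 : E)
  set n : ℝ := (Module.finrank ℝ E : ℝ) with hn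
  have hn0 : 0 ≤ n := by rw [hn]; positivity
  set C := 2 * B * K + 2 * n * K * B + 1 with hC
  have hC0 : 0 < C := by positivity
  filter_upwards [h R (ε / C) (by positivity), hWi] with i hi hTi x
  by_cases hx : x ∈ tsupport ζ
  · obtain ⟨-, h1, h2⟩ := hi x (by simpa using hR hx)
    set D := fderiv ℝ (grad ζ) x
    set g' := grad (Wi i) x
    set g := grad W x
    set A' := fderiv ℝ (grad (Wi i)) x
    set A := fderiv ℝ (grad W) x
    have hD : ‖D‖ ≤ B := hζ2 x
    have hg' : ‖g'‖ ≤ K := hTi.b1 x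
    have hg : ‖g‖ ≤ K := hW.b1 x
    have hA' : ‖A'‖ ≤ K := hTi.b2 x
    have hA : ‖A‖ ≤ K := hW.b2 x
    have e1 : H313.jac (Wi i) ζ x - H313.jac W ζ x
        = -(⟪D (g' - g), g'⟫ + ⟪D g, g' - g⟫)
          + (tr ((A' - A).comp A') + tr (A.comp (A' - A))) * ζ x := by
      unfold H313.jac
      rw [map_sub, inner_sub_left, inner_sub_right, ContinuousLinearMap.sub_comp,
        ContinuousLinearMap.comp_sub, tr_sub, tr_sub]
      ring
    have b1 : |⟪D (g' - g), g'⟫| ≤ B * (ε / C) * K := by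
      refine (abs_real_inner_le_norm _ _).trans ?_
      have := D.le_opNorm (g' - g)
      calc ‖D (g' - g)‖ * ‖g'‖ ≤ (‖D‖ * ‖g' - g‖) * ‖g'‖ := by gcongr
        _ ≤ B * (ε / C) * K := by gcongr
    have b2 : |⟪D g, g' - g⟫| ≤ B * K * (ε / C) := by
      refine (abs_real_inner_le_norm _ _).trans ?_
      have := D.le_opNorm g
      calc ‖D g‖ * ‖g' - g‖ ≤ (‖D‖ * ‖g‖) * ‖g' - g‖ := by gcongr
        _ ≤ B * K * (ε / C) := by gcongr
    have b3 : |tr ((A' - A).comp A')| ≤ n * (ε / C * K) := by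
      refine (abs_tr_le _).trans ?_
      gcongr
      refine (ContinuousLinearMap.opNorm_comp_le _ _).trans ?_
      gcongr
    have b4 : |tr (A.comp (A' - A))| ≤ n * (K * (ε / C)) := by
      refine (abs_tr_le _).trans ?_
      gcongr
      refine (ContinuousLinearMap.opNorm_comp_le _ _).trans ?_
      gcongr
    rw [e1]
    have b5 : |(tr ((A' - A).comp A') + tr (A.comp (A' - A))) * ζ x|
        ≤ (n * (ε / C * K) + n * (K * (ε / C))) * B := by
      rw [abs_mul]
      have := abs_add_le (tr ((A' - A).comp A')) (tr (A.comp (A' - A)))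
      have h3 := hζ0 x
      gcongr
      linarith
    have b6 := abs_add_le (-(⟪D (g' - g), g'⟫ + ⟪D g, g' - g⟫))
      ((tr ((A' - A).comp A') + tr (A.comp (A' - A))) * ζ x)
    rw [abs_neg] at b6
    have b7 := abs_add_le ⟪D (g' - g), g'⟫ ⟪D g, g' - g⟫
    have b8 : B * (ε / C) * K + B * K * (ε / C) + (n * (ε / C * K) + n * (K * (ε / C))) * B
        + ε / C = ε := by
      have : B * (ε / C) * K + B * K * (ε / C) + (n * (ε / C * K) + n * (K * (ε / C))) * B
        + ε / C = ε / C * C := by rw [hC]; ring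
      rw [this]; field_simp
    have b9 : 0 < ε / C := by positivity
    linarith
  · have e0 : ζ =ᶠ[𝓝 x] fun _ => 0 := notMem_tsupport_iff_eventuallyEq.1 hx
    have e1 : grad ζ =ᶠ[𝓝 x] fun _ => 0 := by
      filter_upwards [e0.eventually_nhds] with y hy
      have : fderiv ℝ ζ y = 0 := by
        rw [EventuallyEq.fderiv_eq (f := fun _ => (0 : ℝ)) hy]; simp
      rw [← norm_eq_zero, norm_grad, this, norm_zero]
    have e2 : fderiv ℝ (grad ζ) x = 0 := by rw [e1.fderiv_eq]; simp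
    have e3 : ζ x = 0 := e0.self_of_nhds
    have e4 : H313.jac (Wi i) ζ x - H313.jac W ζ x = 0 := by
      unfold H313.jac
      rw [e2, e3]
      simp
    rw [e4, abs_zero]
    exact hε.le

/-- **Strong compactness for limits of upper density at most one.** -/
theorem sc_of_dens (hm : 0 < m) (hE : Module.finrank ℝ E = m + 1) {κ : Measure E}
    (hκ : ∀ x : E, ∀ c > om m, ∀ᶠ r in 𝓝[>] (0 : ℝ),
      (∫ y, H313.ker (r⁻¹ • (y - x)) ∂κ) / r ^ m ≤ c)
    (M : Set (Measure E)) (W : E → ℝ) (c K : ℝ) (q : ℕ) : SC m M κ W c K q := by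
  intro U N T H Wi L e h _ hWi _ hric hpos he hL hD hdis hw χ hχ hχc
  obtain ⟨i₀, hi₀⟩ := hWi.exists
  have hF : ∀ᶠ i in (U : Filter ℝ),
      TubeF (Wi i) (fun _ => 0) (fun x => |L i| * (1 + ‖x‖) ^ q) c K := by
    filter_upwards [hWi, hric] with i h1 h2
    exact h1.tubeF continuous_const (PB.const 0) (by simpa using h2)
  obtain ⟨M₀, hM₀⟩ := h.mom (2 * q)
  have hL1 : ∀ᶠ i in (U : Filter ℝ), |L i / e i| ≤ 1 := by
    have := hL.abs
    rw [abs_zero] at this
    exact this.eventually_le_const one_pos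
  have key := strong_one hm hE h hκ hi₀.cpos hi₀.K_nonneg hF hpos
    (he.eventually_le_const one_pos) hD ?_ ?_ ?_ χ hχ hχc
  · refine key.congr fun i => ?_
    congr 1; ext x
    simp only [sh]
    rw [div_eq_inv_mul]
  · filter_upwards [hdis.eventually_le_const one_pos, hpos] with i h1 h2
    rwa [div_le_one (by positivity)] at h1
  · refine ⟨|M₀|, ?_⟩
    filter_upwards [h.sl, hM₀, hL1, hpos] with i hs h1 h2 h3
    have e1 : DD (N i) (fun _ => (0 : ℝ)) 0 = 0 := by simp [DD]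
    have e2 := DD_le_of_bound hs (g := fun x => |L i| * (1 + ‖x‖) ^ q) (L := |L i|) (q := q)
      (continuous_const.mul (cont_w q)) (fun x => by rw [abs_of_nonneg (by positivity)])
      (h1.trans (le_abs_self _))
    rw [abs_div, abs_of_pos h3, div_le_one h3] at h2
    have e3 : |L i| ^ 2 ≤ e i ^ 2 := by gcongr
    rw [e1, zero_add]
    refine e2.trans ?_
    rw [mul_comm]
    gcongr
  · intro φ h1 h2
    refine (hw φ h1 h2).congr fun i => ?_
    congr 1; ext x
    simp only [sh]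
    rw [div_eq_inv_mul]

/-- **Strong compactness for multiplicity one.** -/
theorem sc_one (hm : 0 < m) (hE : Module.finrank ℝ E = m + 1) {W : E → ℝ} {c K : ℝ}
    (hW : TubeD W c K) (M : Set (Measure E)) (q : ℕ) : SC m M (sig m W) W c K q :=
  sc_of_dens hm hE (fun x b hb => density_le hE hW x hb) M W c K q

theorem sc_one' (hm : 0 < m) (hE : Module.finrank ℝ E = m + 1) {W : E → ℝ} {c K : ℝ}
    (hW : TubeD W c K) (M : Set (Measure E)) (q : ℕ) :
    SC m M (((1 : ℕ) : ℝ≥0∞) • sig m W) W c K q := by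
  rw [Nat.cast_one, one_smul]
  exact sc_one hm hE hW M q

/-- the best constant in a family of inequalities tends to zero -/
lemma exists_rate {ι X : Type*} {l : Filter ι} {p : ι → X → Prop} {u B : ι → X → ℝ}
    (h : ∀ ε : ℝ, 0 < ε → ∀ᶠ i in l, ∀ x, p i x → u i x ≤ ε * B i x) :
    ∃ δ : ι → ℝ, Tendsto δ l (𝓝 0) ∧ ∀ᶠ i in l, ∀ x, p i x → u i x ≤ δ i * B i x := by
  let S : ι → Set ℝ := fun i => {ε | 0 ≤ ε ∧ ∀ x, p i x → u i x ≤ ε * B i x}
  have hcl : ∀ i, IsClosed (S i) := by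
    intro i
    have e : S i = Ici 0 ∩ ⋂ x, ⋂ (_ : p i x), {ε | u i x ≤ ε * B i x} := by
      ext ε; simp [S]
    rw [e]
    exact isClosed_Ici.inter (isClosed_iInter fun x => isClosed_iInter fun _ =>
      isClosed_le continuous_const (continuous_id.mul continuous_const))
  have hbd : ∀ i, BddBelow (S i) := fun i => ⟨0, fun ε hε => hε.1⟩
  refine ⟨fun i => sInf (S i), ?_, ?_⟩
  · rw [Metric.tendsto_nhds]
    intro ε hε
    filter_upwards [h (ε / 2) (half_pos hε)] with i hi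
    have h1 : ε / 2 ∈ S i := ⟨(half_pos hε).le, hi⟩
    have h2 := csInf_le (hbd i) h1
    have h3 := ((hcl i).csInf_mem ⟨_, h1⟩ (hbd i)).1
    rw [Real.dist_eq, sub_zero, abs_of_nonneg h3]
    linarith
  · filter_upwards [h 1 one_pos] with i hi
    exact ((hcl i).csInf_mem ⟨1, zero_le_one, hi⟩ (hbd i)).2

lemma aux_sq {y r B ε : ℝ} (hε : 0 ≤ ε) (hε1 : ε ≤ 1) (hB : 0 ≤ B) (hr : |r| ≤ ε * B) :
    (y + r) ^ 2 ≤ y ^ 2 + ε * (y ^ 2 + 2 * B ^ 2) := by
  have h1 : 2 * y * r ≤ ε * (y ^ 2 + B ^ 2) := by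
    have h2 : 2 * y * r ≤ 2 * |y| * |r| := by
      have := le_abs_self (2 * y * r)
      rwa [abs_mul, abs_mul, abs_two] at this
    have h3 : 2 * |y| * |r| ≤ 2 * |y| * (ε * B) := by gcongr
    have h4 : 2 * |y| * B ≤ y ^ 2 + B ^ 2 := by
      rw [← sq_abs y]; nlinarith [sq_nonneg (|y| - B)]
    have h5 := mul_le_mul_of_nonneg_left h4 hε
    nlinarith
  have h2 : r ^ 2 ≤ ε * B ^ 2 := by
    have h3 : r ^ 2 ≤ (ε * B) ^ 2 := by
      rw [← sq_abs r]; exact pow_le_pow_left₀ (abs_nonneg _) hr 2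
    have h4 : ε ^ 2 ≤ ε := by nlinarith
    have h5 := mul_le_mul_of_nonneg_right h4 (sq_nonneg B)
    nlinarith
  nlinarith

/-- comparison of the squared distances for two nearby tube functions -/
lemma min_ineq {μ : Measure E} {T : E → Submodule ℝ E} {H : E → E} (hS : GSlice m μ T H)
    {W W' v : E → ℝ} {c K e ε B M : ℝ} {q : ℕ} (hW : Tube0 W c K) (hW' : Tube0 W' c K)
    (hv : Continuous v) (hB : 0 ≤ B) (hvb : ∀ x, |v x| ≤ B * (1 + ‖x‖) ^ q) (he : 0 < e)
    (hε : 0 ≤ ε) (hε1 : ε ≤ 1)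
    (hr : ∀ x, |W' x - W x + e * v x| ≤ ε * (e * B) * (1 + ‖x‖) ^ q)
    (hD : DD μ W 0 ≤ e ^ 2) (hM : ∫ x, (1 + ‖x‖) ^ (2 * q) * rho x ∂μ ≤ M)
    (hmin : DD μ W 0 ≤ DD μ W' 0) :
    2 * ∫ x, sh e W x * v x * rho x ∂μ - ∫ x, v x ^ 2 * rho x ∂μ ≤ ε * (2 + 4 * B ^ 2 * M) := by
  have hvp : PB v := PB.of_le (C := B) (p := q) fun x => hvb x
  have i1 : Integrable (fun x => sh e W x ^ 2 * rho x) μ :=
    hS.integrable_PB ((sh_cont hW).pow 2).aestronglyMeasurable ((sh_pb hW).pow 2)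
  have i1' : Integrable (fun x => sh e W' x ^ 2 * rho x) μ :=
    hS.integrable_PB ((sh_cont hW').pow 2).aestronglyMeasurable ((sh_pb hW').pow 2)
  have i2 : Integrable (fun x => sh e W x * v x * rho x) μ :=
    hS.integrable_PB ((sh_cont hW).mul hv).aestronglyMeasurable ((sh_pb hW).mul hvp)
  have i3 : Integrable (fun x => v x ^ 2 * rho x) μ :=
    hS.integrable_PB (hv.pow 2).aestronglyMeasurable (hvp.pow 2)
  have i4 := hS.mom (2 * q)
  have h1 : ∫ x, sh e W x ^ 2 * rho x ∂μ ≤ ∫ x, sh e W' x ^ 2 * rho x ∂μ := by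
    rw [sh_norm, sh_norm]; gcongr
  have h2 : ∫ x, sh e W x ^ 2 * rho x ∂μ ≤ 1 := by
    rw [sh_norm, div_le_one (by positivity)]; exact hD
  have k1 : Integrable (fun x => (1 + 2 * ε) * (sh e W x ^ 2 * rho x)
      + (-2) * (sh e W x * v x * rho x) + 1 * (v x ^ 2 * rho x)) μ :=
    ((i1.const_mul _).add (i2.const_mul _)).add (i3.const_mul _)
  have h3 : ∫ x, sh e W' x ^ 2 * rho x ∂μ ≤ ∫ x, (((1 + 2 * ε) * (sh e W x ^ 2 * rho x)
      + (-2) * (sh e W x * v x * rho x) + 1 * (v x ^ 2 * rho x))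
      + ε * (4 * B ^ 2) * ((1 + ‖x‖) ^ (2 * q) * rho x)) ∂μ := by
    refine integral_mono i1' (k1.add (i4.const_mul _)) fun x => ?_
    set w := sh e W x with hw
    set r := e⁻¹ * (W' x - W x + e * v x) with hr'
    set b := B * (1 + ‖x‖) ^ q with hb
    have hb0 : 0 ≤ b := by positivity
    have e1 : sh e W' x = (w - v x) + r := by
      simp only [hw, hr', sh]; field_simp; ring
    have e2 : |r| ≤ ε * b := by
      rw [hr', abs_mul, abs_of_pos (inv_pos.2 he), inv_mul_le_iff₀ he]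
      refine (hr x).trans (le_of_eq ?_)
      rw [hb]; ring
    have e3 := aux_sq (y := w - v x) hε hε1 hb0 e2
    have e4 : v x ^ 2 ≤ b ^ 2 := by
      rw [← sq_abs (v x)]; exact pow_le_pow_left₀ (abs_nonneg _) (hvb x) 2
    have e5 : (w - v x) ^ 2 ≤ 2 * w ^ 2 + 2 * b ^ 2 := by nlinarith [sq_nonneg (w + v x)]
    have e6 : b ^ 2 = B ^ 2 * (1 + ‖x‖) ^ (2 * q) := by rw [hb]; ring
    have e7 : sh e W' x ^ 2 ≤ (1 + 2 * ε) * w ^ 2 + (-2) * (w * v x) + v x ^ 2
        + ε * (4 * B ^ 2) * (1 + ‖x‖) ^ (2 * q) := by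
      have e8 : ε * ((w - v x) ^ 2 + 2 * b ^ 2) ≤ ε * (2 * w ^ 2 + 4 * b ^ 2) := by
        gcongr ε * ?_; linarith
      have e9 : ε * (4 * B ^ 2) * (1 + ‖x‖) ^ (2 * q) = ε * (4 * b ^ 2) := by rw [e6]; ring
      rw [e1, e9]
      nlinarith
    have e10 := mul_le_mul_of_nonneg_right e7 (rho_pos x).le
    refine e10.trans (le_of_eq ?_)
    ring
  rw [integral_add k1 (i4.const_mul _), integral_comb i1 i2 i3, integral_const_mul] at h3
  have h4 : ε * (4 * B ^ 2) * ∫ x, (1 + ‖x‖) ^ (2 * q) * rho x ∂μ ≤ ε * (4 * B ^ 2) * M := by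
    gcongr
  have h5 := mul_le_mul_of_nonneg_left h2 hε
  nlinarith

variable {P : Type*} [NormedAddCommGroup P] [NormedSpace ℝ P] {J : Type*} [Fintype J]
  {V : P → E → ℝ} {V' : P →ₗ[ℝ] (E → ℝ)} {psi : J → E → ℝ}
  {lam : P → J → ℝ} {c K : ℝ} {q : ℕ} {β : ℝ}

lemma Model.cont_sum (hM : Model m V V' psi lam c K q β) (mu : J → ℝ) :
    Continuous (fun x => ∑ j, mu j * psi j x) :=
  continuous_finsetSum _ fun j _ => continuous_const.mul (hM.pcont j)

lemma Model.pb_sum (hM : Model m V V' psi lam c K q β) (mu : J → ℝ) :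
    PB (fun x => ∑ j, mu j * psi j x) :=
  PB.of_le (C := Fintype.card J * K * ‖mu‖) (p := q) fun x => hM.abs_sum_le mu x

lemma Model.lip0 (hM : Model m V V' psi lam c K q β) :
    ∀ᶠ a in 𝓝 (0 : P), ∀ x, |V a x - V 0 x| ≤ (K + 1) * ‖a‖ * (1 + ‖x‖) ^ q := by
  have h1 : Tendsto (fun a : P => ((0 : P), a)) (𝓝 0) (𝓝 0) :=
    (continuous_const.prodMk continuous_id).tendsto' 0 0 rfl
  filter_upwards [h1.eventually (hM.strict 1 one_pos)] with a ha x
  have h2 := ha x
  simp only [sub_zero, one_mul] at h2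
  have h3 := hM.db a x
  have h4 := abs_add_le (V a x - V 0 x - V' a x) (V' a x)
  rw [sub_add_cancel] at h4
  linarith

/-- the squared distance to the members of the family tends to zero -/
lemma Model.tendsto_DD (hM : Model m V V' psi lam c K q β) {ι : Type*} {U : Ultrafilter ι}
    {N : ι → Measure E} {T : ι → E → Submodule ℝ E} {H : ι → E → E} {κ : Measure E}
    (h : Conv U m N T H κ) (hV0 : ∀ᵐ x ∂κ, V 0 x = 0) {a : ι → P} (ha : Tendsto a U (𝓝 0)) :
    Tendsto (fun s => DD (N s) (V (a s)) 0) U (𝓝 0) := by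
  have hW := hM.tube0
  obtain ⟨M, hM2⟩ := h.mom (2 * q)
  have l1 : Tendsto (fun s => ∫ x, V 0 x ^ 2 * rho x ∂(N s)) U (𝓝 0) := by
    have h1 := h.lim_PB (f := fun x => V 0 x ^ 2) (hW.cont.pow 2) (hW.pg.b0.pow 2)
    have e : ∫ x, V 0 x ^ 2 * rho x ∂κ = 0 := by
      refine integral_eq_zero_of_ae ?_
      filter_upwards [hV0] with x hx
      simp [hx]
    rwa [e] at h1
  have l2 : Tendsto (fun s => 2 * (∫ x, V 0 x ^ 2 * rho x ∂(N s))
      + 2 * (((K + 1) * ‖a s‖) ^ 2 * M)) U (𝓝 0) := by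
    have := (l1.const_mul 2).add ((((ha.norm.const_mul (K + 1)).pow 2).mul_const M).const_mul 2)
    simpa using this
  refine squeeze_zero' (Eventually.of_forall fun s => DD_nonneg 0) ?_ l2
  filter_upwards [h.sl, ha.eventually hM.tube, ha.eventually hM.lip0, hM2] with s hs hT hl hm
  have e0 := DD_le_of_bound hs (g := fun x => V (a s) x - V 0 x) (hT.cont.sub hW.cont) hl hm
  rw [DD_zero_eq] at e0 ⊢
  have i3 : Integrable (fun x => V 0 x ^ 2 * rho x) (N s) :=
    hs.integrable_PB (hW.cont.pow 2).aestronglyMeasurable (hW.pg.b0.pow 2)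
  have i4 : Integrable (fun x => V (a s) x ^ 2 * rho x) (N s) :=
    hs.integrable_PB (hT.cont.pow 2).aestronglyMeasurable (hT.pg.b0.pow 2)
  have i5 : Integrable (fun x => (V (a s) x - V 0 x) ^ 2 * rho x) (N s) :=
    hs.integrable_PB ((hT.cont.sub hW.cont).pow 2).aestronglyMeasurable
      ((hT.pg.b0.sub hW.pg.b0).pow 2)
  have e1 : ∫ x, V (a s) x ^ 2 * rho x ∂(N s)
      ≤ ∫ x, (2 * (V 0 x ^ 2 * rho x) + 2 * ((V (a s) x - V 0 x) ^ 2 * rho x)) ∂(N s) := by
    refine integral_mono i4 ((i3.const_mul _).add (i5.const_mul _)) fun x => ?_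
    have h2 : V (a s) x ^ 2 ≤ 2 * V 0 x ^ 2 + 2 * (V (a s) x - V 0 x) ^ 2 := by
      nlinarith [sq_nonneg (V (a s) x - 2 * V 0 x)]
    have h3 := mul_le_mul_of_nonneg_right h2 (rho_pos x).le
    refine h3.trans (le_of_eq ?_)
    ring
  rw [integral_comb2 i3 i5] at e1
  linarith

/-- **The blow-up argument.** -/
theorem Model.blow (hE : Module.finrank ℝ E = m + 1) (hM : Model m V V' psi lam c K q β)
    {k : ℕ} (hk : 1 ≤ k) {κ : Measure E} (hκ : κ = (k : ℝ≥0∞) • sig m (V 0))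
    (hsupp : ∀ F : E → ℝ, Continuous F → (∀ᵐ x ∂(sig m (V 0)), F x = 0) →
      ∀ x, V 0 x = 0 → F x = 0)
    {M : Set (Measure E)} (hSC : SC m M κ (V 0) c K q) {U : Ultrafilter ℝ}
    {N : ℝ → Measure E} {T : ℝ → E → Submodule ℝ E} {H : ℝ → E → E}
    (h : Conv U m N T H κ) (hMl : ∀ᶠ s in (U : Filter ℝ), N s ∈ M) {a : ℝ → P}
    (ha : Tendsto a U (𝓝 0)) {η : ℝ} (hη : 0 < η)
    (hmin : ∀ᶠ s in (U : Filter ℝ), ∀ a', ‖a'‖ ≤ η → DD (N s) (V (a s)) 0 ≤ DD (N s) (V a') 0)
    (hpos : ∀ᶠ s in (U : Filter ℝ), 0 < DD (N s) (V (a s)) 0 + ‖lam (a s)‖ ^ 2)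
    (hdis : Tendsto (fun s => dis (N s) (T s) (H s) / (DD (N s) (V (a s)) 0 + ‖lam (a s)‖ ^ 2))
      U (𝓝 0)) : False := by
  have := h.lf
  have hW := hM.tube0
  have hK := hM.K_nonneg
  have hk0 : (k : ℝ≥0∞) ≠ 0 := by exact_mod_cast (by omega : k ≠ 0)
  have hkt : (k : ℝ≥0∞) ≠ ⊤ := ENNReal.natCast_ne_top k
  have hkr : (k : ℝ) ≠ 0 := by exact_mod_cast (by omega : k ≠ 0)
  have hae : ∀ p : E → Prop, (∀ᵐ x ∂κ, p x) ↔ ∀ᵐ x ∂(sig m (V 0)), p x := by
    intro p; rw [hκ]; exact Measure.ae_ennreal_smul_measure_iff hk0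
  have hint : ∀ f : E → ℝ, ∫ x, f x ∂κ = k * ∫ x, f x ∂(sig m (V 0)) := by
    intro f; rw [hκ, integral_smul_measure]; simp
  have hV0 : ∀ᵐ x ∂κ, V 0 x = 0 := by
    rw [hae]
    exact (ae_restrict_mem (isClosed_eq hW.cont continuous_const).measurableSet)
  set e : ℝ → ℝ := fun s => √(DD (N s) (V (a s)) 0 + ‖lam (a s)‖ ^ 2) with he
  have he2 : ∀ s, e s ^ 2 = DD (N s) (V (a s)) 0 + ‖lam (a s)‖ ^ 2 := fun s =>
    Real.sq_sqrt (add_nonneg (DD_nonneg 0) (sq_nonneg _))
  have hep : ∀ᶠ s in (U : Filter ℝ), 0 < e s := hpos.mono fun s hs => Real.sqrt_pos.2 hs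
  have hlam : Tendsto (fun s => lam (a s)) U (𝓝 0) := hM.lam0.comp ha
  have he0 : Tendsto e U (𝓝 0) := by
    have := ((hM.tendsto_DD h hV0 ha).add (hlam.norm.pow 2)).sqrt
    simpa using this
  have hD : ∀ᶠ s in (U : Filter ℝ), DD (N s) (V (a s)) 0 ≤ e s ^ 2 :=
    Eventually.of_forall fun s => by rw [he2]; linarith [sq_nonneg ‖lam (a s)‖]
  have hle : ∀ s, ‖lam (a s)‖ ≤ e s := fun s =>
    Real.le_sqrt_of_sq_le (by linarith [DD_nonneg (μ := N s) (W := V (a s)) 0])
  have hdis' : Tendsto (fun s => dis (N s) (T s) (H s) / e s ^ 2) U (𝓝 0) := by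
    simpa only [he2] using hdis
  have hT : ∀ᶠ s in (U : Filter ℝ), Tube0 (V (a s)) c K := ha.eventually hM.tube
  have hC2 : C2Lim (U : Filter ℝ) (fun s => V (a s)) (V 0) := hM.c2.comp ha
  obtain ⟨M₀, hM₀⟩ := h.mom (2 * q)
  -- the limit of the normalised multipliers
  obtain ⟨mu, -, hmu⟩ : ∃ mu ∈ closedBall (0 : J → ℝ) 1,
      Tendsto (fun s => (e s)⁻¹ • lam (a s)) U (𝓝 mu) := by
    have h1 : (U.map fun s => (e s)⁻¹ • lam (a s) : Filter (J → ℝ))
        ≤ 𝓟 (closedBall (0 : J → ℝ) 1) := by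
      rw [le_principal_iff, Ultrafilter.coe_map, mem_map]
      filter_upwards [hep] with s hs
      simp only [mem_preimage, mem_closedBall, dist_zero_right]
      rw [norm_smul, norm_inv, Real.norm_of_nonneg hs.le, inv_mul_le_iff₀ hs, mul_one]
      exact hle s
    exact (isCompact_closedBall (0 : J → ℝ) 1).ultrafilter_le_nhds _ h1
  -- the rate of the error
  obtain ⟨δ, hδ0, hδ⟩ := exists_rate (l := (U : Filter ℝ)) (p := fun s x => |V (a s) x| < c)
    (u := fun s x => |ricE (V (a s)) x - ∑ j, lam (a s) j * psi j x| - K * V (a s) x ^ 2)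
    (B := fun s x => ‖lam (a s)‖ * (1 + ‖x‖) ^ q) (fun ε hε => by
      filter_upwards [ha.eventually (hM.ric ε hε)] with s hs x hx
      have := hs x hx
      linarith)
  have hF : ∀ᶠ s in (U : Filter ℝ), TubeF (V (a s)) (fun x => ∑ j, lam (a s) j * psi j x)
      (fun x => |δ s * ‖lam (a s)‖| * (1 + ‖x‖) ^ q) c K := by
    filter_upwards [hT, hδ] with s h1 h2
    refine h1.tubeF (hM.cont_sum _) (hM.pb_sum _) fun x hx => ?_
    have := h2 x hx
    linarith
  have hfb : ∀ᶠ s in (U : Filter ℝ), DD (N s) (fun x => ∑ j, lam (a s) j * psi j x) 0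
      ≤ (Fintype.card J * K) ^ 2 * |M₀| * e s ^ 2 := by
    filter_upwards [h.sl, hM₀] with s hs h1
    refine (DD_le_of_bound hs (hM.cont_sum _) (hM.abs_sum_le _) (h1.trans (le_abs_self _))).trans ?_
    have := hle s
    calc (Fintype.card J * K * ‖lam (a s)‖) ^ 2 * |M₀| ≤ (Fintype.card J * K * e s) ^ 2 * |M₀| := by
          gcongr
      _ = _ := by ring
  have hgb : ∀ᶠ s in (U : Filter ℝ),
      DD (N s) (fun x => |δ s * ‖lam (a s)‖| * (1 + ‖x‖) ^ q) 0 ≤ δ s ^ 2 * |M₀| * e s ^ 2 := by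
    filter_upwards [h.sl, hM₀] with s hs h1
    refine (DD_le_of_bound hs (g := fun x => |δ s * ‖lam (a s)‖| * (1 + ‖x‖) ^ q)
      (L := |δ s * ‖lam (a s)‖|) (q := q)
      (continuous_const.mul (cont_w q)) (fun x => by rw [abs_of_nonneg (by positivity)])
      (h1.trans (le_abs_self _))).trans ?_
    have := hle s
    rw [sq_abs, mul_pow]
    calc δ s ^ 2 * ‖lam (a s)‖ ^ 2 * |M₀| ≤ δ s ^ 2 * e s ^ 2 * |M₀| := by gcongr
      _ = _ := by ring
  have hg0 : Tendsto (fun s => DD (N s) (fun x => |δ s * ‖lam (a s)‖| * (1 + ‖x‖) ^ q) 0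
      / e s ^ 2) U (𝓝 0) := by
    have h1 : Tendsto (fun s => δ s ^ 2 * |M₀|) U (𝓝 0) := by
      simpa using (hδ0.pow 2).mul_const |M₀|
    refine squeeze_zero' (Eventually.of_forall fun s => div_nonneg (DD_nonneg 0) (sq_nonneg _))
      ?_ h1
    filter_upwards [hgb, hep] with s h2 h3
    rwa [div_le_iff₀ (by positivity)]
  obtain ⟨u, hum, hu2, huJ, hu⟩ := weak_jacobi hE h (F := fun x => ∑ j, mu j * psi j x) hW hF
    (fun ζ hζ hζc ε hε => hC2.jac hW hT (hζ.of_le (by norm_cast)) hζc hε) hep he0 hD hdis'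
    ⟨_, hfb⟩ hg0 (fun ζ hζ hζc => by
      have hζp : PB ζ := PB.of_compact hζ.continuous hζc
      have h1 : ∀ j, Tendsto (fun s => ∫ x, ζ x * psi j x * rho x ∂(N s)) U
          (𝓝 (∫ x, ζ x * psi j x * rho x ∂κ)) := fun j =>
        h.lim_PB (hζ.continuous.mul (hM.pcont j)) (hζp.mul (hM.pb_psi j))
      have h2 : Tendsto (fun s => ∑ j, ((e s)⁻¹ • lam (a s)) j
          * ∫ x, ζ x * psi j x * rho x ∂(N s)) U
          (𝓝 (∑ j, mu j * ∫ x, ζ x * psi j x * rho x ∂κ)) :=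
        tendsto_finsetSum _ fun j _ => ((continuous_apply j).tendsto mu |>.comp hmu).mul (h1 j)
      have e1 : ∀ (ν : Measure E) (t : J → ℝ),
          (∀ j, Integrable (fun x => ζ x * psi j x * rho x) ν) →
          ∫ x, ζ x * (∑ j, t j * psi j x) * rho x ∂ν
            = ∑ j, t j * ∫ x, ζ x * psi j x * rho x ∂ν := by
        intro ν t hi
        simp_rw [← integral_const_mul]
        rw [← integral_finsetSum _ fun j _ => (hi j).const_mul _]
        congr 1; ext x
        rw [Finset.mul_sum, Finset.sum_mul]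
        exact Finset.sum_congr rfl fun j _ => by ring
      rw [e1 κ mu fun j => h.integrable_lim
        (hζ.continuous.mul (hM.pcont j)).aestronglyMeasurable (hζp.mul (hM.pb_psi j))]
      refine h2.congr' ?_
      filter_upwards [h.sl] with s hs
      rw [e1 (N s) _ fun j => hs.integrable_PB
        (hζ.continuous.mul (hM.pcont j)).aestronglyMeasurable (hζp.mul (hM.pb_psi j)),
        Finset.sum_div]
      refine Finset.sum_congr rfl fun j _ => ?_
      simp only [Pi.smul_apply, smul_eq_mul]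
      ring)
  -- the limit is a velocity of the family
  have hsk : sig m (V 0) ≪ κ := by
    rw [hκ]; exact Measure.absolutelyContinuous_smul hk0
  obtain ⟨b, hb⟩ := hM.nd u mu (hum.mono_ac hsk)
    (by rw [hκ] at hu2; exact (integrable_smul_measure hk0 hkt).1 hu2) (fun ζ hζ hζc => by
      have hζp : PB ζ := PB.of_compact hζ.continuous hζc
      have h1 := huJ ζ hζ hζc
      rw [hint, hint] at h1
      rw [mul_left_cancel₀ hkr h1]
      simp_rw [← integral_const_mul]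
      rw [← integral_finsetSum]
      · congr 1; ext x
        rw [Finset.mul_sum, Finset.sum_mul]
        exact Finset.sum_congr rfl fun j _ => by ring
      · intro j _
        have h2 := h.integrable_lim ((hM.pcont j).mul hζ.continuous).aestronglyMeasurable
          ((hM.pb_psi j).mul hζp)
        rw [hκ] at h2
        exact ((integrable_smul_measure hk0 hkt).1 h2).const_mul _)
  have hb' : u =ᵐ[κ] V' b := (hae _).2 hb
  -- the gauge kills it
  have hQ : ∫ x, V' b x ^ 2 * rho x ∂κ ≤ 0 := by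
    have l1 := hu (V' b) (hM.dcont b) (hM.pb_V' b)
    have l2 := h.lim_PB (f := fun x => V' b x ^ 2) ((hM.dcont b).pow 2) ((hM.pb_V' b).pow 2)
    have e1 : ∫ x, V' b x * u x * rho x ∂κ = ∫ x, V' b x ^ 2 * rho x ∂κ := by
      apply integral_congr_ae
      filter_upwards [hb'] with x hx
      rw [hx]; ring
    rw [e1] at l1
    have l3 := (l1.const_mul 2).sub l2
    set B := (K + 1) * ‖b‖ with hB
    have hB0 : 0 ≤ B := by positivity
    have ha' : Tendsto (fun s => a s - e s • b) U (𝓝 0) := by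
      simpa using ha.sub (he0.smul_const b)
    have hp : Tendsto (fun s => (a s, a s - e s • b)) U (𝓝 0) := ha.prodMk_nhds ha'
    have key : ∀ ε : ℝ, 0 < ε → ε ≤ 1 → ∫ x, V' b x ^ 2 * rho x ∂κ ≤ ε * (2 + 4 * B ^ 2 * M₀) := by
      intro ε hε hε1
      have h1 : ∀ᶠ s in (U : Filter ℝ), 2 * ∫ x, sh (e s) (V (a s)) x * V' b x * rho x ∂(N s)
          - ∫ x, V' b x ^ 2 * rho x ∂(N s) ≤ ε * (2 + 4 * B ^ 2 * M₀) := by
        have h2 : ∀ᶠ s in (U : Filter ℝ), ‖a s - e s • b‖ ≤ η := by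
          have := ha'.norm
          rw [norm_zero] at this
          exact this.eventually_le_const hη
        filter_upwards [h.sl, hT, ha'.eventually hM.tube, hp.eventually (hM.strict ε hε), hep, hD,
          hM₀, hmin, h2] with s hs t1 t2 t3 t4 t5 t6 t7 t8
        refine min_ineq hs t1 t2 (hM.dcont b) hB0 (fun x => (hM.db b x).trans ?_) t4 hε.le hε1
          (fun x => ?_) t5 t6 (t7 _ t8)
        · rw [hB]; gcongr; linarith
        · have h3 := t3 x
          have e2 : a s - e s • b - a s = -(e s • b) := by abel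
          simp only [e2, map_neg, map_smul, Pi.neg_apply, Pi.smul_apply, smul_eq_mul,
            sub_neg_eq_add, norm_neg, norm_smul, Real.norm_of_nonneg t4.le] at h3
          refine h3.trans ?_
          rw [hB]
          gcongr
          nlinarith [norm_nonneg b]
      have h2 := le_of_tendsto l3 h1
      linarith
    by_contra hcon
    push Not at hcon
    set Q := ∫ x, V' b x ^ 2 * rho x ∂κ with hQ
    set C := |2 + 4 * B ^ 2 * M₀| + 1 with hC
    have hC0 : 0 < C := by positivity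
    have h1 := key (min 1 (Q / (2 * C))) (lt_min one_pos (by positivity)) (min_le_left _ _)
    have h2 : min 1 (Q / (2 * C)) * (2 + 4 * B ^ 2 * M₀) ≤ Q / (2 * C) * C := by
      have h3 : 2 + 4 * B ^ 2 * M₀ ≤ C := by
        have := le_abs_self (2 + 4 * B ^ 2 * M₀); linarith
      have h4 : 0 ≤ min 1 (Q / (2 * C)) := le_min zero_le_one (by positivity)
      calc min 1 (Q / (2 * C)) * (2 + 4 * B ^ 2 * M₀) ≤ min 1 (Q / (2 * C)) * C := by gcongr
        _ ≤ Q / (2 * C) * C := by gcongr; exact min_le_right _ _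
    have h3 : Q / (2 * C) * C = Q / 2 := by field_simp
    linarith
  have hu0 : ∀ᵐ x ∂κ, u x = 0 := by
    have e1 : ∫ x, u x ^ 2 * rho x ∂κ = 0 := by
      refine le_antisymm (le_trans (le_of_eq ?_) hQ)
        (integral_nonneg fun x => mul_nonneg (sq_nonneg _) (rho_pos x).le)
      apply integral_congr_ae
      filter_upwards [hb'] with x hx
      rw [hx]
    have h1 := (integral_eq_zero_iff_of_nonneg (fun x => mul_nonneg (sq_nonneg _)
      (rho_pos x).le) hu2).1 e1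
    filter_upwards [h1] with x hx
    have h2 : u x ^ 2 * rho x = 0 := hx
    rcases mul_eq_zero.1 h2 with h3 | h3
    · exact pow_eq_zero_iff (two_ne_zero) |>.1 h3
    · exact absurd h3 (rho_pos x).ne'
  -- the multipliers vanish
  have hmu0 : mu = 0 := by
    refine hM.indep mu (hsupp _ (hM.cont_sum mu) ((hae _).1 ?_))
    have h1 := ae_eq_zero_of_integral_contDiff_smul_eq_zero (μ := κ)
      (f := fun x => (∑ j, mu j * psi j x) * rho x)
      ((hM.cont_sum mu).mul continuous_rho).locallyIntegrable (fun ζ hζ hζc => by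
        have h2 := huJ ζ hζ hζc
        have h3 : ∫ x, u x * jac (V 0) ζ x * rho x ∂κ = 0 := by
          apply integral_eq_zero_of_ae
          filter_upwards [hu0] with x hx
          simp [hx]
        rw [h3] at h2
        rw [h2]
        congr 1; ext x
        simp only [smul_eq_mul]; ring)
    filter_upwards [h1] with x hx
    exact (mul_eq_zero.1 hx).resolve_right (rho_pos x).ne'
  have hl0 : Tendsto (fun s => ‖lam (a s)‖ / e s) U (𝓝 0) := by
    have h1 := hmu.norm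
    rw [hmu0, norm_zero] at h1
    refine h1.congr' ?_
    filter_upwards [hep] with s hs
    rw [norm_smul, norm_inv, Real.norm_of_nonneg hs.le, div_eq_inv_mul]
  -- strong compactness
  have hloc := hSC U N T H (fun s => V (a s)) (fun s => (Fintype.card J * K + 1) * ‖lam (a s)‖) e
    h hMl hT hC2 (ha.eventually hM.ric_le) hep he0
    (by simpa [mul_div_assoc] using hl0.const_mul (Fintype.card J * K + 1 : ℝ)) hD hdis'
    (fun φ h1 h2 => by
      have h3 := hu φ h1 h2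
      have h4 : ∫ x, φ x * u x * rho x ∂κ = 0 := by
        apply integral_eq_zero_of_ae
        filter_upwards [hu0] with x hx
        simp [hx]
      rw [h4] at h3
      refine h3.congr fun s => ?_
      congr 1; ext x
      simp only [sh]
      rw [div_eq_inv_mul])
  obtain ⟨C, hC⟩ := norm_bounds hE h.sl hW.cpos hK hF hep hD
    (by
      filter_upwards [hdis'.eventually_le_const one_pos, hep] with s h1 h2
      rwa [div_le_one (by positivity)] at h1)
    ⟨(Fintype.card J * K) ^ 2 * |M₀| + 1, by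
      filter_upwards [hfb, hg0.eventually_le_const one_pos, hep] with s h1 h2 h3
      rw [div_le_one (by positivity)] at h2
      linarith⟩
  have hfin := tendsto_DD_of_local h.sl hT (hC.mono fun s hs => hs.1) (fun χ h1 h2 => by
    refine (hloc χ h1 h2).congr fun s => ?_
    congr 1; ext x
    simp only [sh]
    rw [div_eq_inv_mul])
  have h1 := hfin.add (hl0.pow 2)
  have h2 : Tendsto (fun _ : ℝ => (1 : ℝ)) U (𝓝 (0 + 0 ^ 2)) := by
    refine h1.congr' ?_
    filter_upwards [hep] with s hs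
    rw [div_pow, ← add_div, ← he2, div_self (by positivity)]
  have h3 := tendsto_nhds_unique h2 tendsto_const_nhds
  norm_num at h3

variable {N : ℝ → Measure E} {T : ℝ → E → Submodule ℝ E} {H : ℝ → E → E} {s₀ : ℝ}

/-- **The static estimate**, first form. -/
theorem Model.static0 (hE : Module.finrank ℝ E = m + 1) (h : RF m N T H s₀)
    (hM : Model m V V' psi lam c K q β) {k : ℕ} (hk : 1 ≤ k) {κ : Measure E}
    (hκ : κ = (k : ℝ≥0∞) • sig m (V 0)) [IsLocallyFiniteMeasure κ]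
    (hsupp : ∀ F : E → ℝ, Continuous F → (∀ᵐ x ∂(sig m (V 0)), F x = 0) →
      ∀ x, V 0 x = 0 → F x = 0)
    {M : Set (Measure E)} (hSC : SC m M κ (V 0) c K q) {l : Filter ℝ}
    (hl : l ≤ nearF m N T H κ) (hMl : ∀ᶠ s in l, N s ∈ M) {a : ℝ → P}
    (ha : Tendsto a l (𝓝 0)) {η : ℝ} (hη : 0 < η)
    (hmin : ∀ᶠ s in l, ∀ a', ‖a'‖ ≤ η → DD (N s) (V (a s)) 0 ≤ DD (N s) (V a') 0) :
    ∃ C : ℝ, 0 ≤ C ∧ ∀ᶠ s in l,
      DD (N s) (V (a s)) 0 + ‖lam (a s)‖ ^ 2 ≤ C * dis (N s) (T s) (H s) := by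
  by_contra hcon
  push Not at hcon
  set D : ℝ → ℝ := fun s => DD (N s) (V (a s)) 0 + ‖lam (a s)‖ ^ 2 with hD
  set S : ℕ → Set ℝ := fun n => {s | (n : ℝ) * dis (N s) (T s) (H s) < D s} with hS
  have hfr : ∀ n : ℕ, (l ⊓ 𝓟 (S n)).NeBot := by
    intro n
    rw [← frequently_mem_iff_neBot]
    exact hcon n n.cast_nonneg
  have hne : (⨅ n : ℕ, l ⊓ 𝓟 (S n)).NeBot := by
    refine iInf_neBot_of_directed ?_ hfr
    refine directed_of_isDirected_le fun i j hij => ?_
    refine inf_le_inf_left _ (principal_mono.2 fun s hs => ?_)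
    simp only [hS, mem_ofPred_eq] at hs ⊢
    refine lt_of_le_of_lt ?_ hs
    exact mul_le_mul_of_nonneg_right (by exact_mod_cast hij) dis_nonneg
  set U : Ultrafilter ℝ := Ultrafilter.of (⨅ n : ℕ, l ⊓ 𝓟 (S n)) with hU
  have hUl : (U : Filter ℝ) ≤ l :=
    (Ultrafilter.of_le _).trans ((iInf_le _ 0).trans inf_le_left)
  have hUS : ∀ n : ℕ, ∀ᶠ s in (U : Filter ℝ), (n : ℝ) * dis (N s) (T s) (H s) < D s := by
    intro n
    have : (U : Filter ℝ) ≤ 𝓟 (S n) :=
      (Ultrafilter.of_le _).trans ((iInf_le _ n).trans inf_le_right)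
    exact this (mem_principal_self _)
  have hpos : ∀ᶠ s in (U : Filter ℝ), 0 < D s := by
    filter_upwards [hUS 0] with s hs
    simpa using hs
  refine hM.blow hE hk hκ hsupp hSC (h.conv (hUl.trans hl)) (hUl hMl) (ha.mono_left hUl) hη
    (hUl hmin) hpos ?_
  rw [Metric.tendsto_nhds]
  intro ε hε
  obtain ⟨n, hn⟩ := exists_nat_gt (1 / ε)
  filter_upwards [hUS n, hpos] with s hs hp
  have hd : 0 ≤ dis (N s) (T s) (H s) := dis_nonneg
  change dist (dis (N s) (T s) (H s) / D s) 0 < ε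
  rw [Real.dist_eq, sub_zero, abs_of_nonneg (by positivity), div_lt_iff₀ hp]
  have hn' : 1 < ε * n := by rwa [div_lt_iff₀' hε] at hn
  have h5 : ε * (n * dis (N s) (T s) (H s)) < ε * D s := mul_lt_mul_of_pos_left hs hε
  have h6 : dis (N s) (T s) (H s) ≤ ε * n * dis (N s) (T s) (H s) :=
    le_mul_of_one_le_left hd hn'.le
  linarith

/-- **The static estimate.** -/
theorem Model.static (hE : Module.finrank ℝ E = m + 1) (h : RF m N T H s₀)
    (hM : Model m V V' psi lam c K q β) {k : ℕ} (hk : 1 ≤ k) {κ : Measure E}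
    (hκ : κ = (k : ℝ≥0∞) • sig m (V 0)) [IsLocallyFiniteMeasure κ]
    (hsupp : ∀ F : E → ℝ, Continuous F → (∀ᵐ x ∂(sig m (V 0)), F x = 0) →
      ∀ x, V 0 x = 0 → F x = 0)
    {M : Set (Measure E)} (hSC : SC m M κ (V 0) c K q) {l : Filter ℝ}
    (hl : l ≤ nearF m N T H κ) (hMl : ∀ᶠ s in l, N s ∈ M) {a : ℝ → P}
    (ha : Tendsto a l (𝓝 0)) {η : ℝ} (hη : 0 < η)
    (hmin : ∀ᶠ s in l, ∀ a', ‖a'‖ ≤ η → DD (N s) (V (a s)) 0 ≤ DD (N s) (V a') 0) :
    ∃ C : ℝ, 0 ≤ C ∧ ∀ᶠ s in l,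
      DD (N s) (V (a s)) 0 + DD (N s) (V (a s)) 1 + TG (N s) (T s) (V (a s)) 0 + ‖lam (a s)‖ ^ 2
        ≤ C * dis (N s) (T s) (H s) := by
  obtain ⟨C, hC, h0⟩ := hM.static0 hE h hk hκ hsupp hSC hl hMl ha hη hmin
  have hK := hM.K_nonneg
  obtain ⟨C₁, hC₁, hTG⟩ := exists_TG_leF (E := E) hE hM.tube0.cpos hK
  obtain ⟨C₂, hC₂, hD1⟩ := exists_DD_one_leF (E := E) hE hM.tube0.cpos hK
  obtain ⟨M₀, hM₀⟩ := h.moment (2 * q)
  set A : ℝ := (Fintype.card J * K + 1) ^ 2 * |M₀| with hA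
  have hA0 : 0 ≤ A := by positivity
  refine ⟨C + (C₁ + C₂) * ((1 + A) * C + 1), by positivity, ?_⟩
  filter_upwards [h0, hl nearF_sl, (hl.trans nearF_atTop) (eventually_ge_atTop s₀),
    ha.eventually hM.tube, ha.eventually hM.ric_le] with s h1 hs hs0 hT hr
  have hF := hT.tubeF (f := fun _ => 0) (L := (Fintype.card J * K + 1) * ‖lam (a s)‖) (q := q)
    continuous_const (PB.const 0) (by simpa using hr)
  have e1 : DD (N s) (fun _ => (0 : ℝ)) 0 = 0 := by simp [DD]
  have e2 := DD_le_of_bound hs (L := |(Fintype.card J * K + 1) * ‖lam (a s)‖|) (q := q) hF.gc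
    (fun x => by rw [abs_of_nonneg (by positivity)]) ((hM₀ s hs0).2.trans (le_abs_self _))
  have e3 := hTG _ _ _ hF _ _ _ hs
  have e4 := hD1 _ _ _ hF _ _ _ hs
  rw [e1, zero_add] at e3 e4
  rw [sq_abs, mul_pow] at e2
  have hd : 0 ≤ dis (N s) (T s) (H s) := dis_nonneg
  have hD0 := DD_nonneg (μ := N s) (W := V (a s)) 0
  set G := DD (N s) (fun x => |(Fintype.card J * K + 1) * ‖lam (a s)‖| * (1 + ‖x‖) ^ q) 0
  have e5 : G ≤ A * ‖lam (a s)‖ ^ 2 := e2.trans (le_of_eq (by rw [hA]; ring))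
  have e6 : DD (N s) (V (a s)) 0 + dis (N s) (T s) (H s) + G
      ≤ ((1 + A) * C + 1) * dis (N s) (T s) (H s) := by
    have k1 := mul_le_mul_of_nonneg_left h1 (by positivity : 0 ≤ 1 + A)
    have k2 : 0 ≤ A * DD (N s) (V (a s)) 0 := by positivity
    have k3 := sq_nonneg ‖lam (a s)‖
    nlinarith
  have e7 := mul_le_mul_of_nonneg_left e6 hC₁
  have e8 := mul_le_mul_of_nonneg_left e6 hC₂
  nlinarith

end Vale.Agent.P218N.G
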