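import Vale.Agent.P218N.G.Tube

/-! The height function is almost a weak solution of the Jacobi equation with forcing. -/

open MeasureTheory Set Filter Topology Metric
open scoped ENNReal NNReal RealInnerProductSpace

namespace Vale.Agent.P218N.G

open Vale.Agent.P214 (IntegralVarifold proj divAlong IsTestField)
open Vale.Agent.P218 Vale.Agent.P218.H313

set_option linter.unusedSectionVars false
set_option linter.unusedVariables false

variable {E : Type*} [NormedAddCommGroup E] [InnerProductSpace ℝ E] [FiniteDimensional ℝ E]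
variable {m : ℕ} {c K : ℝ}

lemma aux_f {B c w P f : ℝ} (hB : 0 ≤ B) (hc : 0 < c) (hx : c ≤ |w|) :
    B * |f| ≤ B / c * (w ^ 2 + P ^ 2) + B / c * f ^ 2 := by
  have k1 : c * |f| ≤ w ^ 2 + P ^ 2 + f ^ 2 := by
    have k2 : c * |f| ≤ |w| * |f| := mul_le_mul_of_nonneg_right hx (abs_nonneg _)
    rw [← sq_abs w, ← sq_abs f]
    nlinarith [sq_nonneg (|w| - |f|), sq_nonneg P, abs_nonneg f, abs_nonneg w]
  calc B * |f| = B / c * (c * |f|) := by field_simp
    _ ≤ B / c * (w ^ 2 + P ^ 2 + f ^ 2) := by gcongr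
    _ = _ := by ring

lemma aux_near {B K w P g : ℝ} (hB : 0 ≤ B) :
    |w| * (4 * B * P) + B * (K * (w ^ 2 + P ^ 2) + g)
      ≤ (2 * B + B * K) * (w ^ 2 + P ^ 2) + B * g := by
  rw [← sq_abs w]
  nlinarith [mul_nonneg hB (sq_nonneg (|w| - P))]

/-- the pointwise error in the Jacobi equation -/
lemma exists_jac_ptF (hE : Module.finrank ℝ E = m + 1) (hc : 0 < c) (hK : 0 ≤ K) {B : ℝ}
    (hB : 0 ≤ B) : ∃ C : ℝ, 0 ≤ C ∧ ∀ W f g : E → ℝ, TubeF W f g c K → ∀ ζ : E → ℝ,
      (∀ x, |ζ x| ≤ B) → (∀ x, ‖fderiv ℝ (grad ζ) x‖ ≤ B) →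
      ∀ (x : E) (T : Submodule ℝ E), Module.finrank ℝ T = m →
      |W x * (tr (fderiv ℝ (grad ζ) x) - ⟪fderiv ℝ (grad ζ) x (grad W x), grad W x⟫
          - tr ((proj T).comp (fderiv ℝ (grad ζ) x)))
        + ζ x * (tr ((proj T).comp (fderiv ℝ (grad W) x)) - 1 / 2 * ⟪x, grad W x⟫
          + (tr ((fderiv ℝ (grad W) x).comp (fderiv ℝ (grad W) x)) + 1 / 2) * W x - f x)|
        ≤ C * (W x ^ 2 + ‖proj T (grad W x)‖ ^ 2) + C * f x ^ 2 + B * g x := by
  set n : ℝ := (Module.finrank ℝ E : ℝ) with hn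
  have hn0 : 0 ≤ n := by rw [hn]; positivity
  set C₁ := 2 * B + B * K with hC₁
  set C₂ := (2 * n + K ^ 2) * B / c + B * ((n + 1) * K + (n * K ^ 2 + 1) * K) / c ^ 2 with hC₂
  have hC₁0 : 0 ≤ C₁ := by positivity
  have hC₂0 : 0 ≤ C₂ := by positivity
  refine ⟨C₁ + C₂ + B / c, by positivity, fun W f g' hWF ζ hζ0 hζ2 x T hT => ?_⟩
  have hW := hWF.toTube0
  have hg0 := hWF.g0 x
  have hBc : 0 ≤ B / c := by positivity
  set D := fderiv ℝ (grad ζ) x with hD
  set g := grad W x with hg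
  set q := tr ((fderiv ℝ (grad W) x).comp (fderiv ℝ (grad W) x)) with hq
  set a := tr ((proj T).comp (fderiv ℝ (grad W) x)) - 1 / 2 * ⟪x, g⟫ with ha
  set P := ‖proj T g‖ with hP
  have hP0 : 0 ≤ P := norm_nonneg _
  have hw2 : W x ^ 2 = |W x| ^ 2 := (sq_abs _).symm
  have hwa := abs_nonneg (W x)
  have hDB : ‖D‖ ≤ B := hζ2 x
  have hsum : 0 ≤ W x ^ 2 + P ^ 2 := by positivity
  have tri : |W x * (tr D - ⟪D g, g⟫ - tr ((proj T).comp D))
      + ζ x * (a + (q + 1 / 2) * W x - f x)|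
      ≤ |W x| * |tr D - ⟪D g, g⟫ - tr ((proj T).comp D)|
        + B * |a + (q + 1 / 2) * W x - f x| := by
    refine (abs_add_le _ _).trans ?_
    rw [abs_mul, abs_mul]
    have := hζ0 x
    gcongr
  refine tri.trans ?_
  by_cases hx : |W x| < c
  · have h1 := hW.hess_est hE x T hT hx D
    have h2 := hWF.trace_est hE x T hT hx
    have h3 : |tr D - ⟪D g, g⟫ - tr ((proj T).comp D)| ≤ 4 * B * P := by
      rw [abs_sub_comm]
      refine h1.trans ?_
      gcongr
    have h4 : |a + (q + 1 / 2) * W x - f x| ≤ K * (W x ^ 2 + P ^ 2) + g' x := h2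
    have h5 : 0 ≤ (C₁ + C₂ + B / c) * f x ^ 2 := by positivity
    have h6 : C₁ * (W x ^ 2 + P ^ 2) ≤ (C₁ + C₂ + B / c) * (W x ^ 2 + P ^ 2) := by
      gcongr; linarith
    calc |W x| * |tr D - ⟪D g, g⟫ - tr ((proj T).comp D)| + B * |a + (q + 1 / 2) * W x - f x|
        ≤ |W x| * (4 * B * P) + B * (K * (W x ^ 2 + P ^ 2) + g' x) := by gcongr
      _ ≤ C₁ * (W x ^ 2 + P ^ 2) + B * g' x := aux_near hB
      _ ≤ _ := by linarith
  · push Not at hx
    have h2 : |tr D - ⟪D g, g⟫ - tr ((proj T).comp D)| ≤ (2 * n + K ^ 2) * B := by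
      have e1 := abs_tr_le D
      have e2 := abs_tr_proj_comp_le T D
      have e3 : |⟪D g, g⟫| ≤ K ^ 2 * B := by
        refine (abs_real_inner_le_norm _ _).trans ?_
        have e4 := D.le_opNorm g
        have e5 : ‖g‖ ≤ K := hW.b1 x
        calc ‖D g‖ * ‖g‖ ≤ (‖D‖ * ‖g‖) * ‖g‖ := by gcongr
          _ ≤ (B * K) * K := by gcongr
          _ = K ^ 2 * B := by ring
      have e6 : |tr D| ≤ n * B := e1.trans (by gcongr)
      have e7 : |tr ((proj T).comp D)| ≤ n * B := e2.trans (by gcongr)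
      have e8 := abs_sub (tr D - ⟪D g, g⟫) (tr ((proj T).comp D))
      have e9 := abs_sub (tr D) ⟪D g, g⟫
      have e10 : (2 * n + K ^ 2) * B = n * B + K ^ 2 * B + n * B := by ring
      linarith
    have h3 : |a + (q + 1 / 2) * W x| ≤ (n + 1) * K + (n * K ^ 2 + 1) * K := by
      have e1 := abs_tr_proj_comp_le T (fderiv ℝ (grad W) x)
      have e2 : (n : ℝ) * ‖fderiv ℝ (grad W) x‖ ≤ n * K := by
        have := hW.b2 x
        gcongr
      have e3 := hW.bx x
      have e4 : |a| ≤ |tr ((proj T).comp (fderiv ℝ (grad W) x))| + |1 / 2 * ⟪x, g⟫| := abs_sub _ _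
      rw [abs_mul, abs_of_pos (by norm_num : (0 : ℝ) < 1 / 2)] at e4
      have e5 : |q| ≤ n * K ^ 2 := hW.q_le x
      have e6 : |(q + 1 / 2) * W x| ≤ (n * K ^ 2 + 1) * K := by
        rw [abs_mul]
        have e7 : |q + 1 / 2| ≤ n * K ^ 2 + 1 := by
          refine (abs_add_le _ _).trans ?_
          rw [abs_of_pos (by norm_num : (0 : ℝ) < 1 / 2)]
          linarith
        have e8 := hW.b0 x
        gcongr
      have e9 := abs_add_le a ((q + 1 / 2) * W x)
      have e10 : (n + 1) * K = n * K + K := by ring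
      linarith
    have h5 := aux_far hc hx hB (by positivity : 0 ≤ (2 * n + K ^ 2) * B)
      (by positivity : 0 ≤ (n + 1) * K + (n * K ^ 2 + 1) * K) h2 h3
    have e1 : C₂ * |W x| ^ 2 ≤ C₂ * (W x ^ 2 + P ^ 2) :=
      mul_le_mul_of_nonneg_left (by rw [hw2]; have : 0 ≤ P ^ 2 := sq_nonneg _
                                    linarith) hC₂0
    have e2 : 0 ≤ C₁ * (W x ^ 2 + P ^ 2) := mul_nonneg hC₁0 hsum
    have e3 : |a + (q + 1 / 2) * W x - f x| ≤ |a + (q + 1 / 2) * W x| + |f x| := abs_sub _ _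
    have e4 : B * |f x| ≤ B / c * (W x ^ 2 + P ^ 2) + B / c * f x ^ 2 := aux_f hB hc hx
    have e5 := mul_le_mul_of_nonneg_left e3 hB
    have e6 : 0 ≤ (C₁ + C₂) * f x ^ 2 := by positivity
    have e7 : 0 ≤ B * g' x := by positivity
    have e8 : (C₁ + C₂ + B / c) * (W x ^ 2 + P ^ 2) + (C₁ + C₂ + B / c) * f x ^ 2
        = C₁ * (W x ^ 2 + P ^ 2) + C₂ * (W x ^ 2 + P ^ 2) + B / c * (W x ^ 2 + P ^ 2)
          + ((C₁ + C₂) * f x ^ 2 + B / c * f x ^ 2) := by ring
    rw [mul_add B] at e5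
    rw [e8]
    linarith

variable [MeasurableSpace E] [BorelSpace E]

lemma Tube0.continuous_jac {W ζ : E → ℝ} (hW : Tube0 W c K) (hζ : ContDiff ℝ 2 ζ) :
    Continuous (jac W ζ) := by
  have h1 : Continuous (fderiv ℝ (grad ζ)) :=
    (contDiff_grad_one hζ).continuous_fderiv (by norm_num)
  have h2 : Continuous (fderiv ℝ (grad W)) := hW.grad_cd.continuous_fderiv (by norm_num)
  have h3 : Continuous (grad W) := hW.pg_grad.cont
  have h4 : Continuous (grad ζ) := (contDiff_grad_one hζ).continuous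
  have h5 := hζ.continuous
  have h6 : Continuous (fun x => tr (fderiv ℝ (grad ζ) x)) := (trL E).continuous.comp h1
  have h7 : Continuous (fun x => tr ((fderiv ℝ (grad W) x).comp (fderiv ℝ (grad W) x))) :=
    (trL E).continuous.comp (h2.clm_comp h2)
  unfold jac
  exact ((h6.sub ((h1.clm_apply h3).inner h3)).sub
    (continuous_const.mul (continuous_id.inner h4))).add ((h7.add continuous_const).mul h5)

/-- **the almost Jacobi equation** on a Gaussian slice -/
theorem exists_jac_estF (hE : Module.finrank ℝ E = m + 1) (hc : 0 < c) (hK : 0 ≤ K)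
    {ζ : E → ℝ} (hζ : ContDiff ℝ 2 ζ) (hζc : HasCompactSupport ζ) :
    ∃ C : ℝ, 0 ≤ C ∧ ∀ W f g : E → ℝ, TubeF W f g c K → ∀ (μ : Measure E) (T : E → Submodule ℝ E)
      (H : E → E), GSlice m μ T H →
      |∫ x, W x * jac W ζ x * rho x ∂μ - ∫ x, ζ x * f x * rho x ∂μ|
        ≤ C * (DD μ W 0 + dis μ T H + (DD μ f 0 + DD μ g 0) + ∫ x, ‖vel T H x‖ * rho x ∂μ
          + ∫ x, g x * rho x ∂μ) := by
  obtain ⟨B, hB, hζ0, hζ1, hζ2⟩ := exists_bounds2 hζ hζc
  obtain ⟨C₁, hC₁, hpt⟩ := exists_jac_ptF (E := E) hE hc hK hB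
  obtain ⟨C₂, hC₂, hTG⟩ := exists_TG_leF (E := E) hE hc hK
  refine ⟨C₁ + C₁ * C₂ + 2 * B * K + B, by positivity, fun W f g hWF μ T H hS => ?_⟩
  have hW := hWF.toTube0
  have hTG' := hTG W f g hWF μ T H hS
  have hf0 := DD_nonneg (μ := μ) (W := f) 0
  have hg0 := DD_nonneg (μ := μ) (W := g) 0
  have iff := int_DD_of hS hWF.fc hWF.fb 0
  have ig : Integrable (fun x => g x * rho x) μ :=
    hS.integrable_PB hWF.gc.aestronglyMeasurable hWF.gb
  have hgi : 0 ≤ ∫ x, g x * rho x ∂μ :=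
    integral_nonneg fun x => mul_nonneg (hWF.g0 x) (rho_pos x).le
  have hDD := DD_nonneg (μ := μ) (W := W) 0
  have hdis := dis_nonneg (μ := μ) (T := T) (H := H)
  have hζpg : PG ζ := PG.of_compact (hζ.of_le (by norm_num)) hζc
  have hgζpg : PG (grad ζ) := PG.of_compact (contDiff_grad_one hζ) (hasCompactSupport_grad hζc)
  have hXpg : PG (fun x => ζ x • grad W x) := hζpg.smul hW.pg_grad
  have hYpg : PG (fun x => W x • grad ζ x) := hW.pg.smul hgζpg
  have wX := hS.wfv hXpg.cd hXpg.b0 hXpg.b1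
  have wY := hS.wfv hYpg.cd hYpg.b0 hYpg.b1
  have dX := hS.integrable_div hXpg.cd hXpg.b1
  have dY := hS.integrable_div hYpg.cd hYpg.b1
  have nX := hS.integrable_PB (continuous_id.inner hXpg.cont).aestronglyMeasurable
    (PB.id'.inner' hXpg.b0)
  have nY := hS.integrable_PB (continuous_id.inner hYpg.cont).aestronglyMeasurable
    (PB.id'.inner' hYpg.b0)
  have vX := hS.integrable_inner_vel hXpg.cont.aestronglyMeasurable hXpg.b0
  have vY := hS.integrable_inner_vel hYpg.cont.aestronglyMeasurable hYpg.b0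
  have ivel : Integrable (fun x => ‖vel T H x‖ * rho x) μ := by
    refine hS.integrable hS.vel_meas.norm (C := 1) (p := 0) (Eventually.of_forall fun x => ?_)
    rw [abs_of_nonneg (norm_nonneg _)]
    nlinarith [sq_nonneg (‖vel T H x‖ - 1), norm_nonneg (vel T H x)]
  -- the identity
  set R : E → ℝ := fun x => W x * (tr (fderiv ℝ (grad ζ) x)
        - ⟪fderiv ℝ (grad ζ) x (grad W x), grad W x⟫
        - tr ((proj (T x)).comp (fderiv ℝ (grad ζ) x)))
      + ζ x * (tr ((proj (T x)).comp (fderiv ℝ (grad W) x)) - 1 / 2 * ⟪x, grad W x⟫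
        + (tr ((fderiv ℝ (grad W) x).comp (fderiv ℝ (grad W) x)) + 1 / 2) * W x - f x) with hR
  have hpw : ∀ x, W x * jac W ζ x * rho x - ζ x * f x * rho x
      = ((divAlong (T x) (fun x => W x • grad ζ x) x - 1 / 2 * ⟪x, W x • grad ζ x⟫) * rho x
        - (divAlong (T x) (fun x => ζ x • grad W x) x - 1 / 2 * ⟪x, ζ x • grad W x⟫) * rho x)
        + R x * rho x := by
    intro x
    rw [divAlong_smul (T x) (hW.diff x) (hgζpg.diff x),
      divAlong_smul (T x) (hζpg.diff x) (hW.pg_grad.diff x), H552.inner_proj_left,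
      real_inner_smul_right, real_inner_smul_right, divAlong_eq, divAlong_eq,
      real_inner_comm (proj (T x) (grad ζ x)) (grad W x)]
    simp only [hR, jac]
    ring
  have iJ : Integrable (fun x => W x * jac W ζ x * rho x) μ := by
    refine hS.integrable_PB (hW.cont.mul (hW.continuous_jac hζ)).aestronglyMeasurable ?_
    exact hW.pg.b0.mul (PB.of_compact (hW.continuous_jac hζ) (hasCompactSupport_jac hζc))
  have iZ : Integrable (fun x => ζ x * f x * rho x) μ :=
    hS.integrable_PB (hζpg.cont.mul hWF.fc).aestronglyMeasurable (hζpg.b0.mul hWF.fb)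
  have iX : Integrable (fun x => (divAlong (T x) (fun x => ζ x • grad W x) x
      - 1 / 2 * ⟪x, ζ x • grad W x⟫) * rho x) μ := by
    refine (dX.sub (nX.const_mul (1 / 2))).congr (Eventually.of_forall fun x => ?_)
    simp only [Pi.sub_apply, id]
    ring
  have iY : Integrable (fun x => (divAlong (T x) (fun x => W x • grad ζ x) x
      - 1 / 2 * ⟪x, W x • grad ζ x⟫) * rho x) μ := by
    refine (dY.sub (nY.const_mul (1 / 2))).congr (Eventually.of_forall fun x => ?_)
    simp only [Pi.sub_apply, id]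
    ring
  have iR : Integrable (fun x => R x * rho x) μ := by
    refine ((iJ.sub iZ).sub (iY.sub iX)).congr (Eventually.of_forall fun x => ?_)
    simp only [Pi.sub_apply]
    rw [hpw x]
    ring
  have hid : ∫ x, W x * jac W ζ x * rho x ∂μ - ∫ x, ζ x * f x * rho x ∂μ
      = - ∫ x, ⟪W x • grad ζ x, vel T H x⟫ * rho x ∂μ
        + ∫ x, ⟪ζ x • grad W x, vel T H x⟫ * rho x ∂μ + ∫ x, R x * rho x ∂μ := by
    have h := integral_comb iY iX iR 1 (-1) 1
    simp only [one_mul, neg_mul, ← sub_eq_add_neg] at h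
    rw [← integral_sub iJ iZ, integral_congr_ae (Eventually.of_forall hpw), h, wX, wY]
    ring
  -- bounds
  have bY : |∫ x, ⟪W x • grad ζ x, vel T H x⟫ * rho x ∂μ| ≤ B * K * ∫ x, ‖vel T H x‖ * rho x ∂μ := by
    rw [← integral_const_mul, ← Real.norm_eq_abs]
    refine norm_integral_le_of_norm_le (ivel.const_mul _) (Eventually.of_forall fun x => ?_)
    rw [norm_mul, Real.norm_of_nonneg (rho_pos x).le, ← mul_assoc]
    refine mul_le_mul_of_nonneg_right ?_ (rho_pos x).le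
    refine (norm_inner_le_norm _ _).trans (mul_le_mul_of_nonneg_right ?_ (norm_nonneg _))
    rw [norm_smul, Real.norm_eq_abs, mul_comm]
    exact mul_le_mul (hζ1 x) (hW.b0 x) (abs_nonneg _) hB
  have bX : |∫ x, ⟪ζ x • grad W x, vel T H x⟫ * rho x ∂μ| ≤ B * K * ∫ x, ‖vel T H x‖ * rho x ∂μ := by
    rw [← integral_const_mul, ← Real.norm_eq_abs]
    refine norm_integral_le_of_norm_le (ivel.const_mul _) (Eventually.of_forall fun x => ?_)
    rw [norm_mul, Real.norm_of_nonneg (rho_pos x).le, ← mul_assoc]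
    refine mul_le_mul_of_nonneg_right ?_ (rho_pos x).le
    refine (norm_inner_le_norm _ _).trans (mul_le_mul_of_nonneg_right ?_ (norm_nonneg _))
    rw [norm_smul, Real.norm_eq_abs]
    exact mul_le_mul (hζ0 x) (hW.b1 x) (norm_nonneg _) hB
  have bR : |∫ x, R x * rho x ∂μ| ≤ C₁ * (DD μ W 0 + TG μ T W 0)
      + (C₁ * DD μ f 0 + B * ∫ x, g x * rho x ∂μ) := by
    have iA : Integrable (fun x => C₁ * (W x ^ 2 * wt 0 x * rho x)
        + C₁ * (wt 0 x * ‖proj (T x) (grad W x)‖ ^ 2 * rho x)) μ :=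
      ((hW.int_DD hS 0).const_mul _).add ((hW.int_TG hS 0).const_mul _)
    have iB : Integrable (fun x => C₁ * (f x ^ 2 * wt 0 x * rho x) + B * (g x * rho x)) μ :=
      (iff.const_mul _).add (ig.const_mul _)
    have e : C₁ * (DD μ W 0 + TG μ T W 0) + (C₁ * DD μ f 0 + B * ∫ x, g x * rho x ∂μ)
        = ∫ x, ((C₁ * (W x ^ 2 * wt 0 x * rho x)
        + C₁ * (wt 0 x * ‖proj (T x) (grad W x)‖ ^ 2 * rho x))
        + (C₁ * (f x ^ 2 * wt 0 x * rho x) + B * (g x * rho x))) ∂μ := by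
      rw [integral_add iA iB, integral_comb2 (hW.int_DD hS 0) (hW.int_TG hS 0),
        integral_comb2 iff ig, mul_add]; rfl
    rw [e, ← Real.norm_eq_abs]
    refine norm_integral_le_of_norm_le (iA.add iB) ?_
    filter_upwards [hS.mc.dim] with x hx
    rw [norm_mul, Real.norm_of_nonneg (rho_pos x).le, Real.norm_eq_abs]
    have h1 := hpt W f g hWF ζ hζ0 hζ2 x (T x) hx
    have h2 := mul_le_mul_of_nonneg_right h1 (rho_pos x).le
    simp only [wt, pow_zero, mul_one, one_mul]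
    refine h2.trans (le_of_eq (by ring))
  rw [hid]
  have t1 := abs_add_le (- ∫ x, ⟪W x • grad ζ x, vel T H x⟫ * rho x ∂μ
        + ∫ x, ⟪ζ x • grad W x, vel T H x⟫ * rho x ∂μ) (∫ x, R x * rho x ∂μ)
  have t2 := abs_add_le (- ∫ x, ⟪W x • grad ζ x, vel T H x⟫ * rho x ∂μ)
    (∫ x, ⟪ζ x • grad W x, vel T H x⟫ * rho x ∂μ)
  rw [abs_neg] at t2
  have hv0 : 0 ≤ ∫ x, ‖vel T H x‖ * rho x ∂μ :=
    integral_nonneg fun x => mul_nonneg (norm_nonneg _) (rho_pos x).le
  have t3 : C₁ * TG μ T W 0 ≤ C₁ * (C₂ * (DD μ W 0 + dis μ T H + (DD μ f 0 + DD μ g 0))) := by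
    gcongr
  set A := DD μ W 0 + dis μ T H + (DD μ f 0 + DD μ g 0) with hA
  set v := ∫ x, ‖vel T H x‖ * rho x ∂μ with hv
  set z := ∫ x, g x * rho x ∂μ with hz
  have hA0 : 0 ≤ A := by positivity
  have t4 : C₁ * DD μ W 0 + C₁ * DD μ f 0 ≤ C₁ * A := by
    rw [← mul_add]; gcongr; linarith
  have t5 : C₁ * A + C₁ * (C₂ * A) + 2 * (B * K * v) + B * z
      ≤ (C₁ + C₁ * C₂ + 2 * B * K + B) * (A + v + z) := by
    have k1 : 0 ≤ (C₁ + C₁ * C₂) * (v + z) := by positivity
    have k2 : 0 ≤ 2 * B * K * (A + z) := by positivity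
    have k3 : 0 ≤ B * (A + v) := by positivity
    nlinarith
  nlinarith

end Vale.Agent.P218N.G
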