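import Vale.Agent.P218N.G.LIArea

/-! Energy comparison, part 3: multi-centre monotonicity for points separated by a function with
small tangential gradient. -/

open MeasureTheory Set Filter Topology Metric
open scoped ENNReal NNReal RealInnerProductSpace

namespace Vale.Agent.P218N.G

open Vale.Agent.P214 (IntegralVarifold proj IsApproxTangent weightOf)
open Vale.Agent.P218.H313

set_option linter.unusedSectionVars false
set_option linter.unusedVariables false

variable {E : Type*} [NormedAddCommGroup E] [InnerProductSpace ℝ E] [FiniteDimensional ℝ E]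
  [MeasurableSpace E] [BorelSpace E]
variable {m : ℕ} {μ : Measure E} {T : E → Submodule ℝ E} {H : E → E}

/-- lower bound at points of multiplicity `q` -/
lemma mult_le_JJ (hS : Slice m μ T H) {h : E → ℝ} (hh : ContDiff ℝ 1 h) (h0 : ∀ y, 0 ≤ h y)
    {x : E} {q : ℕ} {T' : Submodule ℝ E} (hx : IsApproxTangent m μ x q T') (hx1 : h x = 1)
    {lam r : ℝ} (hr : 0 < r) (hlam : 0 ≤ lam)
    (hA : ∀ t, 0 < t → t ≤ r → ∫ y in closedBall x t, err T H h y ∂μ ≤ lam * t ^ m) :
    q * om m ≤ JJ m μ h x r + lam * r := by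
  have hfin := hS.mc.fin
  have h1 := hx.2 ker continuous_kern ker_compact
  rw [A1.integral_ker_plane hx.1] at h1
  have key : ∀ δ : ℝ, 0 < δ → δ < 1 → (1 - δ) * (q * om m) ≤ JJ m μ h x r + lam * r := by
    intro δ hδ hδ1
    have e2 : ∀ᶠ s in 𝓝[>] (0 : ℝ), ∀ y ∈ closedBall x s, 1 - δ ≤ h y := by
      have hc := hh.continuous.tendsto x
      have h3 : {y | 1 - δ < h y} ∈ 𝓝 x := hc (Ioi_mem_nhds (by linarith))
      obtain ⟨ε, hε, hεs⟩ := Metric.mem_nhds_iff.1 h3
      filter_upwards [Ioo_mem_nhdsGT hε] with s hs y hy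
      exact le_of_lt (hεs (lt_of_le_of_lt (mem_closedBall.1 hy) hs.2))
    refine le_of_tendsto (h1.const_mul (1 - δ)) ?_
    filter_upwards [e2, Ioc_mem_nhdsGT hr] with s hs2 hs3
    have hs0 : 0 < s := hs3.1
    have hm := JJ_mono hS hh h0 hs0 hs3.2 hA
    have h4 : (1 - δ) * ((∫ y, ker (s⁻¹ • (y - x)) ∂μ) / s ^ m) ≤ JJ m μ h x s := by
      unfold JJ
      rw [← mul_div_assoc]
      refine div_le_div_of_nonneg_right ?_ (by positivity)
      rw [← integral_const_mul]
      refine integral_mono ((integrable_ker_scale x hs0).const_mul _)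
        (integrable_ker_mul hh.continuous x hs0) fun y => ?_
      by_cases hy : y ∈ closedBall x s
      · simp only
        rw [mul_comm]
        exact mul_le_mul_of_nonneg_left (hs2 y hy) (kern_nonneg _)
      · simp only
        rw [ker_scale_zero' hs0 hy]
        simp
    have h6 : lam * (r - s) ≤ lam * r := mul_le_mul_of_nonneg_left (by linarith) hlam
    linarith
  have hlim : Tendsto (fun δ : ℝ => (1 - δ) * (q * om m)) (𝓝[>] 0) (𝓝 (q * om m)) := by
    have : Continuous fun δ : ℝ => (1 - δ) * (q * om m) := by fun_prop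
    have h2 := this.tendsto 0
    simp only [sub_zero, one_mul] at h2
    exact h2.mono_left nhdsWithin_le_nhds
  refine le_of_tendsto hlim ?_
  filter_upwards [Ioo_mem_nhdsGT (show (0:ℝ) < 1 by norm_num)] with δ hδ
  exact key δ hδ.1 hδ.2

/-- moving the centre -/
lemma JJ_shift [IsFiniteMeasureOnCompacts μ] {h : E → ℝ} (hh : Continuous h) (h0 : ∀ y, 0 ≤ h y)
    (h1 : ∀ y, h y ≤ 1) {C₀ R : ℝ} (hR : 0 < R) (x x' : E)
    (hC : μ.real (closedBall x R) ≤ C₀ * R ^ m) :
    JJ m μ h x R ≤ JJ m μ h x' R + 4 * C₀ * (‖x - x'‖ / R) := by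
  have hprop : ProperSpace E := FiniteDimensional.proper_real E
  have hi : Integrable ((closedBall x R).indicator fun _ : E => 4 * (‖x - x'‖ / R)) μ :=
    (integrable_indicator_iff measurableSet_closedBall).2
      ((locallyIntegrable_const _).integrableOn_isCompact (isCompact_closedBall x R))
  have k : ∫ y, ker (R⁻¹ • (y - x)) * h y ∂μ ≤ ∫ y, (ker (R⁻¹ • (y - x')) * h y
      + (closedBall x R).indicator (fun _ => 4 * (‖x - x'‖ / R)) y) ∂μ := by
    refine integral_mono (integrable_ker_mul hh x hR) ((integrable_ker_mul hh x' hR).add hi)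
      fun y => ?_
    have a0 := h0 y
    have a1 := h1 y
    have a2 := kern_nonneg (R⁻¹ • (y - x'))
    by_cases hy : y ∈ closedBall x R
    · simp only
      rw [indicator_of_mem hy]
      have a3 := (le_abs_self _).trans (abs_ker_sub_le (R⁻¹ • (y - x)) (R⁻¹ • (y - x')))
      rw [← smul_sub, sub_sub_sub_cancel_left, norm_smul, norm_inv, Real.norm_of_nonneg hR.le,
        ← div_eq_inv_mul, norm_sub_rev] at a3
      have a4 : 0 ≤ 4 * (‖x - x'‖ / R) := by positivity
      nlinarith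
    · simp only
      rw [indicator_of_notMem hy, ker_scale_zero' hR hy]
      nlinarith
  rw [integral_add (integrable_ker_mul hh x' hR) hi, integral_indicator measurableSet_closedBall,
    setIntegral_const, smul_eq_mul] at k
  unfold JJ
  have hp : 0 < R ^ m := by positivity
  rw [div_add' _ _ _ hp.ne']
  refine div_le_div_of_nonneg_right (k.trans ?_) hp.le
  have : μ.real (closedBall x R) * (4 * (‖x - x'‖ / R)) ≤ C₀ * R ^ m * (4 * (‖x - x'‖ / R)) := by
    gcongr
  linarith

lemma JJ_add [IsFiniteMeasureOnCompacts μ] {h₁ h₂ : E → ℝ} (k₁ : Continuous h₁)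
    (k₂ : Continuous h₂) (x : E) {R : ℝ} (hR : 0 < R) :
    JJ m μ h₁ x R + JJ m μ h₂ x R = JJ m μ (fun y => h₁ y + h₂ y) x R := by
  unfold JJ
  rw [← add_div, ← integral_add (integrable_ker_mul k₁ x hR) (integrable_ker_mul k₂ x hR)]
  congr 2
  ext y; ring

/-- the tangential gradient -/
noncomputable def tg (T : E → Submodule ℝ E) (W : E → ℝ) (y : E) : ℝ := ‖proj (T y) (grad W y)‖

lemma tg_nonneg (T : E → Submodule ℝ E) (W : E → ℝ) (y : E) : 0 ≤ tg T W y := norm_nonneg _

lemma tg_meas (hS : Slice m μ T H) {W : E → ℝ} (hW : ContDiff ℝ 1 W) :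
    AEStronglyMeasurable (tg T W) μ :=
  (hS.proj_apply_meas (continuous_grad hW).aestronglyMeasurable).norm

lemma tg_integrableOn (hS : Slice m μ T H) {W : E → ℝ} (hW : ContDiff ℝ 1 W) {K : Set E}
    (hK : IsCompact K) : IntegrableOn (tg T W) K μ := by
  have := hS.mc.fin
  refine Integrable.mono' ((continuous_grad hW).norm.continuousOn.integrableOn_compact hK)
    (tg_meas hS hW).restrict (Eventually.of_forall fun y => ?_)
  rw [Real.norm_of_nonneg (tg_nonneg T W y)]
  exact norm_proj_apply_le _ _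

lemma normH_integrableOn (hS : Slice m μ T H) {K : Set E} (hK : IsCompact K) :
    IntegrableOn (fun y => ‖H y‖) K μ := by
  have := hS.mc.fin
  have hprop : ProperSpace E := FiniteDimensional.proper_real E
  have h3 : IntegrableOn (fun _ : E => (1 : ℝ)) K μ :=
    (locallyIntegrable_const (1 : ℝ)).integrableOn_isCompact hK
  refine Integrable.mono' (h3.add (hS.mc.locL2 K hK)) hS.mc.meas.norm.restrict
    (Eventually.of_forall fun y => ?_)
  rw [norm_norm]
  show ‖H y‖ ≤ 1 + ‖H y‖ ^ 2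
  nlinarith [sq_nonneg (‖H y‖ - 1), norm_nonneg (H y)]

/-- admissible weights -/
structure Wt (T : E → Submodule ℝ E) (W h : E → ℝ) (L : ℝ) : Prop where
  cd : ContDiff ℝ 1 h
  nn : ∀ y, 0 ≤ h y
  le : ∀ y, h y ≤ 1
  Lnn : 0 ≤ L
  gr : ∀ y, tg T h y ≤ L * tg T W y

lemma Wt.one (T : E → Submodule ℝ E) (W : E → ℝ) : Wt T W (fun _ => 1) 0 where
  cd := contDiff_const
  nn _ := zero_le_one
  le _ := le_rfl
  Lnn := le_rfl
  gr y := by
    have : grad (fun _ : E => (1:ℝ)) y = 0 := grad_unique fun v => by simp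
    unfold tg
    rw [this, map_zero, norm_zero, zero_mul]

lemma Wt.mul {W h : E → ℝ} {L M : ℝ} (hW : ContDiff ℝ 1 W) (hh : Wt T W h L) {φ : ℝ → ℝ}
    (hφ : ContDiff ℝ 1 φ) (φ0 : ∀ s, 0 ≤ φ s) (φ1 : ∀ s, φ s ≤ 1) (hM : ∀ s, |deriv φ s| ≤ M) :
    Wt T W (fun y => h y * φ (W y)) (L + M) where
  cd := hh.cd.mul (hφ.comp hW)
  nn y := mul_nonneg (hh.nn y) (φ0 _)
  le y := mul_le_one₀ (hh.le y) (φ0 _) (φ1 _)
  Lnn := add_nonneg hh.Lnn ((abs_nonneg _).trans (hM 0))
  gr y := by
    have d1 := hW.differentiable (by norm_num) y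
    have d2 := hφ.differentiable (by norm_num) (W y)
    have e1 : grad (fun y => φ (W y)) y = deriv φ (W y) • grad W y := by
      refine grad_unique fun v => ?_
      rw [real_inner_smul_left, inner_grad]
      have := d2.hasDerivAt.comp_hasFDerivAt y d1.hasFDerivAt
      rw [show (fun y => φ (W y)) = φ ∘ W from rfl, this.fderiv]
      rfl
    have d3 : DifferentiableAt ℝ (fun y => φ (W y)) y := d2.comp y d1
    have a1 := hh.gr y
    unfold tg at a1 ⊢
    rw [grad_mul (hh.cd.differentiable (by norm_num) y) d3, e1, map_add, map_smul, map_smul,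
      map_smul]
    refine (norm_add_le _ _).trans ?_
    rw [norm_smul, norm_smul, norm_smul, Real.norm_of_nonneg (hh.nn y),
      Real.norm_of_nonneg (φ0 _), Real.norm_eq_abs]
    have a2 := hM (W y)
    have a3 := norm_nonneg (proj (T y) (grad W y))
    have a4 := norm_nonneg (proj (T y) (grad h y))
    have a5 : h y * (|deriv φ (W y)| * ‖proj (T y) (grad W y)‖) ≤ 1 * (M * ‖proj (T y) (grad W y)‖) :=
      mul_le_mul (hh.le y) (by gcongr) (by positivity) zero_le_one
    have a6 : φ (W y) * ‖proj (T y) (grad h y)‖ ≤ 1 * ‖proj (T y) (grad h y)‖ :=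
      mul_le_mul_of_nonneg_right (φ1 _) a4
    linarith

/-- control of tilt and curvature at all scales -/
def Ctl (m : ℕ) (μ : Measure E) (T : E → Submodule ℝ E) (H : E → E) (W : E → ℝ) (a b r₀ : ℝ)
    (y : E) : Prop :=
  ∀ t, 0 < t → t ≤ r₀ → ∫ z in closedBall y t, tg T W z ∂μ ≤ a * t ^ m ∧
    ∫ z in closedBall y t, ‖H z‖ ∂μ ≤ b * t ^ m

lemma Ctl.err_le (hS : Slice m μ T H) {W h : E → ℝ} (hW : ContDiff ℝ 1 W) {L a b r₀ : ℝ}
    (hh : Wt T W h L) {y : E} (hy : Ctl m μ T H W a b r₀ y) {t : ℝ} (ht : 0 < t) (ht' : t ≤ r₀) :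
    ∫ z in closedBall y t, err T H h z ∂μ ≤ (L * a + b) * t ^ m := by
  have hprop : ProperSpace E := FiniteDimensional.proper_real E
  have hK := isCompact_closedBall y t
  obtain ⟨h1, h2⟩ := hy t ht ht'
  have i1 := (tg_integrableOn hS hW hK).const_mul L
  have i2 := normH_integrableOn hS hK
  have h3 : ∫ z in closedBall y t, err T H h z ∂μ
      ≤ ∫ z in closedBall y t, (L * tg T W z + ‖H z‖) ∂μ := by
    refine integral_mono (hS.err_integrableOn hh.cd hK) (i1.add i2) fun z => ?_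
    have a1 := hh.gr z
    have a2 : h z * ‖H z‖ ≤ 1 * ‖H z‖ := mul_le_mul_of_nonneg_right (hh.le z) (norm_nonneg _)
    show tg T h z + h z * ‖H z‖ ≤ L * tg T W z + ‖H z‖
    linarith
  rw [integral_add i1 i2, integral_const_mul] at h3
  have h4 := mul_le_mul_of_nonneg_left h1 hh.Lnn
  nlinarith

lemma exists_step : ∃ M : ℝ, 0 < M ∧ ∀ s, |deriv Real.smoothTransition s| ≤ M := by
  have hc : Continuous (deriv Real.smoothTransition) :=
    (Real.smoothTransition.contDiff (n := 1)).continuous_deriv le_rfl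
  have hs : HasCompactSupport (deriv Real.smoothTransition) := by
    refine HasCompactSupport.intro (isCompact_Icc (a := 0) (b := 1)) fun s hs => ?_
    rw [mem_Icc, not_and_or, not_le, not_le] at hs
    rcases hs with hs | hs
    · have : Real.smoothTransition =ᶠ[𝓝 s] fun _ => 0 := by
        filter_upwards [Iio_mem_nhds hs] with t ht
        exact Real.smoothTransition.zero_of_nonpos (le_of_lt ht)
      rw [this.deriv_eq, deriv_const]
    · have : Real.smoothTransition =ᶠ[𝓝 s] fun _ => 1 := by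
        filter_upwards [Ioi_mem_nhds hs] with t ht
        exact Real.smoothTransition.one_of_one_le (le_of_lt ht)
      rw [this.deriv_eq, deriv_const]
  obtain ⟨C, hC⟩ := hs.exists_bound_of_continuous hc
  exact ⟨|C| + 1, by positivity, fun s => (hC s).trans (by linarith [le_abs_self C])⟩

/-- a gap in a finite set of reals -/
lemma exists_gap {Y : Finset E} {n : ℕ} (hn : Y.card ≤ n) (w : E → ℝ) {y₀ : E} (hy₀ : y₀ ∈ Y)
    {g : ℝ} (hg : 0 < g) :
    ∃ j : ℕ, j < n ∧ ∀ y ∈ Y, w y ≤ w y₀ + j * g ∨ w y₀ + (j + 1) * g ≤ w y := by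
  classical
  by_contra hcon
  push Not at hcon
  choose! y hy using hcon
  have h1 : (Finset.range n).card ≤ (Y.erase y₀).card := by
    refine Finset.card_le_card_of_injOn y (fun j hj => ?_) fun i hi j hj hij => ?_
    · have hj' := Finset.mem_range.1 (Finset.mem_coe.1 hj)
      obtain ⟨a1, a2, a3⟩ := hy j hj'
      refine Finset.mem_coe.2 (Finset.mem_erase.2 ⟨fun h => ?_, a1⟩)
      rw [h] at a2
      have : (0:ℝ) ≤ j * g := by positivity
      linarith
    · obtain ⟨a1, a2, a3⟩ := hy i (Finset.mem_range.1 (Finset.mem_coe.1 hi))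
      obtain ⟨b1, b2, b3⟩ := hy j (Finset.mem_range.1 (Finset.mem_coe.1 hj))
      rw [hij] at a2 a3
      have c1 : (i:ℝ) < j + 1 := lt_of_mul_lt_mul_right (by linarith) hg.le
      have c2 : (j:ℝ) < i + 1 := lt_of_mul_lt_mul_right (by linarith) hg.le
      have c3 : i < j + 1 := by exact_mod_cast c1
      have c4 : j < i + 1 := by exact_mod_cast c2
      omega
  rw [Finset.card_range, Finset.card_erase_of_mem hy₀] at h1
  have : 0 < Y.card := Finset.card_pos.2 ⟨y₀, hy₀⟩
  omega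

/-- **multi-centre monotonicity** -/
theorem multi (hS : Slice m μ T H) {W : E → ℝ} (hW : ContDiff ℝ 1 W) {θ : E → ℕ}
    {C₀ a b r₀ Λ M : ℝ} (ha : 0 ≤ a) (hb : 0 ≤ b) (hC₀ : 0 ≤ C₀) (hΛ : 0 < Λ) (hM0 : 0 < M)
    (hM : ∀ s, |deriv Real.smoothTransition s| ≤ M)
    (hratio : ∀ (x : E) (r : ℝ), 0 < r → r ≤ r₀ → μ.real (closedBall x r) ≤ C₀ * r ^ m) (n : ℕ) :
    ∀ (l : ℕ) (Y : Finset E) (h : E → ℝ) (L R A : ℝ) (x : E), Y.card ≤ l → Y.card ≤ n → x ∈ Y →
      (∀ y ∈ Y, Ctl m μ T H W a b r₀ y ∧ (∃ T', IsApproxTangent m μ y (θ y) T') ∧ h y = 1) →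
      (∀ y ∈ Y, ∀ y' ∈ Y, ‖y - y'‖ ≤ 2 * |W y - W y'| ∧ Λ * ‖y - y'‖ ≤ R) →
      Wt T W h L → 0 < R → R ≤ r₀ → R * L ≤ A →
      (∑ y ∈ Y, θ y : ℕ) * om m ≤ JJ m μ h x R
        + (2 * Y.card - 1) * ((A + l * (2 * M * n * Λ)) * a + r₀ * b + 8 * C₀ / Λ) := by
  classical
  have hfin := hS.mc.fin
  intro l
  induction l with
  | zero =>
    intro Y h L R A x h1 _ hx
    rw [Nat.le_zero, Finset.card_eq_zero] at h1
    simp [h1] at hx
  | succ l ih =>
    intro Y h L R A x hl hn hx hY hYY hh hR hRr hRL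
    set B : ℝ := 2 * M * n * Λ with hB
    have hB0 : 0 ≤ B := by positivity
    have hL := hh.Lnn
    have hr₀ : 0 < r₀ := hR.trans_le hRr
    have hlam : (L * a + b) * R ≤ A * a + r₀ * b := by
      have c1 := mul_le_mul_of_nonneg_right hRL ha
      have c2 := mul_le_mul_of_nonneg_right hRr hb
      linarith
    have hc8 : 0 ≤ 8 * C₀ / Λ := by positivity
    have hlB : 0 ≤ ((l + 1 : ℕ) : ℝ) * B * a := by positivity
    by_cases h1 : ∀ y ∈ Y, y = x
    · have e : Y = {x} := Finset.eq_singleton_iff_unique_mem.2 ⟨hx, h1⟩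
      subst e
      obtain ⟨c1, ⟨T', c2⟩, c3⟩ := hY x hx
      have := mult_le_JJ hS hh.cd hh.nn c2 c3 hR (lam := L * a + b) (by positivity)
        fun t ht ht' => c1.err_le hS hW hh ht (ht'.trans hRr)
      rw [Finset.sum_singleton, Finset.card_singleton]
      push_cast at hlB ⊢
      linarith
    push Not at h1
    obtain ⟨x', hx', hxx'⟩ := h1
    obtain ⟨p, hp, hpmax⟩ := (Y ×ˢ Y).exists_max_image (fun p => ‖p.1 - p.2‖)
      ⟨(x, x), Finset.mem_product.2 ⟨hx, hx⟩⟩
    obtain ⟨hp1, hp2⟩ := Finset.mem_product.1 hp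
    set D := ‖p.1 - p.2‖ with hD
    have hDle : ∀ y ∈ Y, ∀ y' ∈ Y, ‖y - y'‖ ≤ D := fun y hy y' hy' =>
      hpmax (y, y') (Finset.mem_product.2 ⟨hy, hy'⟩)
    have hD0 : 0 < D := lt_of_lt_of_le (norm_pos_iff.2 (sub_ne_zero.2 hxx')) (hDle x' hx' x hx)
    obtain ⟨lo, hlo, hlomin⟩ := Y.exists_min_image W ⟨x, hx⟩
    obtain ⟨hi, hhi, hhimax⟩ := Y.exists_max_image W ⟨x, hx⟩
    have hd : D ≤ 2 * (W hi - W lo) := by
      refine (hYY _ hp1 _ hp2).1.trans ?_
      have := abs_sub_le_iff.2 (⟨by linarith [hlomin _ hp2, hhimax _ hp1],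
        by linarith [hlomin _ hp1, hhimax _ hp2]⟩ : W p.1 - W p.2 ≤ W hi - W lo ∧
          W p.2 - W p.1 ≤ W hi - W lo)
      linarith
    have hn0 : (0:ℝ) < n := by
      have : 0 < Y.card := Finset.card_pos.2 ⟨x, hx⟩
      exact_mod_cast lt_of_lt_of_le this hn
    set g : ℝ := (W hi - W lo) / n with hg
    have hg0 : 0 < g := div_pos (by linarith) hn0
    obtain ⟨j, hj, hgap⟩ := exists_gap hn W hlo hg0
    set u : ℝ := W lo + j * g with hu
    let φ : ℝ → ℝ := fun s => Real.smoothTransition ((s - u) / g)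
    have hφ : ContDiff ℝ 1 φ := Real.smoothTransition.contDiff.comp (by fun_prop)
    have hφd : ∀ s, |deriv φ s| ≤ M / g := by
      intro s
      have d1 : HasDerivAt (fun s : ℝ => (s - u) / g) (1 / g) s :=
        ((hasDerivAt_id s).sub_const u).div_const g
      have d2 := (((Real.smoothTransition.contDiff (n := 1)).differentiable (by norm_num)
        ((s - u) / g)).hasDerivAt.comp s d1).deriv
      rw [show φ = Real.smoothTransition ∘ fun s : ℝ => (s - u) / g from rfl, d2, abs_mul,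
        abs_of_pos (by positivity : 0 < 1 / g), mul_one_div]
      exact div_le_div_of_nonneg_right (hM _) hg0.le
    have w₂ := hh.mul hW hφ (fun s => Real.smoothTransition.nonneg _)
      (fun s => Real.smoothTransition.le_one _) hφd
    have w₁ := hh.mul hW (φ := fun s => 1 - φ s) (contDiff_const.sub hφ)
      (fun s => sub_nonneg.2 (Real.smoothTransition.le_one _))
      (fun s => sub_le_self _ (Real.smoothTransition.nonneg _)) (M := M / g) (fun s => by
        rw [deriv_const_sub, abs_neg]; exact hφd s)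
    set Y₁ := Y.filter fun y => W y ≤ u with hY₁
    set Y₂ := Y.filter fun y => ¬ W y ≤ u with hY₂
    have m₁ : lo ∈ Y₁ := Finset.mem_filter.2 ⟨hlo, by
      have : (0:ℝ) ≤ j * g := by positivity
      linarith⟩
    have m₂ : hi ∈ Y₂ := Finset.mem_filter.2 ⟨hhi, by
      have c1 : (j:ℝ) + 1 ≤ n := by exact_mod_cast hj
      have c2 : n * g = W hi - W lo := by rw [hg]; field_simp
      have c3 : (j + 1) * g ≤ n * g := by gcongr
      rw [not_le]; linarith⟩
    have hcard : Y₁.card + Y₂.card = Y.card := Finset.card_filter_add_card_filter_not _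
    have p₁ : 0 < Y₁.card := Finset.card_pos.2 ⟨lo, m₁⟩
    have p₂ : 0 < Y₂.card := Finset.card_pos.2 ⟨hi, m₂⟩
    have s₁ : Y₁ ⊆ Y := Finset.filter_subset _ _
    have s₂ : Y₂ ⊆ Y := Finset.filter_subset _ _
    set R' := Λ * D with hR'
    have hR'0 : 0 < R' := by positivity
    have hR'R : R' ≤ R := (hYY _ hp1 _ hp2).2
    have hA' : R' * (L + M / g) ≤ A + B := by
      have c1 : R' * L ≤ R * L := by gcongr
      have c2 : R' * (M / g) ≤ B := by
        have c3 : D / g ≤ 2 * n := by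
          rw [div_le_iff₀ hg0]
          have c2 : n * g = W hi - W lo := by rw [hg]; field_simp
          linarith
        calc R' * (M / g) = Λ * M * (D / g) := by rw [hR']; ring
          _ ≤ Λ * M * (2 * n) := by gcongr
          _ = B := by rw [hB]; ring
      linarith
    have hpair : ∀ y ∈ Y, ∀ y' ∈ Y, ‖y - y'‖ ≤ 2 * |W y - W y'| ∧ Λ * ‖y - y'‖ ≤ R' :=
      fun y hy y' hy' => ⟨(hYY y hy y' hy').1, mul_le_mul_of_nonneg_left (hDle y hy y' hy') hΛ.le⟩
    have i₁ := ih Y₁ _ _ R' (A + B) lo (by omega) (by omega) m₁ (fun y hy => ?_)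
      (fun y hy y' hy' => hpair y (s₁ hy) y' (s₁ hy')) w₁ hR'0 (hR'R.trans hRr) hA'
    have i₂ := ih Y₂ _ _ R' (A + B) hi (by omega) (by omega) m₂ (fun y hy => ?_)
      (fun y hy y' hy' => hpair y (s₂ hy) y' (s₂ hy')) w₂ hR'0 (hR'R.trans hRr) hA'
    · have j₁ := JJ_shift (m := m) (μ := μ) w₁.cd.continuous w₁.nn w₁.le hR'0 lo x
        (hratio lo R' hR'0 (hR'R.trans hRr))
      have j₂ := JJ_shift (m := m) (μ := μ) w₂.cd.continuous w₂.nn w₂.le hR'0 hi x
        (hratio hi R' hR'0 (hR'R.trans hRr))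
      have j₃ := JJ_add (m := m) (μ := μ) w₁.cd.continuous w₂.cd.continuous x hR'0
      have e₃ : (fun y => h y * (1 - φ (W y)) + h y * φ (W y)) = h := by ext y; ring
      rw [e₃] at j₃
      have j₄ := JJ_mono hS hh.cd hh.nn hR'0 hR'R (x := x) (lam := L * a + b)
        fun t ht ht' => (hY x hx).1.err_le hS hW hh ht (ht'.trans hRr)
      have j₅ : ∀ y ∈ Y, 4 * C₀ * (‖y - x‖ / R') ≤ 4 * C₀ / Λ := by
        intro y hy
        have c1 : ‖y - x‖ / R' ≤ 1 / Λ := by
          rw [div_le_div_iff₀ hR'0 hΛ, one_mul, mul_comm]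
          exact (hpair y hy x hx).2
        calc 4 * C₀ * (‖y - x‖ / R') ≤ 4 * C₀ * (1 / Λ) := by gcongr
          _ = _ := by ring
      have j₆ := j₅ lo hlo
      have j₇ := j₅ hi hhi
      have j₈ : (L * a + b) * (R - R') ≤ (L * a + b) * R :=
        mul_le_mul_of_nonneg_left (by linarith) (by positivity)
      have hsum : ∑ y ∈ Y₁, θ y + ∑ y ∈ Y₂, θ y = ∑ y ∈ Y, θ y :=
        Finset.sum_filter_add_sum_filter_not _ _ _
      rw [← hsum, ← hcard]
      have e₄ : A + B + l * B = A + ((l + 1 : ℕ) : ℝ) * B := by push_cast; ring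
      rw [e₄] at i₁ i₂
      set δ := (A + ((l + 1 : ℕ) : ℝ) * B) * a + r₀ * b + 8 * C₀ / Λ with hδ
      have j₉ : A * a + r₀ * b + 8 * C₀ / Λ ≤ δ := by rw [hδ]; linarith
      have e₅ : 8 * C₀ / Λ = 4 * C₀ / Λ + 4 * C₀ / Λ := by ring
      clear_value δ
      push_cast at i₁ i₂ ⊢
      linarith
    · obtain ⟨c1, c2, c3⟩ := hY y (s₂ hy)
      refine ⟨c1, c2, ?_⟩
      have c4 := (hgap y (s₂ hy)).resolve_left (Finset.mem_filter.1 hy).2
      show h y * Real.smoothTransition ((W y - u) / g) = 1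
      rw [c3, one_mul]
      refine Real.smoothTransition.one_of_one_le ?_
      rw [le_div_iff₀ hg0]; linarith
    · obtain ⟨c1, c2, c3⟩ := hY y (s₁ hy)
      refine ⟨c1, c2, ?_⟩
      have c4 : W y ≤ u := (Finset.mem_filter.1 hy).2
      show h y * (1 - Real.smoothTransition ((W y - u) / g)) = 1
      rw [c3, one_mul, Real.smoothTransition.zero_of_nonpos, sub_zero]
      exact div_nonpos_of_nonpos_of_nonneg (by linarith) hg0.le

end Vale.Agent.P218N.G
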