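import Vale.Agent.P218.H313.Final

/-! A Lojasiewicz inequality near one limit of the rescaled flow implies convergence. -/

open MeasureTheory Set Filter Topology Metric
open scoped ENNReal NNReal RealInnerProductSpace

namespace Vale.Agent.P218N.G

open Vale.Agent.P218 Vale.Agent.P218.H313

set_option linter.unusedSectionVars false
set_option linter.unusedVariables false

/-- concavity of `x ↦ x ^ τ` -/
lemma rpow_sub_ge {x y τ : ℝ} (hy : 0 ≤ y) (hx : 0 < x) (h0 : 0 ≤ τ) (h1 : τ ≤ 1) :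
    τ * (x - y) * x ^ (τ - 1) ≤ x ^ τ - y ^ τ := by
  have h2 : (1 + (y / x - 1)) ^ τ ≤ 1 + τ * (y / x - 1) :=
    rpow_one_add_le_one_add_mul_self (by have := div_nonneg hy hx.le; linarith) h0 h1
  have h3 : (1 + (y / x - 1)) = y / x := by ring
  rw [h3, Real.div_rpow hy hx.le, div_le_iff₀ (Real.rpow_pos_of_pos hx τ)] at h2
  have h4 : x ^ (τ - 1) = x ^ τ / x := by rw [Real.rpow_sub_one hx.ne']
  rw [h4]
  have h5 : τ * (x - y) * (x ^ τ / x) = x ^ τ - (1 + τ * (y / x - 1)) * x ^ τ := by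
    field_simp
    ring
  rw [h5]
  linarith

/-- the discrete Lojasiewicz inequality -/
lemma exists_discrete {C β M : ℝ} (hC : 0 < C) (hβ : 1 / 2 < β) (hβ1 : β ≤ 1) (hM : 0 ≤ M) :
    ∃ τ C' : ℝ, 0 < τ ∧ 0 ≤ C' ∧ ∀ x y : ℝ, 0 ≤ y → y ≤ x → x ≤ M → y ≤ C * (x - y) ^ β →
      √(x - y) ≤ C' * (x ^ τ - y ^ τ) := by
  have hβ0 : 0 < β := by linarith
  set σ : ℝ := 1 / (2 * β) with hσ
  have hσ1 : σ < 1 := by rw [hσ, div_lt_one (by positivity)]; linarith
  have hσ2 : 1 / 2 ≤ σ := by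
    rw [hσ]; exact one_div_le_one_div_of_le (by positivity) (by linarith)
  set τ : ℝ := 1 - σ with hτ
  have hτ0 : 0 < τ := by linarith
  have hτ1 : τ ≤ 1 := by linarith
  refine ⟨τ, (2 * C) ^ σ / τ + 2 * (M + 1) / τ, hτ0, by positivity, fun x y hy hyx hxM h => ?_⟩
  have hmono : y ^ τ ≤ x ^ τ := Real.rpow_le_rpow hy hyx hτ0.le
  rcases hyx.eq_or_lt with he | hlt
  · rw [he, sub_self, sub_self, Real.sqrt_zero, mul_zero]
  have hx : 0 < x := lt_of_le_of_lt hy hlt
  have hd : 0 < x - y := sub_pos.2 hlt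
  have hb := rpow_sub_ge hy hx hτ0.le hτ1
  have hτσ : τ - 1 = -σ := by rw [hτ]; ring
  rw [hτσ, Real.rpow_neg hx.le] at hb
  have hxσ : 0 < x ^ σ := Real.rpow_pos_of_pos hx σ
  have hA : 0 ≤ (2 * C) ^ σ / τ * (x ^ τ - y ^ τ) := mul_nonneg (by positivity) (by linarith)
  have hB : 0 ≤ 2 * (M + 1) / τ * (x ^ τ - y ^ τ) := mul_nonneg (by positivity) (by linarith)
  rw [add_mul]
  by_cases hc : x ≤ 2 * y
  · have h1 : x ^ σ ≤ (2 * C) ^ σ * √(x - y) := by
      have h2 : x ≤ 2 * C * (x - y) ^ β := by linarith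
      refine (Real.rpow_le_rpow hx.le h2 (by linarith)).trans (le_of_eq ?_)
      rw [Real.mul_rpow (by positivity) (Real.rpow_nonneg hd.le _), ← Real.rpow_mul hd.le,
        Real.sqrt_eq_rpow]
      congr 2
      rw [hσ]; field_simp
    have hs : 0 < √(x - y) := Real.sqrt_pos.2 hd
    have h3 : √(x - y) ≤ (2 * C) ^ σ / τ * (x ^ τ - y ^ τ) := by
      have h4 : τ * (x - y) * ((2 * C) ^ σ * √(x - y))⁻¹ ≤ τ * (x - y) * (x ^ σ)⁻¹ :=
        mul_le_mul_of_nonneg_left (inv_anti₀ hxσ h1) (by positivity)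
      have h5 : τ * (x - y) * ((2 * C) ^ σ * √(x - y))⁻¹ = τ / (2 * C) ^ σ * √(x - y) := by
        have h6 : x - y = √(x - y) * √(x - y) := (Real.mul_self_sqrt hd.le).symm
        have h7 : 0 < (2 * C) ^ σ := by positivity
        set s := √(x - y)
        rw [h6]
        field_simp
      have h8 : τ / (2 * C) ^ σ * √(x - y) ≤ x ^ τ - y ^ τ := by rw [← h5]; exact h4.trans hb
      have h9 : √(x - y) = (2 * C) ^ σ / τ * (τ / (2 * C) ^ σ * √(x - y)) := by
        have h7 : 0 < (2 * C) ^ σ := by positivity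
        field_simp
      rw [h9]
      exact mul_le_mul_of_nonneg_left h8 (by positivity)
    linarith
  · push Not at hc
    have h1 : τ / 2 * x ^ τ ≤ x ^ τ - y ^ τ := by
      refine le_trans ?_ hb
      have h2 : x ^ τ = x * (x ^ σ)⁻¹ := by
        rw [hτ, Real.rpow_sub hx, Real.rpow_one, div_eq_mul_inv]
      rw [h2]
      have h3 : x / 2 ≤ x - y := by linarith
      calc τ / 2 * (x * (x ^ σ)⁻¹) = τ * (x / 2) * (x ^ σ)⁻¹ := by ring
        _ ≤ τ * (x - y) * (x ^ σ)⁻¹ := by gcongr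
    have h2 : √(x - y) ≤ (M + 1) * x ^ τ := by
      have h3 : √(x - y) ≤ √x := Real.sqrt_le_sqrt (by linarith)
      refine h3.trans ?_
      rw [Real.sqrt_eq_rpow]
      have h4 : x ^ (1 / 2 : ℝ) = x ^ (1 / 2 - τ) * x ^ τ := by
        rw [← Real.rpow_add hx]; congr 1; ring
      rw [h4]
      refine mul_le_mul_of_nonneg_right ?_ (Real.rpow_nonneg hx.le _)
      calc x ^ (1 / 2 - τ) ≤ (M + 1) ^ (1 / 2 - τ) :=
            Real.rpow_le_rpow hx.le (by linarith) (by linarith)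
        _ ≤ (M + 1) ^ (1 : ℝ) :=
            Real.rpow_le_rpow_of_exponent_le (by linarith) (by linarith)
        _ = M + 1 := Real.rpow_one _
    have h3 : (M + 1) * x ^ τ ≤ 2 * (M + 1) / τ * (x ^ τ - y ^ τ) := by
      calc (M + 1) * x ^ τ = 2 * (M + 1) / τ * (τ / 2 * x ^ τ) := by field_simp
        _ ≤ _ := mul_le_mul_of_nonneg_left h1 (by positivity)
    linarith

variable {E : Type*} [NormedAddCommGroup E] [InnerProductSpace ℝ E] [FiniteDimensional ℝ E]
  [MeasurableSpace E] [BorelSpace E]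
variable {m : ℕ} {N : ℝ → Measure E} {T : ℝ → E → Submodule ℝ E} {H : ℝ → E → E} {s₀ : ℝ}
  {κ : Measure E} {Gd : Set ℝ}

/-- a time in a given set of full measure with small dissipation -/
lemma exists_good' (h : RF m N T H s₀) (hGd : ∀ᵐ s : ℝ, s₀ ≤ s → s ∈ Gd) {a : ℝ} (ha : s₀ ≤ a) :
    ∃ s ∈ Icc a (a + 1), s ∈ Gd ∧ GSlice m (N s) (T s) (H s) ∧
      dis (N s) (T s) (H s) ≤ FA (N a) - FA (N (a + 1)) := by
  have hab : a ≤ a + 1 := by linarith
  obtain ⟨h1, h2⟩ := h.dis_int ha hab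
  by_contra hcon
  push Not at hcon
  have hG : ∀ᵐ s ∂(volume.restrict (Icc a (a + 1))), s ∈ Gd := by
    rw [ae_restrict_iff' measurableSet_Icc]
    filter_upwards [hGd] with s hs h1
    exact hs (ha.trans h1.1)
  have h3 : ∀ᵐ s ∂(volume.restrict (Icc a (a + 1))),
      FA (N a) - FA (N (a + 1)) < dis (N s) (T s) (H s) := by
    filter_upwards [h.ae_gslice ha hab, ae_restrict_mem measurableSet_Icc, hG] with s hs hs' hs''
    exact hcon s hs' hs'' hs
  have h4 : ∫ s in a..(a + 1), (FA (N a) - FA (N (a + 1)))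
      < ∫ s in a..(a + 1), dis (N s) (T s) (H s) := by
    refine intervalIntegral.integral_lt_integral_of_ae_le_of_measure_setOfPred_lt_ne_zero hab
      intervalIntegrable_const h1 ?_ ?_
    · exact (ae_restrict_of_ae_restrict_of_subset Ioc_subset_Icc_self h3).mono fun s hs => hs.le
    · intro h0
      have h5 : ∀ᵐ s ∂(volume.restrict (Ioc a (a + 1))),
          FA (N a) - FA (N (a + 1)) < dis (N s) (T s) (H s) :=
        ae_restrict_of_ae_restrict_of_subset Ioc_subset_Icc_self h3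
      have h6 : ∀ᵐ s ∂(volume.restrict (Ioc a (a + 1))),
          ¬ (FA (N a) - FA (N (a + 1)) < dis (N s) (T s) (H s)) := by
        rw [ae_iff]
        simpa using h0
      have h7 : ∀ᵐ s ∂(volume.restrict (Ioc a (a + 1))), False := by
        filter_upwards [h5, h6] with s h8 h9 using h9 h8
      rw [ae_iff] at h7
      simp only [not_false_eq_true, ofPred_true, Measure.restrict_apply_univ, Real.volume_Ioc,
        ENNReal.ofReal_eq_zero] at h7
      linarith
  rw [intervalIntegral.integral_const, smul_eq_mul] at h4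
  have : a + 1 - a = 1 := by ring
  rw [this, one_mul] at h4
  linarith

/-- sequences of good times along which the flow converges to `κ` tend to the filter -/
lemma tendsto_near {t : ℕ → ℝ} (ht : Tendsto t atTop atTop)
    (hg : ∀ i, t i ∈ Gd ∧ GSlice m (N (t i)) (T (t i)) (H (t i)))
    (hw : WeakTendsto (fun i => N (t i)) κ) :
    Tendsto t atTop (nearF m N T H κ ⊓ 𝓟 Gd) :=
  tendsto_inf.2 ⟨tendsto_nearF ht (Eventually.of_forall fun i => (hg i).2)
    (fun φ h1 h2 => hw φ h1 h2), tendsto_principal.2 (Eventually.of_forall fun i => (hg i).1)⟩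

/-- good times in the unit intervals -/
lemma exists_times' (h : RF m N T H s₀) (hGd : ∀ᵐ s : ℝ, s₀ ≤ s → s ∈ Gd) :
    ∃ t : ℕ → ℝ, (∀ k, s₀ + k ≤ t k ∧ t k ≤ s₀ + k + 1) ∧
      (∀ k, t k ∈ Gd ∧ GSlice m (N (t k)) (T (t k)) (H (t k))) ∧
      ∀ k, dis (N (t k)) (T (t k)) (H (t k)) ≤ FA (N (s₀ + k)) - FA (N (s₀ + (k + 1 : ℕ))) := by
  have key : ∀ k : ℕ, ∃ t : ℝ, (s₀ + k ≤ t ∧ t ≤ s₀ + k + 1) ∧
      (t ∈ Gd ∧ GSlice m (N t) (T t) (H t)) ∧
      dis (N t) (T t) (H t) ≤ FA (N (s₀ + k)) - FA (N (s₀ + (k + 1 : ℕ))) := by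
    intro k
    obtain ⟨t, ht, h1, h2, h3⟩ := exists_good' h hGd (a := s₀ + k)
      (by have : (0 : ℝ) ≤ k := Nat.cast_nonneg k; linarith)
    refine ⟨t, ht, ⟨h1, h2⟩, ?_⟩
    have e : s₀ + ((k + 1 : ℕ) : ℝ) = s₀ + k + 1 := by push_cast; ring
    rwa [e]
  choose t h1 h2 h3 using key
  exact ⟨t, h1, h2, h3⟩

/-- good times converging to a given limit -/
lemma exists_near (h : RF m N T H s₀) (hslow : Slow N s₀) (hGd : ∀ᵐ s : ℝ, s₀ ≤ s → s ∈ Gd)
    (hκ : κ ∈ limitSet N) {t : ℕ → ℝ} (ht : ∀ k, s₀ + k ≤ t k ∧ t k ≤ s₀ + k + 1) :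
    ∃ k : ℕ → ℕ, Tendsto k atTop atTop ∧ WeakTendsto (fun i => N (t (k i))) κ ∧
      WeakTendsto (fun i => N (s₀ + k i)) κ := by
  obtain ⟨hlf, τ, hτ, hτκ⟩ := hκ
  refine ⟨fun i => ⌊τ i - s₀⌋₊, ?_, ?_, ?_⟩
  · exact tendsto_nat_floor_atTop.comp (tendsto_atTop_add_const_right _ (-s₀) hτ)
  · refine hslow.weakTendsto_shift hτ one_pos ?_ hτκ
    filter_upwards [hτ.eventually_ge_atTop s₀] with i hi
    have h1 : ((⌊τ i - s₀⌋₊ : ℕ) : ℝ) ≤ τ i - s₀ := Nat.floor_le (by linarith)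
    have h2 : τ i - s₀ < ⌊τ i - s₀⌋₊ + 1 := Nat.lt_floor_add_one _
    obtain ⟨h3, h4⟩ := ht ⌊τ i - s₀⌋₊
    rw [abs_le]
    constructor <;> linarith
  · refine hslow.weakTendsto_shift hτ one_pos ?_ hτκ
    filter_upwards [hτ.eventually_ge_atTop s₀] with i hi
    have h1 : ((⌊τ i - s₀⌋₊ : ℕ) : ℝ) ≤ τ i - s₀ := Nat.floor_le (by linarith)
    have h2 : τ i - s₀ < ⌊τ i - s₀⌋₊ + 1 := Nat.lt_floor_add_one _
    rw [abs_le]
    constructor <;> linarith

lemma tendsto_times {t : ℕ → ℝ} (ht : ∀ k, s₀ + k ≤ t k ∧ t k ≤ s₀ + k + 1) :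
    Tendsto t atTop atTop :=
  tendsto_atTop_mono (fun k => (ht k).1)
    (tendsto_atTop_add_const_left _ _ tendsto_natCast_atTop_atTop)

lemma near_neBot (h : RF m N T H s₀) (hslow : Slow N s₀) (hGd : ∀ᵐ s : ℝ, s₀ ≤ s → s ∈ Gd)
    (hκ : κ ∈ limitSet N) : (nearF m N T H κ ⊓ 𝓟 Gd).NeBot := by
  obtain ⟨t, ht, htg, -⟩ := exists_times' h hGd
  obtain ⟨k, hk, hw, -⟩ := exists_near h hslow hGd hκ ht
  exact (tendsto_near ((tendsto_times ht).comp hk) (fun i => htg (k i)) hw).neBot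

/-- the Gaussian area decreases to the one of any limit -/
lemma tendsto_FA (h : RF m N T H s₀) (hslow : Slow N s₀) (hκ : κ ∈ limitSet N) :
    (∀ s, s₀ ≤ s → FA κ ≤ FA (N s)) ∧ Tendsto (fun s => FA (N s)) atTop (𝓝 (FA κ)) := by
  have hGd : ∀ᵐ s : ℝ, s₀ ≤ s → s ∈ (univ : Set ℝ) := Eventually.of_forall fun _ _ => mem_univ _
  obtain ⟨t, ht, htg, -⟩ := exists_times' h hGd
  obtain ⟨k, hk, hw, -⟩ := exists_near h hslow hGd hκ ht
  have := hκ.1
  have htk := (tendsto_times ht).comp hk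
  have h1 := (tendsto_near htk (fun i => htg (k i)) hw).mono_right inf_le_left
  have h2 : Tendsto (fun i => FA (N (t (k i)))) atTop (𝓝 (FA κ)) := by
    have h3 := (h.lim_PB (κ := κ) continuous_const (PB.const (1 : ℝ))).comp h1
    simpa [FA, Function.comp_def] using h3
  have h4 : ∀ s, s₀ ≤ s → FA κ ≤ FA (N s) := by
    intro s hs
    refine le_of_tendsto h2 ?_
    filter_upwards [htk.eventually_ge_atTop s] with i hi
    exact h.FA_anti hs hi
  refine ⟨h4, ?_⟩
  rw [Metric.tendsto_atTop]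
  intro ε hε
  obtain ⟨i, hi1, hi2⟩ := ((h2.eventually (gt_mem_nhds (lt_add_of_pos_right _ hε))).and
    (htk.eventually_ge_atTop s₀)).exists
  refine ⟨t (k i), fun s hs => ?_⟩
  have h5 : FA (N s) ≤ FA (N (t (k i))) := h.FA_anti hi2 hs
  have h6 := h4 s (le_trans hi2 hs)
  rw [Real.dist_eq, abs_lt]
  constructor <;> linarith

/-- **Lojasiewicz inequality near one limit implies uniqueness of the limit.** -/
theorem subsingleton_of_loj (h : RF m N T H s₀) (hen : Energy N (fun s => FA (N s)) s₀)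
    (hGd : ∀ᵐ s : ℝ, s₀ ≤ s → s ∈ Gd) (hκ : κ ∈ limitSet N) {C β : ℝ} (hC : 0 < C)
    (hβ : 1 / 2 < β) (hβ1 : β ≤ 1)
    (hloj : ∀ᶠ s in nearF m N T H κ ⊓ 𝓟 Gd,
      FA (N s) - FA κ ≤ C * dis (N s) (T s) (H s) ^ β) :
    (limitSet N).Subsingleton := by
  have hslow := hen.slow
  have hlf := hκ.1
  obtain ⟨t, ht, htg, htd⟩ := exists_times' h hGd
  obtain ⟨hF0, hFlim⟩ := tendsto_FA h hslow hκ
  have hs0 : ∀ k : ℕ, s₀ ≤ s₀ + k := fun k => by
    have : (0 : ℝ) ≤ k := Nat.cast_nonneg k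
    linarith
  set g : ℕ → ℝ := fun k => FA (N (s₀ + k)) - FA κ with hg
  have hg0 : ∀ k, 0 ≤ g k := fun k => sub_nonneg.2 (hF0 _ (hs0 k))
  have hganti : ∀ k, g (k + 1) ≤ g k := fun k => by
    have := h.FA_anti (hs0 k) (show s₀ + (k : ℝ) ≤ s₀ + (k + 1 : ℕ) by push_cast; linarith)
    simp only [hg]
    linarith
  have hgM : ∀ k, g k ≤ FA (N s₀) := fun k => by
    have h1 := h.FA_anti le_rfl (hs0 k)
    have h2 := RF.FA_nonneg κ
    simp only [hg]
    linarith
  have hnat : Tendsto (fun k : ℕ => s₀ + k) atTop atTop :=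
    tendsto_atTop_add_const_left _ _ tendsto_natCast_atTop_atTop
  have hglim : Tendsto g atTop (𝓝 0) := by
    have := (hFlim.comp hnat).sub_const (FA κ)
    rwa [sub_self] at this
  obtain ⟨τ, C', hτ, hC', hdisc⟩ := exists_discrete hC hβ hβ1 (RF.FA_nonneg (N s₀))
  set X : ℕ → Prop := fun k => FA (N (t k)) - FA κ ≤ C * dis (N (t k)) (T (t k)) (H (t k)) ^ β
    with hX
  have hstep : ∀ k, X k → √(g k - g (k + 1)) ≤ C' * (g k ^ τ - g (k + 1) ^ τ) := by
    intro k hk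
    refine hdisc _ _ (hg0 _) (hganti k) (hgM k) ?_
    have h1 : FA (N (s₀ + (k + 1 : ℕ))) ≤ FA (N (t k)) :=
      h.FA_anti ((hs0 k).trans (ht k).1) (by push_cast; linarith [(ht k).2])
    have h2 : dis (N (t k)) (T (t k)) (H (t k)) ^ β ≤ (g k - g (k + 1)) ^ β := by
      refine Real.rpow_le_rpow dis_nonneg ?_ (by linarith)
      have := htd k
      simp only [hg]
      linarith
    have h3 := mul_le_mul_of_nonneg_left h2 hC.le
    have h4 : FA (N (t k)) - FA κ ≤ C * dis (N (t k)) (T (t k)) (H (t k)) ^ β := hk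
    have h5 : g (k + 1) = FA (N (s₀ + (k + 1 : ℕ))) - FA κ := rfl
    linarith
  have hsum : ∀ k L, k ≤ L → (∀ j, k ≤ j → j < L → X j) →
      ∑ j ∈ Finset.Ico k L, √(g j - g (j + 1)) ≤ C' * (g k ^ τ - g L ^ τ) := by
    intro k L hL
    induction L, hL using Nat.le_induction with
    | base => intro _; simp
    | succ L hL ih =>
      intro hj
      rw [Finset.sum_Ico_succ_top hL]
      have h1 := ih fun j h1 h2 => hj j h1 (by omega)
      have h2 := hstep L (hj L hL (by omega))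
      linarith
  have hchain : ∀ φ : E → ℝ, ContDiff ℝ 1 φ → HasCompactSupport φ → ∀ ε > 0, ∃ k₀ : ℕ, ∀ k L,
      k₀ ≤ k → k ≤ L → (∀ j, k ≤ j → j < L → X j) →
        |∫ x, φ x ∂(N (s₀ + L)) - ∫ x, φ x ∂(N (s₀ + k))| ≤ ε := by
    intro φ hφ hφc ε hε
    obtain ⟨A, B, hA, hB, hkey⟩ := hen.key φ hφ hφc
    have hl : Tendsto (fun k => A * g k + B * (C' * g k ^ τ)) atTop (𝓝 0) := by
      have h1 : Tendsto (fun k => g k ^ τ) atTop (𝓝 0) := by
        have := hglim.rpow_const (p := τ) (Or.inr hτ.le)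
        rwa [Real.zero_rpow hτ.ne'] at this
      have := (hglim.const_mul A).add ((h1.const_mul C').const_mul B)
      simpa using this
    obtain ⟨k₀, hk₀⟩ := eventually_atTop.1 (hl.eventually_le_const hε)
    refine ⟨k₀, fun k L hk hkL hj => le_trans ?_ (hk₀ k hk)⟩
    have h1 : ∀ L, k ≤ L → |∫ x, φ x ∂(N (s₀ + L)) - ∫ x, φ x ∂(N (s₀ + k))|
        ≤ A * (g k - g L) + B * ∑ j ∈ Finset.Ico k L, √(g j - g (j + 1)) := by
      intro L hL
      induction L, hL using Nat.le_induction with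
      | base => simp
      | succ L hL ih =>
        rw [Finset.sum_Ico_succ_top hL]
        have h2 := hkey (s₀ + L) (s₀ + (L + 1 : ℕ)) (hs0 L) (by push_cast; linarith)
        have e1 : s₀ + ((L + 1 : ℕ) : ℝ) - (s₀ + L) = 1 := by push_cast; ring
        have e2 : FA (N (s₀ + L)) - FA (N (s₀ + (L + 1 : ℕ))) = g L - g (L + 1) := by
          simp only [hg]; ring
        simp only [e1, e2, one_mul] at h2
        have h3 := abs_sub_le (∫ x, φ x ∂(N (s₀ + (L + 1 : ℕ)))) (∫ x, φ x ∂(N (s₀ + L)))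
          (∫ x, φ x ∂(N (s₀ + k)))
        nlinarith
    refine (h1 L hkL).trans ?_
    have h2 := hsum k L hkL hj
    have h3 : 0 ≤ C' * g L ^ τ := mul_nonneg hC' (Real.rpow_nonneg (hg0 L) _)
    have h4 := mul_le_mul_of_nonneg_left (show ∑ j ∈ Finset.Ico k L, √(g j - g (j + 1))
      ≤ C' * g k ^ τ by linarith) hB
    have h5 := mul_le_mul_of_nonneg_left (show g k - g L ≤ g k by linarith [hg0 L]) hA
    linarith
  have htt := tendsto_times ht
  -- eventually all the times are good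
  have hall : ∀ᶠ k in atTop, X k := by
    by_contra hcon
    rw [not_eventually, frequently_atTop] at hcon
    obtain ⟨k, hkt, hkw, hkw'⟩ := exists_near h hslow hGd hκ ht
    have hkX : ∀ᶠ i in atTop, X (k i) :=
      (tendsto_near (htt.comp hkt) (fun i => htg (k i)) hkw).eventually hloj
    classical
    have hex : ∀ i, ∃ L, k i ≤ L ∧ ¬ X L := fun i => hcon (k i)
    set L : ℕ → ℕ := fun i => Nat.find (hex i) with hL
    have hL1 : ∀ i, k i ≤ L i := fun i => (Nat.find_spec (hex i)).1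
    have hL2 : ∀ i, ¬ X (L i) := fun i => (Nat.find_spec (hex i)).2
    have hL3 : ∀ i j, k i ≤ j → j < L i → X j := by
      intro i j h1 h2
      have := Nat.find_min (hex i) h2
      push Not at this
      exact this h1
    have hLt : Tendsto L atTop atTop := tendsto_atTop_mono hL1 hkt
    have hw1 : WeakTendsto (fun i => N (s₀ + L i)) κ := by
      refine weakTendsto_of_contDiff hslow (fun i => hs0 _) fun φ hφ hφc => ?_
      refine tendsto_of_approx fun ε hε => ?_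
      obtain ⟨k₀, hk₀⟩ := hchain φ (hφ.of_le (by norm_num)) hφc ε hε
      refine ⟨fun i => ∫ x, φ x ∂(N (s₀ + k i)), ∫ x, φ x ∂κ, hkw' φ hφ.continuous hφc, ?_,
        by simpa using hε.le⟩
      filter_upwards [hkt.eventually_ge_atTop k₀] with i h2
      exact hk₀ (k i) (L i) h2 (hL1 i) (hL3 i)
    have hw2 : WeakTendsto (fun i => N (t (L i))) κ := by
      refine hslow.weakTendsto_shift (hnat.comp hLt) one_pos (Eventually.of_forall fun i => ?_) hw1
      obtain ⟨h1, h2⟩ := ht (L i)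
      simp only [Function.comp]
      rw [abs_le]
      constructor <;> linarith
    have hbad : ∀ᶠ i in atTop, X (L i) :=
      (tendsto_near (htt.comp hLt) (fun i => htg (L i)) hw2).eventually hloj
    obtain ⟨i, hi⟩ := hbad.exists
    exact hL2 i hi
  obtain ⟨k₁, hk₁⟩ := eventually_atTop.1 hall
  refine hen.subsingleton_of_summable (τ := fun k : ℕ => s₀ + k) hs0
    (fun i j hij => by have : (i : ℝ) ≤ j := by exact_mod_cast hij
                       simp only; linarith) hnat ?_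
  have e : (fun k : ℕ => √((s₀ + ((k + 1 : ℕ) : ℝ) - (s₀ + k))
      * (FA (N (s₀ + k)) - FA (N (s₀ + (k + 1 : ℕ)))))) = fun k => √(g k - g (k + 1)) := by
    ext k
    congr 1
    simp only [hg]
    push_cast
    ring
  rw [e, ← summable_nat_add_iff k₁]
  refine summable_of_sum_range_le (c := C' * g k₁ ^ τ) (fun k => Real.sqrt_nonneg _) fun n => ?_
  have h1 := hsum k₁ (k₁ + n) (by omega) fun j h1 _ => hk₁ j h1
  rw [Finset.sum_Ico_eq_sum_range] at h1
  have h2 : 0 ≤ C' * g (k₁ + n) ^ τ := mul_nonneg hC' (Real.rpow_nonneg (hg0 _) _)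
  have h3 : k₁ + n - k₁ = n := by omega
  rw [h3] at h1
  refine le_trans (le_of_eq ?_) (h1.trans (by linarith))
  refine Finset.sum_congr rfl fun i _ => ?_
  rw [add_comm i k₁]

end Vale.Agent.P218N.G
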