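import Vale.Agent.P218N.G.StaticG
import Vale.Agent.P218N.G.LIMulti
import Vale.Agent.P218N.G.LITube
import Vale.Agent.P218N.G.Loj

/-! The Lojasiewicz inequality for slices near the shrinker, from the static estimate and the
energy comparison. -/

open MeasureTheory Set Filter Topology Metric
open scoped ENNReal NNReal RealInnerProductSpace

namespace Vale.Agent.P218N.G

open Vale.Agent.P218 Vale.Agent.P218.H313

set_option linter.unusedSectionVars false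
set_option linter.unusedVariables false

variable {E : Type*} [NormedAddCommGroup E] [InnerProductSpace ℝ E] [FiniteDimensional ℝ E]
  [MeasurableSpace E] [BorelSpace E]

variable (E) in
/-- The energy comparison: the Gaussian area of an integral slice which has at most `k` sheets
near `{W = 0}` is at most `k` times that of `{W = 0}`, up to superlinear errors. -/
def EnergyCmp (m : ℕ) : Prop :=
  ∀ (c K C₀ r₂ : ℝ) (k : ℕ), 0 < c → 0 ≤ K → 0 ≤ C₀ → 0 < r₂ → 1 ≤ k →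
    ∃ r₀ R₀ C γ : ℝ, 0 < r₀ ∧ r₀ ≤ r₂ ∧ 0 ≤ C ∧ 1 / 2 < γ ∧
      ∀ (W : E → ℝ) (μ : Measure E) (T : E → Submodule ℝ E) (H : E → E), Tube0 W c K →
        IsFiniteMeasure μ → GSlice m μ T H → IntSl m μ T →
        (∀ (x : E) (r : ℝ), 0 < r → r ≤ 1 → μ.real (closedBall x r) ≤ C₀ * r ^ m) →
        (∀ p, W p = 0 → ‖p‖ ≤ R₀ → JJ m μ (fun _ => 1) p r₀ ≤ (k + 1 / 2) * om m) →
        FA μ ≤ k * FA (sig m W) + C * ((DD μ W 0 + TG μ T W 0 + dis μ T H) ^ γ + DD μ W 0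
          + TG μ T W 0 + ∫ y in {y | |W y| < c}, Tube0.fo W y * rho y ∂μ)

variable {m : ℕ} {N : ℝ → Measure E} {T : ℝ → E → Submodule ℝ E} {H : ℝ → E → E} {s₀ : ℝ}
  {κ : Measure E}

lemma ratio_nonneg (h : RF m N T H s₀) : ∃ C : ℝ, 0 ≤ C ∧ ∀ s, s₀ ≤ s → ∀ (x : E) (r : ℝ),
    0 < r → r ≤ 1 → (N s).real (closedBall x r) ≤ C * r ^ m := by
  obtain ⟨C, hC⟩ := h.ratio
  refine ⟨max C 0, le_max_right _ _, fun s hs x r h1 h2 => (hC s hs x r h1 h2).trans ?_⟩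
  exact mul_le_mul_of_nonneg_right (le_max_left _ _) (by positivity)

/-- bounds for the kernel ratio of the limit pass to nearby slices, uniformly on balls -/
lemma near_JJ (h : RF m N T H s₀) {r b b' : ℝ} (hr : 0 < r) (hr1 : r ≤ 1) (hb : b < b')
    (hκ : ∀ p, JJ m κ (fun _ => 1) p r ≤ b) (R : ℝ) :
    ∀ᶠ s in nearF m N T H κ, ∀ p : E, ‖p‖ ≤ R → JJ m (N s) (fun _ => 1) p r ≤ b' := by
  have hprop : ProperSpace E := FiniteDimensional.proper_real E
  obtain ⟨C, hC0, hC⟩ := ratio_nonneg h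
  set δ : ℝ := (b' - b) / 2 * r / (4 * C + 1) with hδ
  have hbb : 0 < (b' - b) / 2 := by linarith
  have hδ0 : 0 < δ := by positivity
  obtain ⟨Y, -, hY, hcov⟩ := finite_cover_balls_of_compact (isCompact_closedBall (0 : E) R) hδ0
  have h1 : ∀ p ∈ Y, ∀ᶠ s in nearF m N T H κ,
      JJ m (N s) (fun _ => 1) p r ≤ b + (b' - b) / 2 := by
    intro p _
    have h2 : Tendsto (fun s => JJ m (N s) (fun _ => 1) p r) (nearF m N T H κ)
        (𝓝 (JJ m κ (fun _ => 1) p r)) := by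
      unfold JJ
      simp only [mul_one]
      exact (nearF_lim (continuous_ker_scale r p) (hasCompactSupport_ker_scale hr p)).div_const _
    exact (h2.eventually_lt_const (lt_of_le_of_lt (hκ p) (by linarith))).mono fun s hs => hs.le
  filter_upwards [(eventually_all_finite hY).2 h1, nearF_atTop (eventually_ge_atTop s₀)]
    with s hs hs0 p hp
  have hfin := h.fin s hs0
  obtain ⟨y, hy, hpy⟩ := mem_iUnion₂.1 (hcov (mem_closedBall_zero_iff.2 hp))
  rw [mem_ball, dist_eq_norm] at hpy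
  have h3 := JJ_shift (m := m) (μ := N s) (h := fun _ => 1) continuous_const
    (fun _ => zero_le_one) (fun _ => le_rfl) hr p y (hC s hs0 p r hr hr1)
  have h4 : 4 * C * (‖p - y‖ / r) ≤ (b' - b) / 2 := by
    calc 4 * C * (‖p - y‖ / r) ≤ (4 * C + 1) * (δ / r) := by gcongr; linarith
      _ = (b' - b) / 2 := by rw [hδ]; field_simp
  linarith [hs y hy]

variable {W : E → ℝ} {c K : ℝ}

lemma FA_smul (k : ℕ) (μ : Measure E) : FA ((k : ℝ≥0∞) • μ) = k * FA μ := by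
  unfold FA
  rw [integral_smul_measure]
  simp

/-- at small scales the `k`-fold zero set has kernel ratio almost `k` -/
lemma Tube0.exists_scale (hE : Module.finrank ℝ E = m + 1) (hW : Tube0 W c K) (k : ℕ) :
    ∃ r₂ : ℝ, 0 < r₂ ∧ r₂ ≤ 1 ∧ ∀ r, 0 < r → r ≤ r₂ → ∀ p,
      JJ m ((k : ℝ≥0∞) • sig m W) (fun _ => 1) p r ≤ (k + 1 / 4) * om m := by
  have h1 : Tendsto (fun r => (k : ℝ) * LK K r ^ m) (𝓝 0) (𝓝 (k * 1 ^ m)) :=
    ((tendsto_LK K).pow m).const_mul _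
  have h2 : Tendsto (fun r : ℝ => K * r) (𝓝 0) (𝓝 0) := by
    simpa using (tendsto_id (x := 𝓝 (0 : ℝ))).const_mul K
  have h3 := (h1.eventually_lt_const (show (k : ℝ) * 1 ^ m < k + 1 / 4 by simp)).and
    ((h2.eventually_lt_const one_pos).and (h2.eventually_lt_const hW.cpos))
  obtain ⟨ε, hε, h4⟩ := Metric.eventually_nhds_iff.1 h3
  refine ⟨min (ε / 2) 1, by positivity, min_le_right _ _, fun r hr hr2 p => ?_⟩
  obtain ⟨k1, k2, k3⟩ := h4 (y := r) (by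
    rw [Real.dist_eq, sub_zero, abs_of_pos hr]
    have := hr2.trans (min_le_left _ _)
    linarith)
  have k4 := hW.integral_ker_le hE p hr k2 k3
  have hom := om_pos m
  unfold JJ
  simp only [mul_one]
  rw [integral_smul_measure, ENNReal.toReal_natCast, smul_eq_mul, mul_div_assoc]
  calc (k : ℝ) * ((∫ y, H313.ker (r⁻¹ • (y - p)) ∂(sig m W)) / r ^ m)
      ≤ k * (LK K r ^ m * om m) := by gcongr
    _ = k * LK K r ^ m * om m := by ring
    _ ≤ _ := by gcongr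

/-- the first order term of the energy comparison is quadratic -/
lemma Tube0.fo_le (hW : Tube0 W c K) {μ : Measure E} {L M : ℝ} {q : ℕ}
    (hric : ∀ x, |W x| < c → |ricE W x| ≤ K * W x ^ 2 + L * (1 + ‖x‖) ^ q)
    (hi : Integrable (fun x => (1 + ‖x‖) ^ (2 * q) * rho x) μ)
    (hM : ∫ x, (1 + ‖x‖) ^ (2 * q) * rho x ∂μ ≤ M) :
    ∫ y in {y | |W y| < c}, fo W y * rho y ∂μ
      ≤ (K ^ 2 + Module.finrank ℝ E * K ^ 2 + 1) * DD μ W 0 + L ^ 2 * M := by
  set B : ℝ := K ^ 2 + Module.finrank ℝ E * K ^ 2 + 1 with hB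
  have hB0 : 0 ≤ B := by positivity
  have i1 := int_sq_of hW hi
  have i2 : Integrable (fun x => B * (W x ^ 2 * rho x)
      + L ^ 2 * ((1 + ‖x‖) ^ (2 * q) * rho x)) μ := (i1.const_mul _).add (hi.const_mul _)
  have hpt : ∀ x, |W x| < c → fo W x * rho x
      ≤ B * (W x ^ 2 * rho x) + L ^ 2 * ((1 + ‖x‖) ^ (2 * q) * rho x) := by
    intro x hx
    have h1 := hric x hx
    have h2 := hW.q_le x
    have h3 := hW.b0 x
    have hK := hW.K_nonneg
    set Q := tr ((fderiv ℝ (grad W) x).comp (fderiv ℝ (grad W) x)) with hQ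
    have h4 : tr (fderiv ℝ (grad W) x) - 1 / 2 * ⟪x, grad W x⟫
        = ricE W x - (Q + 1 / 2) * W x := by unfold ricE; ring
    have h5 : |ricE W x - (Q + 1 / 2) * W x|
        ≤ |ricE W x| + (Module.finrank ℝ E * K ^ 2 + 1 / 2) * |W x| := by
      refine (abs_sub _ _).trans (add_le_add le_rfl ?_)
      rw [abs_mul]
      refine mul_le_mul_of_nonneg_right ((abs_add_le _ _).trans ?_) (abs_nonneg _)
      rw [abs_of_pos (show (0 : ℝ) < 1 / 2 by norm_num)]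
      linarith
    have h6 : fo W x ≤ B * W x ^ 2 + L ^ 2 * (1 + ‖x‖) ^ (2 * q) := by
      unfold fo
      rw [h4, ← sq_pow_w, ← sq_abs (W x)]
      rw [← sq_abs (W x)] at h1
      set w := |W x|
      set g := (1 + ‖x‖) ^ q
      have hw : 0 ≤ w := abs_nonneg _
      have e1 : w * |ricE W x - (Q + 1 / 2) * W x|
          ≤ w * (K * w ^ 2 + L * g + (Module.finrank ℝ E * K ^ 2 + 1 / 2) * w) :=
        mul_le_mul_of_nonneg_left (by linarith) hw
      have e2 : w * (K * w ^ 2) ≤ K * (K * w ^ 2) :=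
        mul_le_mul_of_nonneg_right h3 (by positivity)
      nlinarith [sq_nonneg (w - L * g), sq_nonneg (L * g)]
    have h7 := mul_le_mul_of_nonneg_right h6 (rho_pos x).le
    linarith
  calc ∫ y in {y | |W y| < c}, fo W y * rho y ∂μ
      ≤ ∫ x in {y | |W y| < c}, (B * (W x ^ 2 * rho x)
        + L ^ 2 * ((1 + ‖x‖) ^ (2 * q) * rho x)) ∂μ := by
        refine integral_mono_of_nonneg (Eventually.of_forall fun x => ?_) i2.integrableOn ?_
        · exact mul_nonneg (mul_nonneg (abs_nonneg _) (abs_nonneg _)) (rho_pos x).le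
        · filter_upwards [ae_restrict_mem hW.isOpen.measurableSet] with x hx using hpt x hx
    _ ≤ ∫ x, (B * (W x ^ 2 * rho x) + L ^ 2 * ((1 + ‖x‖) ^ (2 * q) * rho x)) ∂μ := by
        refine setIntegral_le_integral i2 (Eventually.of_forall fun x => ?_)
        have := rho_pos x
        positivity
    _ ≤ _ := by
        rw [integral_add (i1.const_mul _) (hi.const_mul _), integral_const_mul,
          integral_const_mul, DD_zero_eq]
        gcongr

lemma aux_pow {d A γ b : ℝ} (hd : 0 ≤ d) (hd1 : d ≤ 1) (hb : 0 < b) (hbγ : b ≤ γ) {x : ℝ}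
    (hx : 0 ≤ x) (hA : 0 ≤ A) (h : x ≤ A * d) : x ^ γ ≤ A ^ γ * d ^ b := by
  calc x ^ γ ≤ (A * d) ^ γ := Real.rpow_le_rpow hx h (by linarith)
    _ = A ^ γ * d ^ γ := Real.mul_rpow hA hd
    _ ≤ A ^ γ * d ^ b := mul_le_mul_of_nonneg_left
        (Real.rpow_le_rpow_of_exponent_ge' hd hd1 hb.le hbγ) (by positivity)

variable {P : Type*} [NormedAddCommGroup P] [NormedSpace ℝ P] {J : Type*} [Fintype J]
  {V : P → E → ℝ} {V' : P →ₗ[ℝ] (E → ℝ)} {psi : J → E → ℝ}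
  {lam : P → J → ℝ} {q : ℕ} {β : ℝ}

lemma aux_fin {d D G x I F F0 Fa C C₁ B Z K k γ β b : ℝ} (hd0 : 0 ≤ d) (hd1 : d ≤ 1)
    (hD : 0 ≤ D) (hG : 0 ≤ G) (hx : 0 ≤ x) (hC : 0 ≤ C) (hC₁ : 0 ≤ C₁) (hB : 0 ≤ B) (hZ : 0 ≤ Z)
    (hK : 0 ≤ K) (hk : 0 ≤ k) (hb0 : 0 < b) (hbγ : b ≤ γ) (hbβ : b ≤ β / 2) (hb1 : b ≤ 1)
    (h1 : D + G + x ^ 2 ≤ C₁ * d) (h2 : I ≤ B * D + Z * x ^ 2)
    (h3 : F ≤ k * Fa + C * ((D + G + d) ^ γ + D + G + I)) (h4 : Fa - F0 ≤ K * x ^ β) :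
    F - k * F0 ≤ (k * K * C₁ ^ (β / 2) + C * ((C₁ + 1) ^ γ + (1 + B + Z) * C₁)) * d ^ b := by
  have hx2 : 0 ≤ x ^ 2 := sq_nonneg _
  have e3 : (D + G + d) ^ γ ≤ (C₁ + 1) ^ γ * d ^ b :=
    aux_pow hd0 hd1 hb0 hbγ (by positivity) (by positivity) (by linarith)
  have e4 : x ^ β ≤ C₁ ^ (β / 2) * d ^ b := by
    have : x ^ β = (x ^ 2) ^ (β / 2) := by
      rw [← Real.rpow_two, ← Real.rpow_mul hx]; congr 1; ring
    rw [this]
    exact aux_pow hd0 hd1 hb0 hbβ hx2 hC₁ (by linarith)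
  have e5 : d ≤ d ^ b := by
    simpa using Real.rpow_le_rpow_of_exponent_ge' hd0 hd1 hb0.le hb1
  have f1 : B * D ≤ B * (C₁ * d) := mul_le_mul_of_nonneg_left (by linarith) hB
  have f2 : Z * x ^ 2 ≤ Z * (C₁ * d) := mul_le_mul_of_nonneg_left (by linarith) hZ
  have f3 : (1 + B + Z) * C₁ * d ≤ (1 + B + Z) * C₁ * d ^ b :=
    mul_le_mul_of_nonneg_left e5 (by positivity)
  have e6 : D + G + I ≤ (1 + B + Z) * C₁ * d ^ b := by linarith
  have e7 : k * (Fa - F0) ≤ k * (K * (C₁ ^ (β / 2) * d ^ b)) :=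
    mul_le_mul_of_nonneg_left (h4.trans (mul_le_mul_of_nonneg_left e4 hK)) hk
  have e8 : C * ((D + G + d) ^ γ + D + G + I)
      ≤ C * ((C₁ + 1) ^ γ * d ^ b + (1 + B + Z) * C₁ * d ^ b) :=
    mul_le_mul_of_nonneg_left (by linarith) hC
  linarith

/-- **The Lojasiewicz inequality** at good times near the shrinker -/
theorem Model.loj_near [FiniteDimensional ℝ P] (hE : Module.finrank ℝ E = m + 1)
    (hEC : EnergyCmp E m) (h : RF m N T H s₀) (hM : Model m V V' psi lam c K q β) {k : ℕ}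
    (hk : 1 ≤ k) (hκ : κ = (k : ℝ≥0∞) • sig m (V 0)) [IsLocallyFiniteMeasure κ]
    {M : Set (Measure E)} (hSC : SC m M κ (V 0) c K q) {l : Filter ℝ}
    (hl : l ≤ nearF m N T H κ) (hMl : ∀ᶠ s in l, N s ∈ M) (hint : ∀ᶠ s in l, IntSl m (N s) (T s)) :
    ∃ C b : ℝ, 0 < C ∧ 1 / 2 < b ∧ b ≤ 1 ∧
      ∀ᶠ s in l, FA (N s) - FA κ ≤ C * dis (N s) (T s) (H s) ^ b := by
  obtain ⟨a, ha, C₁, hC₁, hst⟩ := hM.exists_static' hE h hk hκ hl hMl hSC
  obtain ⟨C₀, hC₀, hratio⟩ := ratio_nonneg h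
  obtain ⟨r₂, hr₂, hr₂1, hsc⟩ := hM.tube0.exists_scale hE k
  have hK := hM.K_nonneg
  obtain ⟨r₀, R₀, C, γ, hr₀, hr₀₂, hC, hγ, hcmp⟩ :=
    hEC c K C₀ r₂ k hM.tube0.cpos hK hC₀ hr₂ hk
  have hom := om_pos m
  have hnear := near_JJ (κ := κ) h hr₀ (hr₀₂.trans hr₂1)
    (show ((k : ℝ) + 1 / 4) * om m < (k + 1 / 2) * om m by nlinarith)
    (by rw [hκ]; exact hsc r₀ hr₀ hr₀₂) R₀
  obtain ⟨Mq, hMq⟩ := h.moment (2 * q)
  set B : ℝ := K ^ 2 + Module.finrank ℝ E * K ^ 2 + 1 with hB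
  set L : ℝ := Fintype.card J * K + 1 with hL
  set b : ℝ := min (min γ (β / 2)) 1 with hb
  have hβ := hM.beta
  have hb2 : 1 / 2 < b := lt_min (lt_min hγ (by linarith)) (by norm_num)
  have hb0 : 0 < b := by linarith
  have hbγ : b ≤ γ := (min_le_left _ _).trans (min_le_left _ _)
  have hbβ : b ≤ β / 2 := (min_le_left _ _).trans (min_le_right _ _)
  have hb1 : b ≤ 1 := min_le_right _ _
  have hMq0 : 0 ≤ Mq := le_trans (integral_nonneg fun x => by
    have := rho_pos x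
    positivity) (hMq s₀ le_rfl).2
  have hF0 : ∀ μ : Measure E, 0 ≤ FA μ := fun μ => integral_nonneg fun x => (rho_pos x).le
  have hB0 : 0 ≤ B := by positivity
  have hZ0 : 0 ≤ L ^ 2 * Mq := by positivity
  obtain ⟨C₂, hC₂⟩ : ∃ C₂ : ℝ, C₂ = k * K * C₁ ^ (β / 2)
    + C * ((C₁ + 1) ^ γ + (1 + B + L ^ 2 * Mq) * C₁) := ⟨_, rfl⟩
  have hC₂0 : 0 ≤ C₂ := by rw [hC₂]; positivity
  have k0 := hF0 (N s₀)
  refine ⟨C₂ + FA (N s₀) + 1, b, by positivity, hb2, hb1, ?_⟩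
  filter_upwards [hst, hl hnear, hl nearF_sl, hint, (hl.trans nearF_atTop) (eventually_ge_atTop s₀),
    ha.eventually hM.tube, ha.eventually hM.ric_le, ha.eventually hM.loj]
    with s h1 h2 h3 h4 h5 h6 h7 h8
  have hd0 : 0 ≤ dis (N s) (T s) (H s) := dis_nonneg
  have hdb : 0 ≤ dis (N s) (T s) (H s) ^ b := by positivity
  rcases le_total (dis (N s) (T s) (H s)) 1 with hd1 | hd1
  · have e1 := hcmp _ _ _ _ h6 (h.fin s h5) h3 h4 (hratio s h5) fun p _ hp => h2 p hp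
    have e2 := h6.fo_le h7 (hMq s h5).1 (hMq s h5).2
    have e3 := aux_fin hd0 hd1 (DD_nonneg 0) (TG_nonneg 0) (norm_nonneg _) hC hC₁ hB0 hZ0 hK
      k.cast_nonneg hb0 hbγ hbβ hb1 h1 (e2.trans (le_of_eq (by ring))) e1 h8
    rw [← hC₂, ← FA_smul, ← hκ] at e3
    exact e3.trans (mul_le_mul_of_nonneg_right (by linarith) hdb)
  · have e1 : 1 ≤ dis (N s) (T s) (H s) ^ b := Real.one_le_rpow hd1 hb0.le
    have e2 := h.FA_anti le_rfl h5
    have e3 := hF0 κ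
    have e4 := le_mul_of_one_le_right (show 0 ≤ C₂ + FA (N s₀) + 1 by positivity) e1
    linarith

end Vale.Agent.P218N.G
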