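import Vale.Agent.P218N.G.Jac

/-! The blow-up of normalised heights: weak limit, Jacobi equation with forcing, tails, and strong
compactness for multiplicity one. -/

open MeasureTheory Set Filter Topology Metric
open scoped ENNReal NNReal RealInnerProductSpace

namespace Vale.Agent.P218N.G

open Vale.Agent.P214 (IntegralVarifold proj divAlong IsTestField)
open Vale.Agent.P218 Vale.Agent.P218.H313

set_option linter.unusedSectionVars false
set_option linter.unusedVariables false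

variable {E : Type*} [NormedAddCommGroup E] [InnerProductSpace ℝ E] [FiniteDimensional ℝ E]
  [MeasurableSpace E] [BorelSpace E]
variable {m : ℕ}

section static

variable {μ : Measure E} {T : E → Submodule ℝ E} {H : E → E} {W g : E → ℝ} {c K e : ℝ}

/-- the height divided by `e` -/
noncomputable def sh (e : ℝ) (W : E → ℝ) (x : E) : ℝ := e⁻¹ * W x

lemma sh_int (f : E → ℝ) :
    ∫ x, sh e W x ^ 2 * f x * rho x ∂μ = (∫ x, W x ^ 2 * f x * rho x ∂μ) / e ^ 2 := by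
  rw [← integral_div]
  congr 1; ext x
  simp only [sh, mul_pow, inv_pow]
  ring

lemma sh_norm : ∫ x, sh e W x ^ 2 * rho x ∂μ = DD μ W 0 / e ^ 2 := by
  have h1 := sh_int (μ := μ) (W := W) (e := e) (fun _ => 1)
  simp only [mul_one] at h1
  rw [h1, ← DD_zero_eq]

lemma sh_lin (f : E → ℝ) :
    ∫ x, sh e W x * f x * rho x ∂μ = (∫ x, W x * f x * rho x ∂μ) / e := by
  rw [← integral_div]
  congr 1; ext x
  simp only [sh]
  ring

lemma sh_cont (hW : Tube0 W c K) : Continuous (sh e W) := continuous_const.mul hW.cont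

lemma sh_pb (hW : Tube0 W c K) : PB (sh e W) := hW.pg.b0.const_mul _

lemma int_le_sqrt (hS : GSlice m μ T H) (hg : Continuous g) (hb : PB g) :
    ∫ x, g x * rho x ∂μ ≤ √(∫ x, rho x ∂μ) * √(DD μ g 0) := by
  have i1 : Integrable (fun x => (1 : ℝ) ^ 2 * rho x) μ := by simpa using hS.mom 0
  have i2 : Integrable (fun x => g x ^ 2 * rho x) μ :=
    hS.integrable_PB (hg.pow 2).aestronglyMeasurable (hb.pow 2)
  have i3 : Integrable (fun x => (1 : ℝ) * g x * rho x) μ := by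
    simpa using hS.integrable_PB hg.aestronglyMeasurable hb
  have h := abs_integral_mul_le (fun x => (rho_pos x).le) i1 i2 i3
  simp only [one_pow, one_mul] at h
  rw [DD_zero_eq]
  exact (le_abs_self _).trans h

/-- a function bounded by `L (1 + |x|)^q` has small weighted square integral -/
lemma DD_le_of_bound (hS : GSlice m μ T H) (hg : Continuous g) {L M : ℝ} {q : ℕ}
    (hb : ∀ x, |g x| ≤ L * (1 + ‖x‖) ^ q) (hM : ∫ x, (1 + ‖x‖) ^ (2 * q) * rho x ∂μ ≤ M) :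
    DD μ g 0 ≤ L ^ 2 * M := by
  have hpb : PB g := PB.of_le (C := L) (p := q) fun x => by rw [Real.norm_eq_abs]; exact hb x
  have i2 : Integrable (fun x => g x ^ 2 * rho x) μ :=
    hS.integrable_PB (hg.pow 2).aestronglyMeasurable (hpb.pow 2)
  rw [DD_zero_eq]
  calc ∫ x, g x ^ 2 * rho x ∂μ ≤ ∫ x, L ^ 2 * ((1 + ‖x‖) ^ (2 * q) * rho x) ∂μ := by
        refine integral_mono i2 ((hS.mom _).const_mul _) fun x => ?_
        have h1 : g x ^ 2 ≤ (L * (1 + ‖x‖) ^ q) ^ 2 := by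
          rw [← sq_abs (g x)]
          exact pow_le_pow_left₀ (abs_nonneg _) (hb x) 2
        have h2 := rho_pos x
        calc g x ^ 2 * rho x ≤ (L * (1 + ‖x‖) ^ q) ^ 2 * rho x := by gcongr
          _ = _ := by ring
    _ = L ^ 2 * ∫ x, (1 + ‖x‖) ^ (2 * q) * rho x ∂μ := integral_const_mul _ _
    _ ≤ L ^ 2 * M := by gcongr

lemma sh_local (hS : GSlice m μ T H) (hW : Tube0 W c K)
    {C₁ C₂ M₂ : ℝ} (h0 : DD μ W 0 / e ^ 2 ≤ 1) (h1 : DD μ W 1 / e ^ 2 ≤ C₂)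
    (h2 : TG μ T W 0 / e ^ 2 ≤ C₁)
    (h3 : VW μ T H W 0 / e ^ 2 ≤ K ^ 2) (h4 : ∫ x, (1 + ‖x‖) ^ 2 * rho x ∂μ ≤ M₂)
    (h5 : dis μ T H ≤ 1) (R : ℝ) :
    ∫ x in closedBall (0 : E) R, (sh e W x ^ 2 + ‖proj (T x) (grad (sh e W) x)‖ ^ 2
      + ‖H x‖ ^ 2 + sh e W x ^ 2 * ‖H x‖) ∂μ
      ≤ Real.exp (R ^ 2 / 4) * (1 + C₁ + 2 + M₂ + K ^ 2 + C₂) := by
  have hgrad : ∀ x, grad (sh e W) x = e⁻¹ • grad W x := fun x =>
    grad_const_mul _ (hW.diff x)
  have j1 : Integrable (fun x => sh e W x ^ 2 * rho x) μ :=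
    hS.integrable_PB ((sh_cont hW).pow 2).aestronglyMeasurable ((sh_pb hW).pow 2)
  have eP : (fun x => ‖proj (T x) (grad (sh e W) x)‖ ^ 2 * rho x)
      = fun x => (e ^ 2)⁻¹ * (wt 0 x * ‖proj (T x) (grad W x)‖ ^ 2 * rho x) := by
    ext x
    rw [hgrad, map_smul, norm_smul, mul_pow, Real.norm_eq_abs, sq_abs, inv_pow]
    simp only [wt, pow_zero]; ring
  have j2 : Integrable (fun x => ‖proj (T x) (grad (sh e W) x)‖ ^ 2 * rho x) μ := by
    rw [eP]; exact (hW.int_TG hS 0).const_mul _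
  have j3 := hS.int_vel_sq
  have j4 := hS.mom 2
  have eV : (fun x => sh e W x ^ 2 * ‖vel T H x‖ ^ 2 * rho x)
      = fun x => (e ^ 2)⁻¹ * (W x ^ 2 * wt 0 x * ‖vel T H x‖ ^ 2 * rho x) := by
    ext x
    simp only [sh, mul_pow, inv_pow, wt, pow_zero]; ring
  have j5 : Integrable (fun x => sh e W x ^ 2 * ‖vel T H x‖ ^ 2 * rho x) μ := by
    rw [eV]; exact (hW.int_VW hS 0).const_mul _
  have j6 : Integrable (fun x => sh e W x ^ 2 * wt 1 x * rho x) μ :=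
    hS.integrable_PB (((sh_cont hW).pow 2).mul (PG.wt 1).cont).aestronglyMeasurable
      (((sh_pb hW).pow 2).mul (PG.wt 1).b0)
  have f2 : ∫ x, ‖proj (T x) (grad (sh e W) x)‖ ^ 2 * rho x ∂μ = TG μ T W 0 / e ^ 2 := by
    rw [eP, integral_const_mul, div_eq_inv_mul]; rfl
  have f5 : ∫ x, sh e W x ^ 2 * ‖vel T H x‖ ^ 2 * rho x ∂μ = VW μ T H W 0 / e ^ 2 := by
    rw [eV, integral_const_mul, div_eq_inv_mul]; rfl
  have f6 : ∫ x, sh e W x ^ 2 * wt 1 x * rho x ∂μ = DD μ W 1 / e ^ 2 := sh_int (wt 1)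
  have f1 : ∫ x, sh e W x ^ 2 * rho x ∂μ = DD μ W 0 / e ^ 2 := sh_norm
  have k1 : Integrable (fun x => 1 * (sh e W x ^ 2 * rho x)
      + 1 * (‖proj (T x) (grad (sh e W) x)‖ ^ 2 * rho x)
      + 2 * (‖vel T H x‖ ^ 2 * rho x)) μ :=
    ((j1.const_mul 1).add (j2.const_mul 1)).add (j3.const_mul 2)
  have k2 : Integrable (fun x => 1 * ((1 + ‖x‖) ^ 2 * rho x)
      + 1 * (sh e W x ^ 2 * ‖vel T H x‖ ^ 2 * rho x)
      + 1 * (sh e W x ^ 2 * wt 1 x * rho x)) μ :=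
    ((j4.const_mul 1).add (j5.const_mul 1)).add (j6.const_mul 1)
  have e1 := integral_comb j1 j2 j3 1 1 2
  have e2 := integral_comb j4 j5 j6 1 1 1
  have hGint : ∫ x, ((1 * (sh e W x ^ 2 * rho x)
      + 1 * (‖proj (T x) (grad (sh e W) x)‖ ^ 2 * rho x)
      + 2 * (‖vel T H x‖ ^ 2 * rho x)) + (1 * ((1 + ‖x‖) ^ 2 * rho x)
      + 1 * (sh e W x ^ 2 * ‖vel T H x‖ ^ 2 * rho x)
      + 1 * (sh e W x ^ 2 * wt 1 x * rho x))) ∂μ ≤ 1 + C₁ + 2 + M₂ + K ^ 2 + C₂ := by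
    rw [integral_add k1 k2, e1, e2, f1, f2, f5, f6]
    unfold dis at h5
    linarith
  have hcomp : ∫ x in closedBall (0 : E) R, (sh e W x ^ 2
      + ‖proj (T x) (grad (sh e W) x)‖ ^ 2 + ‖H x‖ ^ 2 + sh e W x ^ 2 * ‖H x‖) ∂μ
      ≤ ∫ x in closedBall (0 : E) R, Real.exp (R ^ 2 / 4) * ((1 * (sh e W x ^ 2 * rho x)
      + 1 * (‖proj (T x) (grad (sh e W) x)‖ ^ 2 * rho x)
      + 2 * (‖vel T H x‖ ^ 2 * rho x)) + (1 * ((1 + ‖x‖) ^ 2 * rho x)
      + 1 * (sh e W x ^ 2 * ‖vel T H x‖ ^ 2 * rho x)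
      + 1 * (sh e W x ^ 2 * wt 1 x * rho x))) ∂μ := by
    refine integral_mono_of_nonneg (Eventually.of_forall fun x => by
      simp only [Pi.zero_apply]; positivity) ((k1.add k2).const_mul _).integrableOn ?_
    refine (ae_restrict_iff' measurableSet_closedBall).2 (Eventually.of_forall fun x hx => ?_)
    have hxR : ‖x‖ ≤ R := by simpa using hx
    refine (nh_pointwise (T := T) hxR _ _).trans (le_of_eq ?_)
    ring
  refine hcomp.trans ?_
  refine (setIntegral_le_integral ((k1.add k2).const_mul _)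
    (Eventually.of_forall fun x => ?_)).trans ?_
  · have h1 := wt_pos 1 x
    have h2 := rho_pos x
    simp only [Pi.zero_apply, Pi.add_apply]
    positivity
  · rw [integral_const_mul]
    exact mul_le_mul_of_nonneg_left hGint (Real.exp_pos _).le

/-- most of the normalised squared distance lies in a compact set -/
lemma sh_tail (hS : GSlice m μ T H) (hW : Tube0 W c K)
    {C₂ : ℝ} (h1 : DD μ W 1 / e ^ 2 ≤ C₂) (n : ℕ) :
    DD μ W 0 / e ^ 2 ≤ ∫ x, cut n x * rho x * sh e W x ^ 2 ∂μ + C₂ / ((n : ℝ) + 1) ^ 2 := by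
  have j1 : Integrable (fun x => sh e W x ^ 2 * rho x) μ :=
    hS.integrable_PB ((sh_cont hW).pow 2).aestronglyMeasurable ((sh_pb hW).pow 2)
  have j6 : Integrable (fun x => sh e W x ^ 2 * wt 1 x * rho x) μ :=
    hS.integrable_PB (((sh_cont hW).pow 2).mul (PG.wt 1).cont).aestronglyMeasurable
      (((sh_pb hW).pow 2).mul (PG.wt 1).b0)
  have j7 : Integrable (fun x => cut n x * rho x * sh e W x ^ 2) μ := by
    refine j1.mono' (((continuous_cut n).mul continuous_rho).mul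
      ((sh_cont hW).pow 2)).aestronglyMeasurable (Eventually.of_forall fun x => ?_)
    have h1 := cut_nonneg n x
    have h2 := cut_le_one n x
    have h3 := rho_pos x
    rw [Real.norm_of_nonneg (by positivity)]
    have h4 : 0 ≤ sh e W x ^ 2 * rho x := by positivity
    calc cut n x * rho x * sh e W x ^ 2 = cut n x * (sh e W x ^ 2 * rho x) := by ring
      _ ≤ sh e W x ^ 2 * rho x := mul_le_of_le_one_left h4 h2
  have e1 : ∫ x, sh e W x ^ 2 * rho x ∂μ - ∫ x, cut n x * rho x * sh e W x ^ 2 ∂μ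
      ≤ 1 / ((n : ℝ) + 1) ^ 2 * ∫ x, sh e W x ^ 2 * wt 1 x * rho x ∂μ := by
    rw [← integral_sub j1 j7, ← integral_const_mul]
    refine integral_mono (j1.sub j7) (j6.const_mul _) fun x => ?_
    have h1 : 1 - cut n x ≤ wt 1 x / ((n : ℝ) + 1) ^ 2 := by
      by_cases hx : ‖x‖ ≤ (n : ℝ) + 1
      · have : cut n x = 1 := H552.chi_eq_one (cut_pos_arg n) hx
        rw [this, sub_self]
        have := wt_pos 1 x
        positivity
      · push Not at hx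
        have h2 : 1 ≤ wt 1 x / ((n : ℝ) + 1) ^ 2 := by
          rw [le_div_iff₀ (by positivity)]
          simp only [wt, pow_one, one_mul]
          have h3 := cut_pos_arg n
          nlinarith
        have h3 := cut_nonneg n x
        linarith
    have h2 : 0 ≤ sh e W x ^ 2 * rho x := by have := rho_pos x; positivity
    calc sh e W x ^ 2 * rho x - cut n x * rho x * sh e W x ^ 2
        = (1 - cut n x) * (sh e W x ^ 2 * rho x) := by ring
      _ ≤ (wt 1 x / ((n : ℝ) + 1) ^ 2) * (sh e W x ^ 2 * rho x) :=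
          mul_le_mul_of_nonneg_right h1 h2
      _ = 1 / ((n : ℝ) + 1) ^ 2 * (sh e W x ^ 2 * wt 1 x * rho x) := by ring
  have f6 : ∫ x, sh e W x ^ 2 * wt 1 x * rho x ∂μ = DD μ W 1 / e ^ 2 := sh_int (wt 1)
  rw [sh_norm, f6] at e1
  have e2 : 1 / ((n : ℝ) + 1) ^ 2 * (DD μ W 1 / e ^ 2) ≤ C₂ / ((n : ℝ) + 1) ^ 2 := by
    rw [one_div, inv_mul_eq_div]
    gcongr
  linarith

/-- change of the test function -/
lemma sh_diff (hS : GSlice m μ T H) (hW : Tube0 W c K) (h0 : DD μ W 0 / e ^ 2 ≤ 1) {M δ : ℝ}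
    (hM : ∫ x, rho x ∂μ ≤ M) {f g : E → ℝ} (hf : Continuous f) (hfb : PB f)
    (hg : Continuous g) (hgb : PB g) (hd : ∀ x, |g x - f x| ≤ δ) (hδ : 0 ≤ δ) :
    |∫ x, sh e W x * f x * rho x ∂μ - ∫ x, sh e W x * g x * rho x ∂μ| ≤ δ * √M := by
  have i1 : Integrable (fun x => sh e W x * f x * rho x) μ :=
    hS.integrable_PB ((sh_cont hW).mul hf).aestronglyMeasurable ((sh_pb hW).mul hfb)
  have i2 : Integrable (fun x => sh e W x * g x * rho x) μ :=
    hS.integrable_PB ((sh_cont hW).mul hg).aestronglyMeasurable ((sh_pb hW).mul hgb)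
  have i3 : Integrable (fun x => |sh e W x| * 1 * rho x) μ := by
    have := hS.integrable_PB (sh_cont (e := e) hW).norm.aestronglyMeasurable (sh_pb hW).norm
    simpa using this
  have i4 : Integrable (fun x => |sh e W x| ^ 2 * rho x) μ := by
    have := hS.integrable_PB ((sh_cont (e := e) hW).pow 2).aestronglyMeasurable ((sh_pb hW).pow 2)
    simpa using this
  have i5 : Integrable (fun x => (1 : ℝ) ^ 2 * rho x) μ := by simpa using hS.mom 0
  have cs := abs_integral_mul_le (fun x => (rho_pos x).le) i4 i5 i3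
  have e1 : √(∫ x, |sh e W x| ^ 2 * rho x ∂μ) ≤ 1 := by
    have h1 : ∫ x, |sh e W x| ^ 2 * rho x ∂μ = DD μ W 0 / e ^ 2 := by
      rw [← sh_norm]; simp
    rw [h1]
    exact Real.sqrt_le_one.2 h0
  simp only [one_pow, one_mul, mul_one] at cs
  have i6 : Integrable (fun x => |sh e W x| * rho x) μ := by simpa using i3
  rw [← integral_sub i1 i2, ← Real.norm_eq_abs]
  have e2 : ‖∫ x, (sh e W x * f x * rho x - sh e W x * g x * rho x) ∂μ‖
      ≤ ∫ x, δ * (|sh e W x| * rho x) ∂μ := by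
    refine norm_integral_le_of_norm_le (i6.const_mul _) (Eventually.of_forall fun x => ?_)
    have e3 : sh e W x * f x * rho x - sh e W x * g x * rho x
        = (f x - g x) * (sh e W x * rho x) := by ring
    rw [e3, norm_mul, norm_mul, Real.norm_of_nonneg (rho_pos x).le, Real.norm_eq_abs,
      Real.norm_eq_abs, abs_sub_comm]
    exact mul_le_mul_of_nonneg_right (hd x) (mul_nonneg (abs_nonneg _) (rho_pos x).le)
  rw [integral_const_mul] at e2
  refine e2.trans (mul_le_mul_of_nonneg_left ?_ hδ)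
  refine (le_abs_self _).trans (cs.trans ?_)
  have e4 : √(∫ x, rho x ∂μ) ≤ √M := Real.sqrt_le_sqrt hM
  calc √(∫ x, |sh e W x| ^ 2 * rho x ∂μ) * √(∫ x, rho x ∂μ) ≤ 1 * √M := by gcongr
    _ = √M := one_mul _

lemma aux_jac {C a d F G v z e sM : ℝ} (he : 0 < e) (hC : 0 ≤ C) (hsM : 0 ≤ sM) (hd : 0 ≤ d)
    (hG : 0 ≤ G) {X CF : ℝ} (hX : |X| ≤ C * (a + d + (F + G) + v + z)) (ha : a ≤ e ^ 2)
    (hF : F ≤ CF * e ^ 2) (hv : v ≤ sM * √d) (hz : z ≤ sM * √G) :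
    |X / e| ≤ C * (e + d / e ^ 2 * e + (CF * e + G / e ^ 2 * e) + sM * √(d / e ^ 2)
      + sM * √(G / e ^ 2)) := by
  rw [abs_div, abs_of_pos he, div_le_iff₀ he, Real.sqrt_div hd, Real.sqrt_div hG,
    Real.sqrt_sq he.le]
  refine hX.trans ?_
  rw [mul_assoc]
  refine mul_le_mul_of_nonneg_left ?_ hC
  have : (e + d / e ^ 2 * e + (CF * e + G / e ^ 2 * e) + sM * (√d / e) + sM * (√G / e)) * e
      = e ^ 2 + d + (CF * e ^ 2 + G) + sM * √d + sM * √G := by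
    field_simp
  rw [this]
  linarith

end static

variable {ι : Type*} {U : Ultrafilter ι} {N : ι → Measure E}
  {T : ι → E → Submodule ℝ E} {H : ι → E → E} {κ : Measure E}

/-- **Weak limit of the normalised heights.** It solves the Jacobi equation with the limit of the
normalised forcing. -/
theorem weak_jacobi (hE : Module.finrank ℝ E = m + 1) (h : Conv U m N T H κ)
    {W F : E → ℝ} {Wi fi gi : ι → E → ℝ} {e : ι → ℝ} {c K : ℝ} (hW : Tube0 W c K)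
    (hWi : ∀ᶠ i in (U : Filter ι), TubeF (Wi i) (fi i) (gi i) c K)
    (hjac : ∀ ζ : E → ℝ, ContDiff ℝ (⊤ : ℕ∞) ζ → HasCompactSupport ζ → ∀ ε > 0,
      ∀ᶠ i in (U : Filter ι), ∀ x, |jac (Wi i) ζ x - jac W ζ x| ≤ ε)
    (hpos : ∀ᶠ i in (U : Filter ι), 0 < e i) (he : Tendsto e U (𝓝 0))
    (hD : ∀ᶠ i in (U : Filter ι), DD (N i) (Wi i) 0 ≤ e i ^ 2)
    (hdis : Tendsto (fun i => dis (N i) (T i) (H i) / e i ^ 2) U (𝓝 0))
    (hf : ∃ C : ℝ, ∀ᶠ i in (U : Filter ι), DD (N i) (fi i) 0 ≤ C * e i ^ 2)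
    (hg : Tendsto (fun i => DD (N i) (gi i) 0 / e i ^ 2) U (𝓝 0))
    (hF : ∀ ζ : E → ℝ, ContDiff ℝ (⊤ : ℕ∞) ζ → HasCompactSupport ζ →
      Tendsto (fun i => (∫ x, ζ x * fi i x * rho x ∂(N i)) / e i) U
        (𝓝 (∫ x, ζ x * F x * rho x ∂κ))) :
    ∃ u : E → ℝ, AEStronglyMeasurable u κ ∧ Integrable (fun x => u x ^ 2 * rho x) κ ∧
      (∀ ζ : E → ℝ, ContDiff ℝ (⊤ : ℕ∞) ζ → HasCompactSupport ζ →
        ∫ x, u x * jac W ζ x * rho x ∂κ = ∫ x, ζ x * F x * rho x ∂κ) ∧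
      ∀ φ : E → ℝ, Continuous φ → PB φ →
        Tendsto (fun i => ∫ x, sh (e i) (Wi i) x * φ x * rho x ∂(N i)) U
          (𝓝 (∫ x, φ x * u x * rho x ∂κ)) := by
  have := h.lf
  have hc := hW.cpos
  have hK := hW.K_nonneg
  obtain ⟨CF, hCF⟩ := hf
  have hD1 : ∀ᶠ i in (U : Filter ι), DD (N i) (Wi i) 0 / e i ^ 2 ≤ 1 := by
    filter_upwards [hD, hpos] with i h1 h2
    rwa [div_le_one (by positivity)]
  have hwc : ∀ᶠ i in (U : Filter ι), Continuous (sh (e i) (Wi i)) ∧ PB (sh (e i) (Wi i)) := by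
    filter_upwards [hWi] with i hi using ⟨sh_cont hi.toTube0, sh_pb hi.toTube0⟩
  obtain ⟨u, hum, hu2, hu⟩ := h.exists_weak_lim (w := fun i => sh (e i) (Wi i)) hwc
    (hD1.mono fun i hi => by rw [sh_norm]; exact hi)
  refine ⟨u, hum, hu2, fun ζ hζ hζc => ?_, fun φ h1 h2 => (hu φ h1 h2).2⟩
  obtain ⟨M, hM⟩ := h.mom 0
  have hM' : ∀ᶠ i in (U : Filter ι), ∫ x, rho x ∂(N i) ≤ M := by
    filter_upwards [hM] with i hi; simpa using hi
  have hsdis : Tendsto (fun i => √(dis (N i) (T i) (H i) / e i ^ 2)) U (𝓝 0) := by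
    have := hdis.sqrt; rwa [Real.sqrt_zero] at this
  have hsg : Tendsto (fun i => √(DD (N i) (gi i) 0 / e i ^ 2)) U (𝓝 0) := by
    have := hg.sqrt; rwa [Real.sqrt_zero] at this
  have hζ2 : ContDiff ℝ 2 ζ := hζ.of_le (by norm_cast)
  have hjc := hW.continuous_jac hζ2
  have hjs : HasCompactSupport (jac W ζ) := hasCompactSupport_jac hζc
  have hjpb : PB (jac W ζ) := PB.of_compact hjc hjs
  obtain ⟨-, hlim⟩ := hu (jac W ζ) hjc hjpb
  obtain ⟨C, hC, hest⟩ := exists_jac_estF (E := E) hE hc hK hζ2 hζc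
  have a2 : Tendsto (fun i => C * (e i + dis (N i) (T i) (H i) / e i ^ 2 * e i
      + (CF * e i + DD (N i) (gi i) 0 / e i ^ 2 * e i)
      + √M * √(dis (N i) (T i) (H i) / e i ^ 2) + √M * √(DD (N i) (gi i) 0 / e i ^ 2))) U
      (𝓝 0) := by
    have := ((((he.add (hdis.mul he)).add ((he.const_mul CF).add (hg.mul he))).add
      (hsdis.const_mul √M)).add (hsg.const_mul √M)).const_mul C
    simpa using this
  have a3 : Tendsto (fun i => ∫ x, sh (e i) (Wi i) x * jac (Wi i) ζ x * rho x ∂(N i)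
      - (∫ x, ζ x * fi i x * rho x ∂(N i)) / e i) U (𝓝 0) := by
    refine squeeze_zero_norm' ?_ a2
    filter_upwards [hWi, h.sl, hpos, hM', hD, hCF] with i hi hs hp hm' hd hcf
    rw [sh_lin, ← sub_div, Real.norm_eq_abs]
    have e4 : √(∫ x, rho x ∂(N i)) ≤ √M := Real.sqrt_le_sqrt hm'
    refine aux_jac hp hC (Real.sqrt_nonneg _) dis_nonneg (DD_nonneg 0)
      (hest _ _ _ hi (N i) (T i) (H i) hs) hd hcf ?_ ?_
    · exact (int_vel_le hs).trans (mul_le_mul_of_nonneg_right e4 (Real.sqrt_nonneg _))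
    · exact (int_le_sqrt hs hi.gc hi.gb).trans
        (mul_le_mul_of_nonneg_right e4 (Real.sqrt_nonneg _))
  have a4 : Tendsto (fun i => ∫ x, sh (e i) (Wi i) x * jac W ζ x * rho x ∂(N i)
      - ∫ x, sh (e i) (Wi i) x * jac (Wi i) ζ x * rho x ∂(N i)) U (𝓝 0) := by
    rw [Metric.tendsto_nhds]
    intro ε hε
    have hε' : 0 < ε / (2 * (√M + 1)) := by positivity
    filter_upwards [hjac ζ hζ hζc _ hε', hWi, h.sl, hD1, hM'] with i h1 hi hs hp h3
    rw [dist_zero_right, Real.norm_eq_abs]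
    refine (sh_diff hs hi.toTube0 hp h3 hjc hjpb (hi.toTube0.continuous_jac hζ2)
      (PB.of_compact (hi.toTube0.continuous_jac hζ2) (hasCompactSupport_jac hζc)) h1
      hε'.le).trans_lt ?_
    have e5 : 0 ≤ √M := Real.sqrt_nonneg _
    rw [div_mul_eq_mul_div, div_lt_iff₀ (by positivity)]
    nlinarith
  have a5 := (a4.add a3).add (hF ζ hζ hζc)
  have h1 : Tendsto (fun i => ∫ x, sh (e i) (Wi i) x * jac W ζ x * rho x ∂(N i)) U
      (𝓝 (∫ x, ζ x * F x * rho x ∂κ)) := by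
    simpa using a5
  have h2 := tendsto_nhds_unique h1 hlim
  rw [h2]
  congr 1; ext x; ring

/-- uniform bounds for the normalised quantities -/
lemma norm_bounds (hE : Module.finrank ℝ E = m + 1) (hsl : ∀ᶠ i in (U : Filter ι),
      GSlice m (N i) (T i) (H i))
    {Wi fi gi : ι → E → ℝ} {e : ι → ℝ} {c K : ℝ} (hc : 0 < c) (hK : 0 ≤ K)
    (hWi : ∀ᶠ i in (U : Filter ι), TubeF (Wi i) (fi i) (gi i) c K)
    (hpos : ∀ᶠ i in (U : Filter ι), 0 < e i)
    (hD : ∀ᶠ i in (U : Filter ι), DD (N i) (Wi i) 0 ≤ e i ^ 2)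
    (hdis : ∀ᶠ i in (U : Filter ι), dis (N i) (T i) (H i) ≤ e i ^ 2)
    (hf : ∃ C : ℝ, ∀ᶠ i in (U : Filter ι),
      DD (N i) (fi i) 0 + DD (N i) (gi i) 0 ≤ C * e i ^ 2) :
    ∃ C : ℝ, ∀ᶠ i in (U : Filter ι), DD (N i) (Wi i) 1 / e i ^ 2 ≤ C ∧
      TG (N i) (T i) (Wi i) 0 / e i ^ 2 ≤ C ∧
      VW (N i) (T i) (H i) (Wi i) 0 / e i ^ 2 ≤ K ^ 2 := by
  obtain ⟨C₁, hC₁, hTG⟩ := exists_TG_leF (E := E) hE hc hK
  obtain ⟨C₂, hC₂, hD1⟩ := exists_DD_one_leF (E := E) hE hc hK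
  obtain ⟨CF, hCF⟩ := hf
  refine ⟨(C₁ + C₂) * (2 + |CF|), ?_⟩
  filter_upwards [hWi, hsl, hpos, hD, hdis, hCF] with i hi hs hp hd hds hcf
  have e1 := hD1 _ _ _ hi (N i) (T i) (H i) hs
  have e2 := hTG _ _ _ hi (N i) (T i) (H i) hs
  have e3 := hi.toTube0.VW_zero_le hs
  have hp2 : 0 < e i ^ 2 := by positivity
  have e4 : CF * e i ^ 2 ≤ |CF| * e i ^ 2 := by gcongr; exact le_abs_self _
  have e5 : DD (N i) (Wi i) 0 + dis (N i) (T i) (H i) + (DD (N i) (fi i) 0 + DD (N i) (gi i) 0)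
      ≤ (2 + |CF|) * e i ^ 2 := by linarith
  have e6 : 0 ≤ (2 + |CF|) * e i ^ 2 := by positivity
  refine ⟨?_, ?_, ?_⟩
  · rw [div_le_iff₀ hp2]
    have := mul_le_mul_of_nonneg_left e5 hC₂
    nlinarith
  · rw [div_le_iff₀ hp2]
    have := mul_le_mul_of_nonneg_left e5 hC₁
    nlinarith
  · rw [div_le_iff₀ hp2]
    nlinarith [sq_nonneg K]

/-- local strong convergence to zero implies global strong convergence to zero -/
theorem tendsto_DD_of_local (hsl : ∀ᶠ i in (U : Filter ι), GSlice m (N i) (T i) (H i))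
    {Wi : ι → E → ℝ} {e : ι → ℝ} {c K C : ℝ}
    (hWi : ∀ᶠ i in (U : Filter ι), Tube0 (Wi i) c K)
    (h1 : ∀ᶠ i in (U : Filter ι), DD (N i) (Wi i) 1 / e i ^ 2 ≤ C)
    (hloc : ∀ χ : E → ℝ, Continuous χ → HasCompactSupport χ →
      Tendsto (fun i => ∫ x, χ x * sh (e i) (Wi i) x ^ 2 ∂(N i)) U (𝓝 0)) :
    Tendsto (fun i => DD (N i) (Wi i) 0 / e i ^ 2) U (𝓝 0) := by
  rw [Metric.tendsto_nhds]
  intro ε hε
  obtain ⟨n, hn⟩ := exists_nat_gt (2 * |C| / ε)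
  have hn1 : C / ((n : ℝ) + 1) ^ 2 < ε / 2 := by
    rw [div_lt_iff₀ (by positivity)]
    rw [div_lt_iff₀ hε] at hn
    have := le_abs_self C
    have h0 : (0 : ℝ) ≤ n := Nat.cast_nonneg n
    nlinarith [mul_nonneg hε.le (sq_nonneg (n : ℝ)), mul_nonneg hε.le h0]
  have hfin := hloc (fun x => cut n x * rho x) ((continuous_cut n).mul continuous_rho)
    (cut_compact n).mul_right
  filter_upwards [hsl, hWi, h1, hfin.eventually_lt_const (half_pos hε)] with i hs hi c1 c2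
  have e1 := sh_tail hs hi c1 n
  have e2 : 0 ≤ DD (N i) (Wi i) 0 / e i ^ 2 := div_nonneg (DD_nonneg 0) (sq_nonneg _)
  rw [Real.dist_eq, sub_zero, abs_of_nonneg e2]
  linarith

/-- **Strong compactness for multiplicity one.** -/
theorem strong_one (hm : 0 < m) (hE : Module.finrank ℝ E = m + 1) (h : Conv U m N T H κ)
    (hκ : ∀ x : E, ∀ c > om m, ∀ᶠ r in 𝓝[>] (0 : ℝ), (∫ y, H313.ker (r⁻¹ • (y - x)) ∂κ) / r ^ m ≤ c)
    {Wi fi gi : ι → E → ℝ} {e : ι → ℝ} {c K : ℝ} (hc : 0 < c) (hK : 0 ≤ K)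
    (hWi : ∀ᶠ i in (U : Filter ι), TubeF (Wi i) (fi i) (gi i) c K)
    (hpos : ∀ᶠ i in (U : Filter ι), 0 < e i) (he : ∀ᶠ i in (U : Filter ι), e i ≤ 1)
    (hD : ∀ᶠ i in (U : Filter ι), DD (N i) (Wi i) 0 ≤ e i ^ 2)
    (hdis : ∀ᶠ i in (U : Filter ι), dis (N i) (T i) (H i) ≤ e i ^ 2)
    (hf : ∃ C : ℝ, ∀ᶠ i in (U : Filter ι),
      DD (N i) (fi i) 0 + DD (N i) (gi i) 0 ≤ C * e i ^ 2)
    (hwlim : ∀ φ : E → ℝ, Continuous φ → PB φ →
      Tendsto (fun i => ∫ x, sh (e i) (Wi i) x * φ x * rho x ∂(N i)) U (𝓝 0))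
    (χ : E → ℝ) (hχ : Continuous χ) (hχc : HasCompactSupport χ) :
    Tendsto (fun i => ∫ x, χ x * sh (e i) (Wi i) x ^ 2 ∂(N i)) U (𝓝 0) := by
  have := h.lf
  obtain ⟨C, hC⟩ := norm_bounds hE h.sl hc hK hWi hpos hD hdis hf
  obtain ⟨M₂, hM₂⟩ := h.mom 2
  have hbd : ∀ R : ℝ, ∃ C : ℝ, ∀ᶠ i in (U : Filter ι), ∫ x in closedBall (0 : E) R,
      (sh (e i) (Wi i) x ^ 2 + ‖proj (T i x) (grad (sh (e i) (Wi i)) x)‖ ^ 2 + ‖H i x‖ ^ 2
        + sh (e i) (Wi i) x ^ 2 * ‖H i x‖) ∂(N i) ≤ C := by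
    intro R
    refine ⟨Real.exp (R ^ 2 / 4) * (1 + C + 2 + M₂ + K ^ 2 + C), ?_⟩
    filter_upwards [hWi, h.sl, hpos, he, hD, hdis, hC, hM₂] with i hi hs hp h1 hd hds c1 c4
    refine sh_local hs hi.toTube0 ?_ c1.1 c1.2.1 c1.2.2 c4 ?_ R
    · rwa [div_le_one (by positivity)]
    · exact hds.trans (pow_le_one₀ hp.le h1)
  exact strong_compactness U hm (h.sl.mono fun i hi => hi.toSlice) h.lim h.ratio hκ
    (w := fun i => sh (e i) (Wi i))
    (hWi.mono fun i hi => contDiff_const.mul hi.toTube0.pg.cd) hbd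
    (fun ζ hζ hζc => by
      have h1 := hwlim (fun x => ζ x * (rho x)⁻¹)
        (hζ.mul (continuous_rho.inv₀ fun x => (rho_pos x).ne'))
        (PB.of_compact (hζ.mul (continuous_rho.inv₀ fun x => (rho_pos x).ne')) hζc.mul_right)
      refine h1.congr fun i => ?_
      congr 1; ext x
      have := (rho_pos x).ne'
      field_simp) χ hχ hχc

end Vale.Agent.P218N.G
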