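import Vale.Agent.P218N.G.LIGap
import Vale.Agent.P218N.G.Dens

/-! Energy comparison, part 8: the comparison of the Gaussian area of an integral slice with `k`
times the Gaussian area of the zero set of a tube function. -/

open MeasureTheory Set Filter Topology Metric
open scoped ENNReal NNReal RealInnerProductSpace

namespace Vale.Agent.P218N.G

open Vale.Agent.P214 (IntegralVarifold proj divAlong IsApproxTangent weightOf)
open Vale.Agent.P218 Vale.Agent.P218.H313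

set_option linter.unusedSectionVars false
set_option linter.unusedVariables false

variable {E : Type*} [NormedAddCommGroup E] [InnerProductSpace ℝ E] [FiniteDimensional ℝ E]
  [MeasurableSpace E] [BorelSpace E]
variable {m : ℕ} {μ : Measure E} {T : E → Submodule ℝ E} {H : E → E} {W : E → ℝ} {c K : ℝ}
variable {θ : E → ℕ} {k nb : ℕ} {C₀ β δ r₀ Λ M s τ : ℝ}

lemma Tube0.mono_K (hW : Tube0 W c K) {K' : ℝ} (h : K ≤ K') : Tube0 W c K' :=
  ⟨hW.cpos, hW.smooth, fun x => (hW.b0 x).trans h, fun x => (hW.b1 x).trans h,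
    fun x => (hW.b2 x).trans h, fun x => (hW.bx x).trans h, hW.eik⟩

lemma li_rho_le_one (y : E) : rho y ≤ 1 := by
  unfold rho
  refine Real.exp_le_one_iff.2 ?_
  have := sq_nonneg ‖y‖
  linarith

lemma li_rho_cont : Continuous (rho : E → ℝ) := by unfold rho; fun_prop

lemma li_rho_eq (y : E) : rho y = Real.exp (-(1 / 4 * ‖y‖ ^ 2)) := by
  unfold rho; congr 1; ring

/-- the Gaussian is integrable on the zero set of a tube function -/
theorem Tube0.integrable_rho_sig (hE : Module.finrank ℝ E = m + 1) (hW : Tube0 W c K) :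
    Integrable rho (sig m W) := by
  have hK := hW.K_nonneg
  have hc := hW.cpos
  have := hW.sig_locFin hE
  set r : ℝ := min 1 c / (4 * (K + 1)) with hr
  have hm : 0 < min 1 c := lt_min one_pos hc
  have hr0 : 0 < r := by positivity
  have h1 : K * (2 * r) < min 1 c := by
    rw [hr, show K * (2 * (min 1 c / (4 * (K + 1)))) = min 1 c * (K / (2 * (K + 1))) by
      field_simp; ring]
    refine mul_lt_of_lt_one_right hm ?_
    rw [div_lt_one (by positivity)]
    linarith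
  obtain ⟨C, hC, h⟩ := exists_gauss_bound E (a := 1 / 4) (by norm_num) hr0
  have h2 := h (sig m W) _ fun x => hW.sig_ball_le hE x hr0 (h1.trans_le (min_le_left _ _))
    (h1.trans_le (min_le_right _ _))
  refine ⟨li_rho_cont.aestronglyMeasurable, ?_⟩
  rw [hasFiniteIntegral_iff_ofReal (Eventually.of_forall fun y => (rho_pos y).le)]
  simp only [li_rho_eq]
  exact h2.trans_lt (ENNReal.mul_lt_top hC.lt_top ENNReal.ofReal_lt_top)

lemma Tube0.fo_cont (hW : Tube0 W c K) : Continuous (Tube0.fo W) := by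
  have h1 : Continuous (fderiv ℝ (grad W)) := hW.grad_cd.continuous_fderiv (by norm_num)
  have h2 : Continuous (grad W) := hW.grad_cd.continuous
  have h3 := hW.cont
  have h4 : Continuous fun y => tr (fderiv ℝ (grad W) y) := (trL E).continuous.comp h1
  unfold Tube0.fo
  fun_prop

lemma Tube0.fo_nonneg (y : E) : 0 ≤ Tube0.fo W y := by unfold Tube0.fo; positivity

lemma Tube0.li_fo_le (hW : Tube0 W c K) (y : E) :
    Tube0.fo W y ≤ K * (Module.finrank ℝ E * K + K) := by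
  unfold Tube0.fo
  have hK := hW.K_nonneg
  refine mul_le_mul (hW.b0 y) ((abs_sub _ _).trans ?_) (abs_nonneg _) hK
  have h1 : |tr (fderiv ℝ (grad W) y)| ≤ Module.finrank ℝ E * K :=
    (abs_tr_le _).trans (mul_le_mul_of_nonneg_left (hW.b2 y) (Nat.cast_nonneg _))
  have h2 := hW.bx y
  rw [abs_mul, abs_of_pos (by norm_num : (0:ℝ) < 1 / 2)]
  linarith

lemma li_integrable [IsFiniteMeasure μ] {f : E → ℝ} (hf : AEStronglyMeasurable f μ) {C : ℝ}
    (h0 : ∀ y, 0 ≤ f y) (h1 : ∀ y, f y ≤ C) : Integrable (fun y => f y * rho y) μ := by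
  refine Integrable.of_bound (hf.mul li_rho_cont.aestronglyMeasurable) C
    (Eventually.of_forall fun y => ?_)
  rw [Real.norm_of_nonneg (mul_nonneg (h0 y) (rho_pos y).le)]
  exact (mul_le_of_le_one_right (h0 y) (li_rho_le_one y)).trans (h1 y)

lemma int_Wsq [IsFiniteMeasure μ] (hW : Tube0 W c K) :
    Integrable (fun y => W y ^ 2 * rho y) μ :=
  li_integrable (hW.cont.pow 2).aestronglyMeasurable (C := K ^ 2) (fun _ => sq_nonneg _) fun y => by
    rw [← sq_abs]; exact pow_le_pow_left₀ (abs_nonneg _) (hW.b0 y) 2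

lemma int_tgsq [IsFiniteMeasure μ] (hW : Tube0 W c K) (hS : Slice m μ T H) :
    Integrable (fun y => tg T W y ^ 2 * rho y) μ :=
  li_integrable ((tg_meas hS hW.li_cd1).pow 2) (C := K ^ 2) (fun _ => sq_nonneg _) fun y =>
    pow_le_pow_left₀ (tg_nonneg T W y) ((norm_proj_apply_le _ _).trans (hW.b1 y)) 2

lemma int_velsq (hS : GSlice m μ T H) : Integrable (fun y => ‖vel T H y‖ ^ 2 * rho y) μ := by
  simpa using hS.vsq 0

lemma DD_zero_eq : DD μ W 0 = ∫ y, W y ^ 2 * rho y ∂μ := by simp [DD]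

lemma TG_zero_eq : TG μ T W 0 = ∫ y, tg T W y ^ 2 * rho y ∂μ := by simp [TG, wt, tg]

/-- the integrand of the total error -/
noncomputable def e0 (T : E → Submodule ℝ E) (H : E → E) (W : E → ℝ) (y : E) : ℝ :=
  W y ^ 2 * rho y + tg T W y ^ 2 * rho y + ‖vel T H y‖ ^ 2 * rho y

lemma e0_nonneg (y : E) : 0 ≤ e0 T H W y := by
  have := rho_pos y
  unfold e0; positivity

lemma e0_int [IsFiniteMeasure μ] (hW : Tube0 W c K) (hS : GSlice m μ T H) :
    Integrable (e0 T H W) μ :=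
  ((int_Wsq hW).add (int_tgsq hW hS.toSlice)).add (int_velsq hS)

lemma integral_e0 [IsFiniteMeasure μ] (hW : Tube0 W c K) (hS : GSlice m μ T H) :
    ∫ y, e0 T H W y ∂μ = DD μ W 0 + TG μ T W 0 + dis μ T H := by
  have h : Integrable (fun y => W y ^ 2 * rho y + tg T W y ^ 2 * rho y) μ :=
    (int_Wsq hW).add (int_tgsq hW hS.toSlice)
  unfold e0
  rw [integral_add h (int_velsq hS),
    integral_add (int_Wsq hW) (int_tgsq hW hS.toSlice), DD_zero_eq, TG_zero_eq]
  rfl

lemma ex_mul_le {y : E} {R : ℝ} (hy : ‖y‖ ≤ R) :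
    ex T H W y * rho y ≤ (1 + R ^ 2) * e0 T H W y := by
  have h1 : ‖y‖ ^ 2 ≤ R ^ 2 := pow_le_pow_left₀ (norm_nonneg _) hy 2
  have h2 : ex T H W y ≤ (1 + R ^ 2) * (W y ^ 2 + tg T W y ^ 2 + ‖vel T H y‖ ^ 2) := by
    unfold ex xs
    have a1 : ‖y‖ ^ 2 * tg T W y ^ 2 ≤ R ^ 2 * tg T W y ^ 2 := by gcongr
    have a2 : 0 ≤ R ^ 2 * W y ^ 2 := by positivity
    have a3 : 0 ≤ R ^ 2 * ‖vel T H y‖ ^ 2 := by positivity
    linarith
  calc _ ≤ (1 + R ^ 2) * (W y ^ 2 + tg T W y ^ 2 + ‖vel T H y‖ ^ 2) * rho y :=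
        mul_le_mul_of_nonneg_right h2 (rho_pos y).le
    _ = _ := by unfold e0; ring

lemma ex_ball_le [IsFiniteMeasure μ] (hW : Tube0 W c K) (hS : GSlice m μ T H) {R : ℝ} {p : E}
    (hp : ‖p‖ ≤ R + 1) : ∫ y in closedBall p 2, ex T H W y ∂μ
      ≤ (1 + (R + 3) ^ 2) * Real.exp ((R + 3) ^ 2 / 4) * ∫ y, e0 T H W y ∂μ := by
  have hprop : ProperSpace E := FiniteDimensional.proper_real E
  rw [← integral_const_mul]
  have hi := (e0_int hW hS).const_mul ((1 + (R + 3) ^ 2) * Real.exp ((R + 3) ^ 2 / 4))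
  refine le_trans (setIntegral_mono_on (ex_integrableOn hS.toSlice hW.li_cd1
    (isCompact_closedBall p 2)) hi.integrableOn measurableSet_closedBall fun y hy => ?_)
    (setIntegral_le_integral hi (Eventually.of_forall fun y => ?_))
  · have h1 : ‖y‖ ≤ R + 3 := by
      rw [mem_closedBall, dist_eq_norm] at hy
      have := norm_sub_norm_le y p
      linarith
    have h2 := ex_mul_le (T := T) (H := H) (W := W) h1
    have h3 : 1 ≤ Real.exp ((R + 3) ^ 2 / 4) * rho y := by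
      unfold rho
      rw [← Real.exp_add]
      refine Real.one_le_exp ?_
      have := pow_le_pow_left₀ (norm_nonneg _) h1 2
      linarith
    calc ex T H W y ≤ ex T H W y * (Real.exp ((R + 3) ^ 2 / 4) * rho y) :=
          le_mul_of_one_le_right (ex_nonneg y) h3
      _ = Real.exp ((R + 3) ^ 2 / 4) * (ex T H W y * rho y) := by ring
      _ ≤ Real.exp ((R + 3) ^ 2 / 4) * ((1 + (R + 3) ^ 2) * e0 T H W y) := by gcongr
      _ = _ := by ring
  · have := e0_nonneg (T := T) (H := H) (W := W) y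
    positivity

lemma rho_cmp {R : ℝ} {y z : E} (hy : y ∈ closedBall (0:E) R) (hz : z ∈ closedBall y 1) :
    rho z ≤ Real.exp ((2 * R + 1) / 4) * rho y ∧ rho y ≤ Real.exp ((2 * R + 1) / 4) * rho z := by
  rw [mem_closedBall_zero_iff] at hy
  rw [mem_closedBall, dist_eq_norm] at hz
  have h1 := abs_le.1 ((abs_norm_sub_norm_le z y).trans hz)
  have h2 := norm_nonneg y
  have h3 := norm_nonneg z
  unfold rho
  rw [← Real.exp_add, ← Real.exp_add]
  constructor <;> refine Real.exp_le_exp.2 ?_ <;> nlinarith [h1.1, h1.2]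

/-- the comparison with a cut-off radius -/
theorem Par.core (hE : Module.finrank ℝ E = m + 1)
    (hP : Par m k (P214.BES.nB E) c K C₀ β δ r₀ Λ M s τ)
    (hW : Tube0 W c K) (hS : GSlice m μ T H) [IsFiniteMeasure μ]
    (hratio : ∀ (x : E) (r : ℝ), 0 < r → r ≤ 1 → μ.real (closedBall x r) ≤ C₀ * r ^ m)
    (hI : IntSl m μ T)
    (hnear : ∀ p, W p = 0 → ‖p‖ ≤ K → JJ m μ (fun _ => 1) p r₀ ≤ (k + 1 / 2) * om m)
    {R ε b : ℝ} (hε : DD μ W 0 + TG μ T W 0 + dis μ T H ≤ ε)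
    (hτ : (1 + (R + 3) ^ 2) * Real.exp ((R + 3) ^ 2 / 4) * ε ≤ τ) (hb0 : 0 ≤ b)
    (hb : ∫⁻ y in (closedBall (0:E) R)ᶜ, ENNReal.ofReal (rho y) ∂μ ≤ ENNReal.ofReal b) :
    FA μ ≤ k * FA (sig m W) + ((∫ y in {y | |W y| < c}, Tube0.fo W y * rho y ∂μ)
      + (1 + m + 18 * m * K ^ 2) * (TG μ T W 0 + DD μ W 0))
      + (K ^ 2 / δ ^ 2 + P214.BES.nB E * (C₀ / β ^ 2 * Real.exp ((2 * R + 1) / 4) ^ 2))
        * ((1 + (R + 1) ^ 2) * ε) + b := by
  obtain ⟨θ, hθ, htan, hB⟩ := hI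
  have hSl := hS.toSlice
  have hC := hP.C0
  have hK := hW.K_nonneg
  rw [← integral_e0 hW hS] at hε
  have hε0 : 0 ≤ ε := (integral_nonneg fun y => e0_nonneg y).trans hε
  have hch : ∀ q, W q = 0 → ‖q‖ ≤ R + 1 → JJ m μ (fun _ => 1) q r₀ ≤ (k + 1 / 2) * om m :=
    fun q h1 h2 => hP.chain hE hW hSl hratio hθ htan hB (R := R + 1) (fun p hp =>
      (ex_ball_le hW hS hp).trans (le_trans (by gcongr) hτ)) hnear h1 h2
  set ν := μ.withDensity (fun y => ENNReal.ofReal (rho y)) with hν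
  set bad : Set E := {y | y ∈ closedBall (0:E) R ∧ ¬ Good m μ T H W θ K β δ r₀ y} with hbad
  set B : ℝ := K ^ 2 / δ ^ 2 + P214.BES.nB E * (C₀ / β ^ 2 * Real.exp ((2 * R + 1) / 4) ^ 2)
    with hB'
  have hB0 : 0 ≤ B := by positivity
  have hbad1 : ν bad ≤ ENNReal.ofReal (B * ((1 + (R + 1) ^ 2) * ε)) := by
    refine (bad_le hP hW hSl hratio htan li_rho_cont (fun y => (rho_pos y).le)
      (Real.exp_pos _).le (fun y hy z hz => rho_cmp hy hz)).trans ?_
    rw [ENNReal.ofReal_mul hB0]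
    refine mul_le_mul_right ?_ _
    calc ∫⁻ y in closedBall (0:E) (R + 1), ENNReal.ofReal (ex T H W y * rho y) ∂μ
        ≤ ∫⁻ y in closedBall (0:E) (R + 1), ENNReal.ofReal ((1 + (R + 1) ^ 2) * e0 T H W y) ∂μ := by
          refine lintegral_mono_ae ?_
          filter_upwards [ae_restrict_mem measurableSet_closedBall] with y hy
          exact ENNReal.ofReal_le_ofReal (ex_mul_le (mem_closedBall_zero_iff.1 hy))
      _ ≤ ∫⁻ y, ENNReal.ofReal ((1 + (R + 1) ^ 2) * e0 T H W y) ∂μ := setLIntegral_le_lintegral _ _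
      _ = ENNReal.ofReal (∫ y, (1 + (R + 1) ^ 2) * e0 T H W y ∂μ) :=
          (ofReal_integral_eq_lintegral_ofReal ((e0_int hW hS).const_mul _)
            (Eventually.of_forall fun y => mul_nonneg (by positivity) (e0_nonneg y))).symm
      _ ≤ _ := by
          rw [integral_const_mul]
          exact ENNReal.ofReal_le_ofReal (by gcongr)
  have hdim : ν {y | ¬ Module.finrank ℝ (T y) = m} = 0 :=
    withDensity_absolutelyContinuous μ _ (ae_iff.1 hSl.mc.dim)
  set N := toMeasurable ν (bad ∪ {y | ¬ Module.finrank ℝ (T y) = m}) with hN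
  have hNm : MeasurableSet N := measurableSet_toMeasurable _ _
  have hN1 : ν N ≤ ENNReal.ofReal (B * ((1 + (R + 1) ^ 2) * ε)) := by
    rw [hN, measure_toMeasurable]
    refine (measure_union_le _ _).trans ?_
    rw [hdim, add_zero]; exact hbad1
  set G := closedBall (0:E) R \ N with hG
  have hGm : MeasurableSet G := measurableSet_closedBall.diff hNm
  have hgood : ∀ y ∈ G, Good m μ T H W θ K β δ r₀ y := fun y hy => by
    by_contra h
    exact hy.2 (subset_toMeasurable _ _ (Or.inl ⟨hy.1, h⟩))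
  have hrk : ∀ y ∈ G, Module.finrank ℝ (T y) = m := fun y hy => by
    by_contra h
    exact hy.2 (subset_toMeasurable _ _ (Or.inr h))
  set C₁ : ℝ := 1 + m + 18 * m * K ^ 2 with hC₁
  have hC₁0 : 0 ≤ C₁ := by positivity
  set u : E → ℝ := fun y => {y | |W y| < c}.indicator (fun y => Tube0.fo W y * rho y) y
    + C₁ * (tg T W y ^ 2 * rho y + W y ^ 2 * rho y) with hu
  have hi1 : Integrable ({y | |W y| < c}.indicator fun y => Tube0.fo W y * rho y) μ :=
    (li_integrable hW.fo_cont.aestronglyMeasurable Tube0.fo_nonneg hW.li_fo_le).indicator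
      hW.isOpen.measurableSet
  have hi2 : Integrable (fun y => C₁ * (tg T W y ^ 2 * rho y + W y ^ 2 * rho y)) μ :=
    ((int_tgsq hW hSl).add (int_Wsq hW)).const_mul C₁
  have hui : Integrable u μ := hi1.add hi2
  have hu0 : ∀ y, 0 ≤ u y := fun y => by
    have := rho_pos y
    exact add_nonneg (indicator_nonneg (fun z _ => mul_nonneg (Tube0.fo_nonneg z) (rho_pos z).le) y)
      (by positivity)
  have huI : ∫ y, u y ∂μ = (∫ y in {y | |W y| < c}, Tube0.fo W y * rho y ∂μ)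
      + C₁ * (TG μ T W 0 + DD μ W 0) := by
    simp only [hu]
    rw [integral_add hi1 hi2, integral_indicator hW.isOpen.measurableSet, integral_const_mul,
      integral_add (int_tgsq hW hSl) (int_Wsq hW), DD_zero_eq, TG_zero_eq]
  have harea := area_le' hθ hB hW.contDiff_foot hGm (S := {z | W z = 0})
    hW.isClosed.measurableSet
    (fun y hy => (hgood y hy).foot_zero hP hW) (fun y hy => ⟨(hgood y hy).one, (hgood y hy).tan⟩)
    (fun y hy => hW.norm_fderiv_foot ((hgood y hy).lt_c hP) (by linarith [(hgood y hy).w, hP.δ1]))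
    (fun y hy z hz => hW.foot_inj ((hgood y hy).lt_c hP) hz ((hgood y hy).e.trans hP.δ1)
      ((hgood y hy).w.trans hP.δ1)) (k := k)
    (fun Y q hY => fibre_le hE hP hW hSl hratio Y q fun y hy => ⟨hgood y (hY y hy).1, (hY y hy).2, by
      have g := hgood y (hY y hy).1
      have a1 := JJ_shift (m := m) (μ := μ) (h := fun _ => 1) continuous_const
        (fun _ => zero_le_one) (fun _ => le_rfl) hP.r0 y (foot W y) (hratio y r₀ hP.r0 hP.r1)
      have a2 : ‖y - foot W y‖ ≤ δ := by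
        rw [norm_sub_rev, hW.norm_foot_sub (g.lt_c hP)]; exact g.abs_le hP
      have a3 : 4 * C₀ * (‖y - foot W y‖ / r₀) ≤ 4 * C₀ * (δ / r₀) := by
        have := hP.r0
        gcongr
      have a4 : ‖y‖ ≤ R := mem_closedBall_zero_iff.1 (hY y hy).1.1
      have a5 := norm_sub_norm_le (foot W y) y
      rw [norm_sub_rev] at a5
      have a6 := hch (foot W y) (g.foot_zero hP hW) (by linarith [hP.δ1])
      linarith [hP.d2]⟩)
    (w := fun y => ENNReal.ofReal (rho y - u y)) (g := fun z => ENNReal.ofReal (rho z))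
    (li_rho_cont.aemeasurable.sub hui.aemeasurable).ennreal_ofReal
    li_rho_cont.measurable.ennreal_ofReal (fun y hy ι hι => by
      have g := hgood y hy
      rw [← ENNReal.ofReal_mul (rho_pos _).le]
      refine ENNReal.ofReal_le_ofReal (le_trans (le_of_eq ?_)
        (hW.rho_le hE (g.lt_c hP) (hrk y hy) hι (g.e.trans hP.δ1) (g.w.trans hP.δ1)))
      simp only [hu]
      rw [indicator_of_mem (show y ∈ {y | |W y| < c} from g.lt_c hP)]
      unfold tg
      ring)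
  have hsig : ∫⁻ p in {z | W z = 0}, ENNReal.ofReal (rho p) ∂μH[m]
      = ENNReal.ofReal (FA (sig m W)) :=
    (ofReal_integral_eq_lintegral_ofReal (hW.integrable_rho_sig hE)
      (Eventually.of_forall fun y => (rho_pos y).le)).symm
  rw [hsig] at harea
  have hFA0 : 0 ≤ FA (sig m W) := integral_nonneg fun y => (rho_pos y).le
  have hG1 : ν G ≤ ENNReal.ofReal (k * FA (sig m W) + ∫ y, u y ∂μ) := by
    rw [hν, withDensity_apply _ hGm]
    calc ∫⁻ y in G, ENNReal.ofReal (rho y) ∂μ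
        ≤ ∫⁻ y in G, (ENNReal.ofReal (rho y - u y) + ENNReal.ofReal (u y)) ∂μ := by
          refine lintegral_mono fun y => le_trans (le_of_eq ?_) ENNReal.ofReal_add_le
          rw [sub_add_cancel]
      _ = ∫⁻ y in G, ENNReal.ofReal (rho y - u y) ∂μ + ∫⁻ y in G, ENNReal.ofReal (u y) ∂μ :=
          lintegral_add_right' _ hui.aemeasurable.ennreal_ofReal.restrict
      _ ≤ k * ENNReal.ofReal (FA (sig m W)) + ∫⁻ y, ENNReal.ofReal (u y) ∂μ :=
          add_le_add harea (setLIntegral_le_lintegral _ _)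
      _ = _ := by
          rw [← ofReal_integral_eq_lintegral_ofReal hui (Eventually.of_forall hu0),
            ENNReal.ofReal_add (by positivity) (integral_nonneg hu0),
            ENNReal.ofReal_mul (Nat.cast_nonneg _), ENNReal.ofReal_natCast]
  have htot : ν univ ≤ ENNReal.ofReal (k * FA (sig m W) + ∫ y, u y ∂μ
      + B * ((1 + (R + 1) ^ 2) * ε) + b) := by
    have hu1 : 0 ≤ ∫ y, u y ∂μ := integral_nonneg hu0
    calc ν univ ≤ ν (G ∪ N ∪ (closedBall (0:E) R)ᶜ) := measure_mono fun y _ => by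
          by_cases h1 : y ∈ closedBall (0:E) R
          · by_cases h2 : y ∈ N
            · exact Or.inl (Or.inr h2)
            · exact Or.inl (Or.inl ⟨h1, h2⟩)
          · exact Or.inr h1
      _ ≤ ν G + ν N + ν (closedBall (0:E) R)ᶜ :=
          (measure_union_le _ _).trans (by gcongr; exact measure_union_le _ _)
      _ ≤ _ := by
          rw [ENNReal.ofReal_add (by positivity) hb0,
            ENNReal.ofReal_add (by positivity) (by positivity)]
          refine add_le_add (add_le_add hG1 hN1) ?_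
          rw [hν, withDensity_apply _ measurableSet_closedBall.compl]
          exact hb
  rw [← huI]
  have hu1 : 0 ≤ ∫ y, u y ∂μ := integral_nonneg hu0
  rw [hν, withDensity_apply _ MeasurableSet.univ, Measure.restrict_univ] at htot
  unfold FA at htot ⊢
  rw [integral_eq_lintegral_of_nonneg_ae (Eventually.of_forall fun y => (rho_pos y).le)
    li_rho_cont.aestronglyMeasurable]
  exact ENNReal.toReal_le_of_le_ofReal (by unfold FA at hFA0; positivity) htot

lemma tendsto_poly_exp {a : ℝ} (ha : 0 < a) (b d : ℝ) :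
    Tendsto (fun R : ℝ => (1 + (R + 3) ^ 2) * Real.exp (d + b * R - a * R ^ 2)) atTop (𝓝 0) := by
  have h1 : Tendsto (fun R : ℝ => (6 + d) + R * ((b + 2) + -a * R)) atTop atBot :=
    tendsto_atBot_add_const_left _ _ (tendsto_id.atTop_mul_atBot₀
      (tendsto_atBot_add_const_left _ _ (tendsto_id.const_mul_atTop_of_neg (by linarith))))
  refine squeeze_zero' (Eventually.of_forall fun R => by positivity) ?_
    (Real.tendsto_exp_atBot.comp h1)
  filter_upwards [eventually_ge_atTop 0] with R hR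
  have h2 : 1 + (R + 3) ^ 2 ≤ Real.exp (R + 3) ^ 2 := by
    have := pow_le_pow_left₀ (by linarith) (Real.add_one_le_exp (R + 3)) 2
    nlinarith
  calc _ ≤ Real.exp (R + 3) ^ 2 * Real.exp (d + b * R - a * R ^ 2) := by gcongr
    _ = _ := by
      rw [sq, ← Real.exp_add, ← Real.exp_add, Function.comp_apply]
      congr 1; ring

lemma exists_radius {γ τ : ℝ} (h0 : 0 < γ) (h1 : γ < 1) (hτ : 0 < τ) :
    ∃ ε₁, 0 < ε₁ ∧ ∀ ε, 0 < ε → ε ≤ ε₁ → ∃ R, 0 ≤ R ∧
      (1 + (R + 3) ^ 2) * Real.exp ((R + 3) ^ 2 / 4) * ε ≤ τ ∧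
      Real.exp ((2 * R + 1) / 4) ^ 2 * ((1 + (R + 1) ^ 2) * ε) ≤ ε ^ γ ∧
      Real.exp (-(2 * γ / (1 + γ) * R ^ 2 / 4)) ≤ ε ^ γ := by
  set a : ℝ := 1 / (2 * (1 + γ)) with ha
  have ha0 : 0 < a := by positivity
  have ha1 : 0 < a - 1 / 4 := by
    rw [ha, sub_pos, div_lt_div_iff₀ (by norm_num) (by positivity)]; linarith
  have e1 := (tendsto_poly_exp ha1 (3 / 2) (9 / 4)).eventually (gt_mem_nhds hτ)
  have e2 := (tendsto_poly_exp (a := (1 - γ) * a) (mul_pos (by linarith) ha0) 1 (1 / 2)).eventually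
    (gt_mem_nhds one_pos)
  obtain ⟨R₁, hR₁⟩ := eventually_atTop.1 (e1.and (e2.and (eventually_ge_atTop 0)))
  have hR₁0 : 0 ≤ R₁ := (hR₁ R₁ le_rfl).2.2
  refine ⟨Real.exp (-(a * R₁ ^ 2)), Real.exp_pos _, fun ε hε hε1 => ?_⟩
  have hl : Real.log ε ≤ -(a * R₁ ^ 2) := by rwa [Real.log_le_iff_le_exp hε]
  have hl2 : R₁ ^ 2 ≤ -Real.log ε / a := by rw [le_div_iff₀ ha0]; linarith
  set R := √(-Real.log ε / a) with hR
  have hR2 : R ^ 2 = -Real.log ε / a := Real.sq_sqrt ((sq_nonneg _).trans hl2)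
  have hRR : R₁ ≤ R := Real.le_sqrt_of_sq_le hl2
  have hlog : Real.log ε = -(a * R ^ 2) := by rw [hR2]; field_simp
  have hεe : ε = Real.exp (-(a * R ^ 2)) := by rw [← hlog, Real.exp_log hε]
  have hεγ : ε ^ γ = Real.exp (-(a * R ^ 2) * γ) := by rw [Real.rpow_def_of_pos hε, hlog]
  obtain ⟨b1, b2, b3⟩ := hR₁ R hRR
  refine ⟨R, b3, le_trans (le_of_eq ?_) b1.le, ?_, le_of_eq ?_⟩
  · conv_lhs => rw [hεe]
    rw [mul_assoc, ← Real.exp_add]
    congr 2; ring
  · have b4 : 1 + (R + 1) ^ 2 ≤ 1 + (R + 3) ^ 2 := by nlinarith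
    calc _ ≤ Real.exp ((2 * R + 1) / 4) ^ 2 * ((1 + (R + 3) ^ 2) * ε) := by gcongr
      _ = (1 + (R + 3) ^ 2) * Real.exp (1 / 2 + 1 * R - (1 - γ) * a * R ^ 2) * ε ^ γ := by
          rw [hεγ]
          conv_lhs => rw [hεe]
          rw [sq, ← Real.exp_add, mul_left_comm, ← Real.exp_add, mul_assoc, ← Real.exp_add]
          congr 2; ring
      _ ≤ 1 * ε ^ γ := mul_le_mul_of_nonneg_right b2.le (Real.rpow_nonneg hε.le _)
      _ = _ := one_mul _
  · rw [hεγ, ha]
    congr 1; field_simp; ring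

/-- Gaussian tails -/
lemma exists_tail (E : Type*) [NormedAddCommGroup E] [InnerProductSpace ℝ E]
    [FiniteDimensional ℝ E] [MeasurableSpace E] [BorelSpace E] {g C₀ : ℝ} (hg0 : 0 ≤ g)
    (hg : g < 1) : ∃ C, 0 ≤ C ∧ ∀ (μ : Measure E) [IsFiniteMeasure μ],
      (∀ x, μ.real (closedBall x 1) ≤ C₀) → ∀ R, 0 ≤ R →
      ∫⁻ y in (closedBall (0:E) R)ᶜ, ENNReal.ofReal (rho y) ∂μ
        ≤ ENNReal.ofReal (Real.exp (-(g * R ^ 2 / 4)) * C) ∧ FA μ ≤ C := by
  obtain ⟨C, hC, h⟩ := exists_gauss_bound E (a := (1 - g) / 4) (r := 1) (by linarith) one_pos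
  have hne : C * ENNReal.ofReal C₀ ≠ ⊤ := ENNReal.mul_ne_top hC ENNReal.ofReal_ne_top
  refine ⟨(C * ENNReal.ofReal C₀).toReal, ENNReal.toReal_nonneg, fun μ _ hμ R hR => ?_⟩
  have h1 := h μ (ENNReal.ofReal C₀) fun x => by
    rw [← ENNReal.ofReal_toReal (measure_ne_top μ (closedBall x 1))]
    exact ENNReal.ofReal_le_ofReal (hμ x)
  constructor
  · rw [ENNReal.ofReal_mul (Real.exp_pos _).le, ENNReal.ofReal_toReal hne]
    refine le_trans ?_ (mul_le_mul_right h1 _)
    rw [← lintegral_const_mul' _ _ ENNReal.ofReal_ne_top]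
    refine le_trans (lintegral_mono_ae ?_) (setLIntegral_le_lintegral (closedBall (0:E) R)ᶜ _)
    filter_upwards [ae_restrict_mem measurableSet_closedBall.compl] with y hy
    rw [← ENNReal.ofReal_mul (Real.exp_pos _).le, ← Real.exp_add]
    refine ENNReal.ofReal_le_ofReal (Real.exp_le_exp.2 ?_)
    rw [mem_compl_iff, mem_closedBall_zero_iff, not_le] at hy
    have a1 : g * R ^ 2 ≤ g * ‖y‖ ^ 2 := by gcongr
    linarith
  · unfold FA
    rw [integral_eq_lintegral_of_nonneg_ae (Eventually.of_forall fun y => (rho_pos y).le)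
      li_rho_cont.aestronglyMeasurable]
    refine ENNReal.toReal_mono hne (le_trans (lintegral_mono fun y => ?_) h1)
    refine ENNReal.ofReal_le_ofReal (Real.exp_le_exp.2 ?_)
    have a1 : 0 ≤ g * ‖y‖ ^ 2 := by positivity
    linarith

/-- **The energy comparison.** -/
theorem energy_cmp (hE : Module.finrank ℝ E = m + 1) (k : ℕ) {c C₀ γ : ℝ} (K : ℝ) (hc : 0 < c)
    (hC : 0 < C₀) (hγ0 : 0 < γ) (hγ1 : γ < 1) :
    ∃ r₁, 0 < r₁ ∧ ∀ r₀, 0 < r₀ → r₀ ≤ r₁ → ∃ C, 0 ≤ C ∧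
      ∀ (W : E → ℝ) (μ : Measure E) (T : E → Submodule ℝ E) (H : E → E), Tube0 W c K →
      IsFiniteMeasure μ → GSlice m μ T H → IntSl m μ T →
      (∀ (x : E) (r : ℝ), 0 < r → r ≤ 1 → μ.real (closedBall x r) ≤ C₀ * r ^ m) →
      (∀ p, W p = 0 → ‖p‖ ≤ max K 1 → JJ m μ (fun _ => 1) p r₀ ≤ (k + 1 / 2) * om m) →
      FA μ ≤ k * FA (sig m W) + C * ((DD μ W 0 + TG μ T W 0 + dis μ T H) ^ γ + DD μ W 0
        + TG μ T W 0 + ∫ y in {y | |W y| < c}, Tube0.fo W y * rho y ∂μ) := by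
  obtain ⟨r₁, hr₁, h⟩ := exists_par m k (P214.BES.nB E) hc (le_max_right K 1) hC
  refine ⟨r₁, hr₁, fun r₀ h0 h1 => ?_⟩
  obtain ⟨β, δ, Λ, M, s, τ, hP⟩ := h r₀ h0 h1
  obtain ⟨ε₁, hε₁, hR⟩ := exists_radius hγ0 hγ1 hP.τ0
  obtain ⟨Cg, hCg, htail⟩ := exists_tail E (g := 2 * γ / (1 + γ)) (C₀ := C₀) (by positivity)
    (by rw [div_lt_one (by positivity)]; linarith)
  set K' := max K 1 with hK'
  set A : ℝ := K' ^ 2 / δ ^ 2 + P214.BES.nB E * (C₀ / β ^ 2) + Cg + Cg / ε₁ ^ γ with hA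
  set C₁ : ℝ := 1 + m + 18 * m * K' ^ 2 with hC₁
  have hA0 : 0 ≤ A := by positivity
  have hC₁1 : 1 ≤ C₁ := by rw [hC₁, add_assoc]; exact le_add_of_nonneg_right (by positivity)
  refine ⟨A + C₁, by positivity, fun W μ T H hW hfin hS hI hratio hnear => ?_⟩
  have hW' : Tube0 W c K' := hW.mono_K (le_max_left _ _)
  have ht := htail μ fun x => by simpa using hratio x 1 one_pos le_rfl
  set FO := ∫ y in {y | |W y| < c}, Tube0.fo W y * rho y ∂μ with hFO
  have hFO0 : 0 ≤ FO := integral_nonneg fun y => mul_nonneg (Tube0.fo_nonneg y) (rho_pos y).le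
  have hDD : 0 ≤ DD μ W 0 := by
    rw [DD_zero_eq]; exact integral_nonneg fun y => mul_nonneg (sq_nonneg _) (rho_pos y).le
  have hTG : 0 ≤ TG μ T W 0 := by
    rw [TG_zero_eq]; exact integral_nonneg fun y => mul_nonneg (sq_nonneg _) (rho_pos y).le
  have hFA0 : 0 ≤ FA (sig m W) := integral_nonneg fun y => (rho_pos y).le
  set E₀ := DD μ W 0 + TG μ T W 0 + dis μ T H with hE₀
  have hE0 : 0 ≤ E₀ := by
    rw [hE₀, ← integral_e0 hW hS]; exact integral_nonneg fun y => e0_nonneg y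
  have key : ∀ ε, 0 < ε → E₀ ≤ ε →
      FA μ ≤ k * FA (sig m W) + (FO + C₁ * (TG μ T W 0 + DD μ W 0)) + A * ε ^ γ := by
    intro ε hε hε'
    have hp : 0 < ε ^ γ := Real.rpow_pos_of_pos hε _
    have hp1 : 0 < ε₁ ^ γ := Real.rpow_pos_of_pos hε₁ _
    by_cases hsm : ε ≤ ε₁
    · obtain ⟨R, a0, a1, a2, a3⟩ := hR ε hε hsm
      have a4 := hP.core hE hW' hS hratio hI hnear hε' a1 (by positivity) (ht R a0).1
      have a5 : (1 + (R + 1) ^ 2) * ε ≤ ε ^ γ := le_trans (le_mul_of_one_le_left (by positivity)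
        (one_le_pow₀ (Real.one_le_exp (by positivity)))) a2
      have a6 : K' ^ 2 / δ ^ 2 * ((1 + (R + 1) ^ 2) * ε) ≤ K' ^ 2 / δ ^ 2 * ε ^ γ := by gcongr
      have a7 : P214.BES.nB E * (C₀ / β ^ 2) * (Real.exp ((2 * R + 1) / 4) ^ 2
          * ((1 + (R + 1) ^ 2) * ε)) ≤ P214.BES.nB E * (C₀ / β ^ 2) * ε ^ γ := by gcongr
      have a8 : Real.exp (-(2 * γ / (1 + γ) * R ^ 2 / 4)) * Cg ≤ ε ^ γ * Cg := by gcongr
      have a9 : 0 ≤ Cg / ε₁ ^ γ * ε ^ γ := by positivity
      rw [hA]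
      linarith
    · have a1 : ε₁ ^ γ ≤ ε ^ γ := Real.rpow_le_rpow hε₁.le (not_le.1 hsm).le hγ0.le
      have a2 : Cg ≤ Cg / ε₁ ^ γ * ε ^ γ := by
        rw [div_mul_eq_mul_div, le_div_iff₀ hp1]; gcongr
      have a3 : Cg / ε₁ ^ γ * ε ^ γ ≤ A * ε ^ γ := by
        refine mul_le_mul_of_nonneg_right ?_ hp.le
        rw [hA]; exact le_add_of_nonneg_left (by positivity)
      have a4 := (ht 0 le_rfl).2
      have a5 : 0 ≤ k * FA (sig m W) + (FO + C₁ * (TG μ T W 0 + DD μ W 0)) := by positivity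
      linarith
  have key2 : FA μ ≤ k * FA (sig m W) + (FO + C₁ * (TG μ T W 0 + DD μ W 0)) + A * E₀ ^ γ := by
    have t1 : Tendsto (fun ε : ℝ => k * FA (sig m W) + (FO + C₁ * (TG μ T W 0 + DD μ W 0))
        + A * ε ^ γ) (𝓝[>] E₀) (𝓝 (k * FA (sig m W) + (FO + C₁ * (TG μ T W 0 + DD μ W 0))
        + A * E₀ ^ γ)) :=
      (((Real.continuousAt_rpow_const E₀ γ (Or.inr hγ0.le)).tendsto.mono_left
        nhdsWithin_le_nhds).const_mul A).const_add _
    refine ge_of_tendsto t1 ?_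
    filter_upwards [self_mem_nhdsWithin] with ε hε
    exact key ε (hE0.trans_lt hε) (le_of_lt hε)
  have hp : 0 ≤ E₀ ^ γ := Real.rpow_nonneg hE0 _
  have b1 : FO ≤ C₁ * FO := le_mul_of_one_le_left hFO0 hC₁1
  have b2 : 0 ≤ A * (DD μ W 0 + TG μ T W 0 + FO) := by positivity
  have b3 : 0 ≤ C₁ * E₀ ^ γ := by positivity
  linarith

end Vale.Agent.P218N.G
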