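import Vale.Agent.P218N.G.Top
import Vale.Agent.P218N.G.LIMain

/-! Uniqueness of the tangent flow from a model. -/

open MeasureTheory Set Filter Topology Metric
open scoped ENNReal NNReal RealInnerProductSpace

namespace Vale.Agent.P218N.G

open Vale.Agent.P218 Vale.Agent.P218.H313
open Vale.Agent.P218.H552 (NN)

variable {E : Type*} [NormedAddCommGroup E] [InnerProductSpace ℝ E] [FiniteDimensional ℝ E]
  [MeasurableSpace E] [BorelSpace E] {m : ℕ}

theorem energyCmp (hE : Module.finrank ℝ E = m + 1) : EnergyCmp E m := by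
  intro c K C₀ r₂ k hc hK hC hr hk
  obtain ⟨r₁, h1, h2⟩ := energy_cmp hE k (c := c) (C₀ := C₀ + 1) (γ := 3 / 4) K hc (by linarith)
    (by norm_num) (by norm_num)
  obtain ⟨C, h3, h4⟩ := h2 (min r₁ r₂) (lt_min h1 hr) (min_le_left _ _)
  refine ⟨min r₁ r₂, max K 1, C, 3 / 4, lt_min h1 hr, min_le_right _ _, h3, by norm_num,
    fun W μ T H a1 a2 a3 a4 a5 a6 => h4 W μ T H a1 a2 a3 a4 (fun x r b1 b2 => ?_) a6⟩
  exact (a5 x r b1 b2).trans (mul_le_mul_of_nonneg_right (by linarith) (by positivity))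

variable {P : Type*} [NormedAddCommGroup P] [NormedSpace ℝ P] {J : Type*} [Fintype J]
  {V : P → E → ℝ} {V' : P →ₗ[ℝ] (E → ℝ)} {psi : J → E → ℝ}
  {lam : P → J → ℝ} {c K : ℝ} {q : ℕ} {β : ℝ}

/-- **Uniqueness of the tangent flow from a model** -/
theorem unique_of_model [FiniteDimensional ℝ P] (hE : Module.finrank ℝ E = m + 1)
    (hM : Model m V V' psi lam c K q β) {μ : ℝ → Measure E}
    (hμ : IsIntegralBrakkeFlow m μ) (h0 : μ 0 univ < ⊤) (x₀ : E) {t₀ : ℝ} (ht : 0 < t₀)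
    {k : ℕ} (hk : 1 ≤ k) (hκ : (k : ℝ≥0∞) • sig m (V 0) ∈ tangentSlices m μ x₀ t₀)
    {M : Set (Measure E)} (hM' : ∀ᶠ τ in atTop, NN m μ x₀ t₀ τ ∈ M)
    (hSC : SC m M ((k : ℝ≥0∞) • sig m (V 0)) (V 0) c K q) : TangentFlowUnique m μ x₀ t₀ :=
  unique_of_model_of hE (energyCmp hE) hM hμ h0 x₀ ht hk hκ hM' hSC

/-- multiplicity one: no compactness hypothesis is needed -/
theorem unique_of_model_one [FiniteDimensional ℝ P] (hm : 0 < m)
    (hE : Module.finrank ℝ E = m + 1) (hM : Model m V V' psi lam c K q β) {μ : ℝ → Measure E}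
    (hμ : IsIntegralBrakkeFlow m μ) (h0 : μ 0 univ < ⊤) (x₀ : E) {t₀ : ℝ} (ht : 0 < t₀)
    (hκ : sig m (V 0) ∈ tangentSlices m μ x₀ t₀) : TangentFlowUnique m μ x₀ t₀ :=
  unique_of_model_one_of hm hE (energyCmp hE) hM hμ h0 x₀ ht hκ

end Vale.Agent.P218N.G
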