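import Vale.Agent.P218.H313.C2
import Vale.Agent.P218.H313.A1
import Vale.Agent.P218GA.Jac
import Vale.Agent.P214.AREA.Jac

/-! Energy comparison, part 1: integral slices and the area inequality for a `C¹` map whose
fibres carry total multiplicity at most `k`. -/

open MeasureTheory Set Filter Topology Metric
open scoped ENNReal NNReal RealInnerProductSpace

namespace Vale.Agent.P218N.G

open Vale.Agent.P214 (IntegralVarifold proj IsApproxTangent weightOf)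
open Vale.Agent.P218.H313

set_option linter.unusedSectionVars false
set_option linter.unusedVariables false

variable {E : Type*} [NormedAddCommGroup E] [InnerProductSpace ℝ E] [FiniteDimensional ℝ E]
  [MeasurableSpace E] [BorelSpace E]
variable {m : ℕ}

/-- what is used of integrality: integer multiplicity, approximate tangent planes -/
def IntSl (m : ℕ) (μ : Measure E) (T : E → Submodule ℝ E) : Prop :=
  ∃ θ : E → ℕ, Measurable θ ∧ (∀ᵐ y ∂μ, 1 ≤ θ y ∧ IsApproxTangent m μ y (θ y) (T y)) ∧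
    ∀ (q : ℕ) (B : Set E), MeasurableSet B → B ⊆ θ ⁻¹' {q} → μ B ≤ q * μH[m] B

/-- comparison of Hausdorff measures of two images -/
lemma hd_le {X Y Z : Type*} [Nonempty X] [MetricSpace Y] [MeasurableSpace Y] [BorelSpace Y]
    [MetricSpace Z] [MeasurableSpace Z] [BorelSpace Z] (B : Set X) (f : X → Y) (g : X → Z)
    {K : ℝ} (hK : 0 ≤ K)
    (h : ∀ y ∈ B, ∀ y' ∈ B, dist (g y) (g y') ≤ K * dist (f y) (f y')) (m : ℕ) :
    μH[m] (g '' B) ≤ ENNReal.ofReal (K ^ m) * μH[m] (f '' B) := by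
  classical
  set φ : Y → Z := fun p => g (Function.invFunOn f B p) with hφ
  have hl : LipschitzOnWith K.toNNReal φ (f '' B) := by
    refine LipschitzOnWith.of_dist_le_mul fun p hp p' hp' => ?_
    have h1 := h _ (Function.invFunOn_mem hp) _ (Function.invFunOn_mem hp')
    rw [Function.invFunOn_eq hp, Function.invFunOn_eq hp'] at h1
    rw [Real.coe_toNNReal _ hK]
    exact h1
  have hsub : g '' B ⊆ φ '' (f '' B) := by
    rintro _ ⟨y, hy, rfl⟩
    have hp : f y ∈ f '' B := ⟨y, hy, rfl⟩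
    refine ⟨f y, hp, ?_⟩
    have h1 := h _ (Function.invFunOn_mem hp) y hy
    rw [Function.invFunOn_eq hp, dist_self, mul_zero] at h1
    exact dist_le_zero.1 h1
  refine (measure_mono hsub).trans ((hl.hausdorffMeasure_image_le (Nat.cast_nonneg m)).trans ?_)
  rw [ENNReal.rpow_natCast, ENNReal.ofReal_pow hK]
  rfl

lemma continuous_int_shift {μ : Measure E} [IsFiniteMeasure μ] {f : E → ℝ} (hf : Continuous f)
    {C : ℝ} (h1 : ∀ z, |f z| ≤ C) (r : ℝ) : Continuous fun y => ∫ z, f (r⁻¹ • (z - y)) ∂μ := by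
  refine continuous_of_dominated (bound := fun _ => C) ?_ ?_ (integrable_const _) ?_
  · intro y
    exact (by fun_prop : Continuous fun z => f (r⁻¹ • (z - y))).aestronglyMeasurable
  · intro y
    exact Eventually.of_forall fun z => by rw [Real.norm_eq_abs]; exact h1 _
  · exact Eventually.of_forall fun z => by fun_prop

lemma integrable_shift {μ : Measure E} [IsFiniteMeasure μ] {f : E → ℝ} (hf : Continuous f)
    {C : ℝ} (h1 : ∀ z, |f z| ≤ C) (r : ℝ) (y : E) :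
    Integrable (fun z => f (r⁻¹ • (z - y))) μ :=
  Integrable.of_bound
    (by fun_prop : Continuous fun z => f (r⁻¹ • (z - y))).aestronglyMeasurable C
    (Eventually.of_forall fun z => by rw [Real.norm_eq_abs]; exact h1 _)

/-- test function of the complement of a thin cone -/
noncomputable def cf (Q : E →L[ℝ] E) (ε : ℝ) (z : E) : ℝ :=
  min 1 (max 0 (2 - ‖z‖)) * min 1 (max 0 (‖z - Q z‖ - ε * ‖z‖))

lemma cf_nonneg (Q : E →L[ℝ] E) (ε : ℝ) (z : E) : 0 ≤ cf Q ε z := by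
  unfold cf; positivity

lemma abs_cf_le (Q : E →L[ℝ] E) (ε : ℝ) (z : E) : |cf Q ε z| ≤ 1 := by
  rw [abs_of_nonneg (cf_nonneg Q ε z)]
  unfold cf
  have h1 : min 1 (max 0 (2 - ‖z‖)) ≤ 1 := min_le_left _ _
  have h2 : min 1 (max 0 (‖z - Q z‖ - ε * ‖z‖)) ≤ 1 := min_le_left _ _
  have h3 : 0 ≤ min 1 (max 0 (‖z - Q z‖ - ε * ‖z‖)) := by positivity
  nlinarith

lemma continuous_cf (Q : E →L[ℝ] E) (ε : ℝ) : Continuous (cf Q ε) := by
  unfold cf; fun_prop

lemma hasCompactSupport_cf (Q : E →L[ℝ] E) (ε : ℝ) : HasCompactSupport (cf Q ε) := by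
  refine HasCompactSupport.intro (isCompact_closedBall (0 : E) 2) ?_
  intro y hy
  rw [mem_closedBall, dist_zero_right, not_le] at hy
  unfold cf
  rw [max_eq_left (by linarith), min_eq_right zero_le_one, zero_mul]

lemma abs_ker_le (z : E) : |ker z| ≤ 1 := by
  rw [abs_of_nonneg (kern_nonneg z)]; exact kern_le_one z

/-- the points with a density bound and little mass outside a cone, at all small scales -/
def pc (m : ℕ) (μ : Measure E) (Q : E →L[ℝ] E) (ε δ : ℝ) : Set E :=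
  {y | ∀ r, 0 < r → r ≤ δ → om m / 2 * r ^ m ≤ ∫ z, ker (r⁻¹ • (z - y)) ∂μ ∧
    ∫ z, cf Q ε (r⁻¹ • (z - y)) ∂μ ≤ ε / 8 * om m * (ε / 3) ^ m * r ^ m}

lemma isClosed_pc (m : ℕ) (μ : Measure E) [IsFiniteMeasure μ] (Q : E →L[ℝ] E) (ε δ : ℝ) :
    IsClosed (pc m μ Q ε δ) := by
  unfold pc
  simp only [Set.ofPred_forall, Set.ofPred_and]
  refine isClosed_iInter fun r => isClosed_iInter fun h1 => isClosed_iInter fun h2 => ?_
  exact (isClosed_le continuous_const (continuous_int_shift continuous_kern abs_ker_le r)).inter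
    (isClosed_le (continuous_int_shift (continuous_cf Q ε) (abs_cf_le Q ε) r) continuous_const)

lemma cone_pc {μ : Measure E} [IsFiniteMeasure μ] {Q : E →L[ℝ] E} (hQ : ∀ z, ‖Q z‖ ≤ ‖z‖)
    {ε δ : ℝ} (hε : 0 < ε) (hε1 : ε ≤ 1) {y y' : E}
    (hy : y ∈ pc m μ Q ε δ) (hy' : y' ∈ pc m μ Q ε δ) (hd : ‖y' - y‖ ≤ δ) :
    ‖(y' - y) - Q (y' - y)‖ ≤ 3 * ε * ‖y' - y‖ := by
  by_contra hcon
  rw [not_le] at hcon
  set w := y' - y with hw
  have hw0 : 0 < ‖w‖ := by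
    rcases (norm_nonneg w).eq_or_lt with h | h
    · exfalso
      have : w = 0 := norm_eq_zero.1 h.symm
      rw [this] at hcon
      simp at hcon
    · exact h
  set ρ := ‖w‖ with hρ
  have hs0 : 0 < ε / 3 * ρ := by positivity
  have hsδ : ε / 3 * ρ ≤ δ := by nlinarith
  have key : ε / 2 * ∫ z, ker ((ε / 3 * ρ)⁻¹ • (z - y')) ∂μ ≤ ∫ z, cf Q ε (ρ⁻¹ • (z - y)) ∂μ := by
    rw [← integral_const_mul]
    refine integral_mono ((integrable_shift continuous_kern abs_ker_le _ _).const_mul _)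
      (integrable_shift (continuous_cf Q ε) (abs_cf_le Q ε) _ _) ?_
    intro z
    show ε / 2 * ker ((ε / 3 * ρ)⁻¹ • (z - y')) ≤ cf Q ε (ρ⁻¹ • (z - y))
    by_cases hz : ε / 3 * ρ ≤ dist z y'
    · rw [ker_scale_zero hs0 hz, mul_zero]
      exact cf_nonneg _ _ _
    · rw [not_le, dist_eq_norm] at hz
      set v := z - y' with hv
      have huv : z - y = w + v := by rw [hv, hw]; abel
      have hvv := norm_nonneg v
      have e0 : ‖w + v‖ ≤ ρ + ‖v‖ := norm_add_le _ _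
      have e1 : ‖ρ⁻¹ • (z - y)‖ = ‖w + v‖ / ρ := by
        rw [huv, norm_smul, norm_inv, Real.norm_of_nonneg hw0.le, div_eq_inv_mul]
      have e2 : ‖ρ⁻¹ • (z - y) - Q (ρ⁻¹ • (z - y))‖ = ‖w + v - Q (w + v)‖ / ρ := by
        rw [huv, map_smul, ← smul_sub, norm_smul, norm_inv, Real.norm_of_nonneg hw0.le,
          div_eq_inv_mul]
      have e3 : ‖w - Q w‖ ≤ ‖w + v - Q (w + v)‖ + 2 * ‖v‖ := by
        have : w - Q w = (w + v - Q (w + v)) - v + Q v := by rw [map_add]; abel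
        have h1 := hQ v
        calc ‖w - Q w‖ = ‖(w + v - Q (w + v)) - v + Q v‖ := by rw [← this]
          _ ≤ ‖(w + v - Q (w + v)) - v‖ + ‖Q v‖ := norm_add_le _ _
          _ ≤ ‖w + v - Q (w + v)‖ + ‖v‖ + ‖Q v‖ := by gcongr; exact norm_sub_le _ _
          _ ≤ _ := by linarith
      have e4 : 1 / 2 ≤ min 1 (max 0 (2 - ‖ρ⁻¹ • (z - y)‖)) := by
        refine le_min (by norm_num) (le_max_of_le_right ?_)
        have : ‖w + v‖ / ρ ≤ 3 / 2 := by rw [div_le_iff₀ hw0]; nlinarith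
        rw [e1]; linarith
      have e5 : ε ≤ min 1 (max 0 (‖ρ⁻¹ • (z - y) - Q (ρ⁻¹ • (z - y))‖ - ε * ‖ρ⁻¹ • (z - y)‖)) := by
        refine le_min hε1 (le_max_of_le_right ?_)
        rw [e1, e2, ← mul_div_assoc, ← sub_div, le_div_iff₀ hw0]
        have h1 : ε * ‖w + v‖ ≤ ε * (ρ + ‖v‖) := by gcongr
        have h2 : ε * ‖v‖ ≤ ‖v‖ := by nlinarith
        nlinarith
      have e6 := kern_le_one ((ε / 3 * ρ)⁻¹ • v)
      have e7 := kern_nonneg ((ε / 3 * ρ)⁻¹ • v)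
      unfold cf
      calc ε / 2 * ker ((ε / 3 * ρ)⁻¹ • v) ≤ 1 / 2 * ε := by nlinarith
        _ ≤ _ := mul_le_mul e4 e5 hε.le (by positivity)
  have h3 := (hy' _ hs0 hsδ).1
  have h4 := (hy _ hw0 hd).2
  have hom := om_pos m
  have h5 : ε / 2 * (om m / 2 * (ε / 3 * ρ) ^ m) ≤ ε / 8 * om m * (ε / 3) ^ m * ρ ^ m :=
    (mul_le_mul_of_nonneg_left h3 (by positivity)).trans (key.trans h4)
  rw [mul_pow] at h5
  have h7 : 0 < ε * om m * (ε / 3) ^ m * ρ ^ m := by positivity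
  nlinarith

lemma eventually_mem_pc {μ : Measure E} {Q : E →L[ℝ] E} {q : ℕ} (hq : 1 ≤ q) {y : E}
    {T : Submodule ℝ E} (hT : IsApproxTangent m μ y q T) {ε : ℝ} (hε : 0 < ε)
    (hM : ∀ z ∈ T, ‖z - Q z‖ ≤ ε * ‖z‖) :
    ∃ δ > 0, y ∈ pc m μ Q ε δ := by
  obtain ⟨hfin, hlim⟩ := hT
  have hom := om_pos m
  have h1 := hlim ker continuous_kern ker_compact
  have h2 := hlim (cf Q ε) (continuous_cf Q ε) (hasCompactSupport_cf Q ε)
  have e2 : ∫ z in (T : Set E), cf Q ε z ∂μH[m] = 0 := by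
    rw [setIntegral_congr_fun (g := fun _ => (0:ℝ))
      (Submodule.closed_of_finiteDimensional T).measurableSet (fun z hz => ?_)]
    · simp
    · unfold cf
      rw [max_eq_left (a := (0:ℝ)) (b := ‖z - Q z‖ - _) (by linarith [hM z hz]),
        min_eq_right zero_le_one, mul_zero]
  rw [A1.integral_ker_plane hfin] at h1
  rw [e2, mul_zero] at h2
  have hq' : (1:ℝ) ≤ q := by exact_mod_cast hq
  have h3 : om m / 2 < q * om m := by nlinarith
  have h3' : (0:ℝ) < ε / 8 * om m * (ε / 3) ^ m := by positivity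
  have h4 := (h1.eventually (lt_mem_nhds h3)).and (h2.eventually (gt_mem_nhds h3'))
  obtain ⟨δ, hδ, hδ2⟩ := (eventually_nhdsWithin_iff.1 h4 |> Metric.eventually_nhds_iff.1)
  refine ⟨δ / 2, by positivity, fun r hr hrk => ?_⟩
  have h6 := hδ2 (y := r) (by rw [Real.dist_eq, sub_zero, abs_of_pos hr]; linarith) hr
  have hrm : 0 < r ^ m := by positivity
  constructor
  · have := h6.1.le
    rwa [le_div_iff₀ hrm] at this
  · have := h6.2.le
    rwa [div_le_iff₀ hrm] at this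

/-- the parameter space -/
abbrev Rm (m : ℕ) := EuclideanSpace ℝ (Fin m)

/-- the Jacobian of `L` on the range of `ι` -/
noncomputable def jl (L : E →L[ℝ] E) (ι : Rm m →L[ℝ] E) : ℝ :=
  ((L.comp ι : Rm m →L[ℝ] E) : Rm m →ₗ[ℝ] E).normDet

lemma jl_nonneg (L : E →L[ℝ] E) (ι : Rm m →L[ℝ] E) : 0 ≤ jl L ι := LinearMap.normDet_nonneg _

lemma continuous_jl : Continuous fun p : (E →L[ℝ] E) × (Rm m →L[ℝ] E) => jl p.1 p.2 :=
  P218GA.continuous_normDet.comp (by fun_prop)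

/-- the estimate on one piece -/
lemma piece_le {f : E → E} {L : E →L[ℝ] E} {ι : Rm m →L[ℝ] E} (hι : ∀ v, ‖ι v‖ = ‖v‖)
    (hL : ‖L‖ ≤ 2) (hLι : ∀ v, ‖v‖ ≤ 2 * ‖L (ι v)‖) {ε : ℝ} (hε : 0 < ε) (hε1 : ε ≤ 1 / 42)
    {B : Set E}
    (hc : ∀ y ∈ B, ∀ y' ∈ B, ‖(y' - y) - ι (ContinuousLinearMap.adjoint ι (y' - y))‖
      ≤ 3 * ε * ‖y' - y‖)
    (hf : ∀ y ∈ B, ∀ y' ∈ B, ‖f y' - f y - L (y' - y)‖ ≤ ε * ‖y' - y‖) :
    InjOn f B ∧ ENNReal.ofReal (jl L ι) * μH[m] B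
      ≤ ENNReal.ofReal ((1 + 4 * ε) ^ m * (1 + 42 * ε) ^ m) * μH[m] (f '' B) := by
  set a := ContinuousLinearMap.adjoint ι with ha
  have k1 : ∀ y ∈ B, ∀ y' ∈ B, ‖y' - y‖ ≤ (1 + 4 * ε) * ‖a (y' - y)‖ := by
    intro y hy y' hy'
    have h1 := hc y hy y' hy'
    have h2 : ‖y' - y‖ ≤ ‖(y' - y) - ι (a (y' - y))‖ + ‖ι (a (y' - y))‖ := by
      calc ‖y' - y‖ = ‖((y' - y) - ι (a (y' - y))) + ι (a (y' - y))‖ := by rw [sub_add_cancel]
        _ ≤ _ := norm_add_le _ _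
    rw [hι] at h2
    have h3 := norm_nonneg (y' - y)
    have h4 := norm_nonneg (a (y' - y))
    have h5 : (1 - 3 * ε) * ‖y' - y‖ ≤ ‖a (y' - y)‖ := by linarith
    have h6 : 1 ≤ (1 + 4 * ε) * (1 - 3 * ε) := by nlinarith
    calc ‖y' - y‖ ≤ (1 + 4 * ε) * (1 - 3 * ε) * ‖y' - y‖ := by nlinarith
      _ = (1 + 4 * ε) * ((1 - 3 * ε) * ‖y' - y‖) := by ring
      _ ≤ _ := by gcongr
  have k2 : ∀ y ∈ B, ∀ y' ∈ B, ‖L (ι (a (y' - y)))‖ ≤ (1 + 42 * ε) * ‖f y' - f y‖ := by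
    intro y hy y' hy'
    have h1 := hc y hy y' hy'
    have h2 := hf y hy y' hy'
    have h3 := k1 y hy y' hy'
    have h4 := hLι (a (y' - y))
    set w := y' - y with hw
    have h5 : ‖L (w - ι (a w))‖ ≤ 2 * (3 * ε * ‖w‖) :=
      (L.le_opNorm _).trans (mul_le_mul hL h1 (norm_nonneg _) (by norm_num))
    have h6 : L (ι (a w)) = (f y' - f y) - (f y' - f y - L w) - L (w - ι (a w)) := by
      rw [map_sub L w]; abel
    have h7 : ‖L (ι (a w))‖ ≤ ‖f y' - f y‖ + ε * ‖w‖ + 2 * (3 * ε * ‖w‖) := by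
      calc ‖L (ι (a w))‖ ≤ ‖(f y' - f y) - (f y' - f y - L w)‖ + ‖L (w - ι (a w))‖ := by
            rw [h6]; exact norm_sub_le _ _
        _ ≤ ‖f y' - f y‖ + ‖f y' - f y - L w‖ + ‖L (w - ι (a w))‖ := by
            gcongr; exact norm_sub_le _ _
        _ ≤ _ := by linarith
    set X := ‖L (ι (a w))‖ with hX
    have hX0 : 0 ≤ X := norm_nonneg _
    have h8 : ‖w‖ ≤ 3 * X := by nlinarith [norm_nonneg (a w)]
    have h9 : (1 - 21 * ε) * X ≤ ‖f y' - f y‖ := by nlinarith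
    have h10 : 1 ≤ (1 + 42 * ε) * (1 - 21 * ε) := by nlinarith
    calc X ≤ (1 + 42 * ε) * (1 - 21 * ε) * X := by nlinarith
      _ = (1 + 42 * ε) * ((1 - 21 * ε) * X) := by ring
      _ ≤ _ := by gcongr
  refine ⟨fun y hy y' hy' h => ?_, ?_⟩
  · have h1 := k2 y hy y' hy'
    have h2 := k1 y hy y' hy'
    have h3 := hLι (a (y' - y))
    rw [h, sub_self, norm_zero, mul_zero] at h1
    have h4 : ‖a (y' - y)‖ ≤ 0 := by linarith
    have h5 : ‖y' - y‖ ≤ 0 := h2.trans (mul_nonpos_of_nonneg_of_nonpos (by positivity) h4)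
    exact (sub_eq_zero.1 (norm_le_zero_iff.1 h5)).symm
  have m1 : μH[m] B ≤ ENNReal.ofReal ((1 + 4 * ε) ^ m) * μH[m] (a '' B) := by
    have := hd_le B a id (K := 1 + 4 * ε) (by positivity) (fun y hy y' hy' => by
      rw [id, id, dist_comm, dist_eq_norm, dist_comm, dist_eq_norm, ← map_sub]
      exact k1 y hy y' hy') m
    rwa [image_id] at this
  have m2 : ENNReal.ofReal (jl L ι) * μH[m] (a '' B)
      = μH[m] ((fun y => L (ι (a y))) '' B) := by
    have h1 := ((L.comp ι : Rm m →L[ℝ] E) : Rm m →ₗ[ℝ] E).hausdorffMeasure_image (a '' B)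
    rw [finrank_euclideanSpace_fin, image_image] at h1
    exact h1.symm
  have m3 := hd_le B f (fun y => L (ι (a y))) (K := 1 + 42 * ε) (by positivity)
    (fun y hy y' hy' => by
      rw [dist_comm, dist_eq_norm, dist_comm, dist_eq_norm, ← map_sub, ← map_sub, ← map_sub]
      exact k2 y hy y' hy') m
  calc ENNReal.ofReal (jl L ι) * μH[m] B
      ≤ ENNReal.ofReal (jl L ι) * (ENNReal.ofReal ((1 + 4 * ε) ^ m) * μH[m] (a '' B)) := by gcongr
    _ = ENNReal.ofReal ((1 + 4 * ε) ^ m) * (ENNReal.ofReal (jl L ι) * μH[m] (a '' B)) := by ring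
    _ ≤ ENNReal.ofReal ((1 + 4 * ε) ^ m) * (ENNReal.ofReal ((1 + 42 * ε) ^ m)
          * μH[m] (f '' B)) := by rw [m2]; gcongr
    _ = _ := by rw [ENNReal.ofReal_mul (by positivity), mul_assoc]

end Vale.Agent.P218N.G
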