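import Vale.Agent.P218N.G.Dens

/-! The gauge: minimisers of the squared distance to the members of the family. -/

open MeasureTheory Set Filter Topology Metric
open scoped ENNReal NNReal RealInnerProductSpace

namespace Vale.Agent.P218N.G

open Vale.Agent.P218 Vale.Agent.P218.H313

set_option linter.unusedSectionVars false
set_option linter.unusedVariables false

variable {E : Type*} [NormedAddCommGroup E] [InnerProductSpace ℝ E] [FiniteDimensional ℝ E]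
  [MeasurableSpace E] [BorelSpace E]
variable {P : Type*} [NormedAddCommGroup P] [NormedSpace ℝ P] {J : Type*} [Fintype J]
variable {m : ℕ} {V : P → E → ℝ} {V' : P →ₗ[ℝ] (E → ℝ)} {psi : J → E → ℝ}
  {lam : P → J → ℝ} {c K : ℝ} {q : ℕ} {β : ℝ}

lemma exists_eta {p : P × P → Prop} (h : ∀ᶠ x in 𝓝 (0 : P × P), p x) :
    ∃ η > 0, ∀ a a' : P, ‖a‖ ≤ η → ‖a'‖ ≤ η → p (a, a') := by
  obtain ⟨η, hη, hb⟩ := Metric.nhds_basis_closedBall.eventually_iff.1 h
  refine ⟨η, hη, fun a a' h1 h2 => hb ?_⟩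
  rw [mem_closedBall_zero_iff, Prod.norm_def]
  exact max_le h1 h2

lemma exists_eta' {p : P → Prop} (h : ∀ᶠ x in 𝓝 (0 : P), p x) :
    ∃ η > 0, ∀ a : P, ‖a‖ ≤ η → p a := by
  obtain ⟨η, hη, hb⟩ := Metric.nhds_basis_closedBall.eventually_iff.1 h
  exact ⟨η, hη, fun a h1 => hb (mem_closedBall_zero_iff.2 h1)⟩

lemma sq_pow_w (x : E) (q : ℕ) : ((1 + ‖x‖) ^ q) ^ 2 = (1 + ‖x‖) ^ (2 * q) := by
  rw [← pow_mul, mul_comm]

/-- the family is Lipschitz near `0` -/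
lemma Model.exists_lip (h : Model m V V' psi lam c K q β) {ε : ℝ} (hε : 0 < ε) (hε1 : ε ≤ 1) :
    ∃ η > 0, ∀ a a' : P, ‖a‖ ≤ η → ‖a'‖ ≤ η → Tube0 (V a) c K ∧ ∀ x,
      |V a' x - V a x - V' (a' - a) x| ≤ ε * ‖a' - a‖ * (1 + ‖x‖) ^ q ∧
      |V a' x - V a x| ≤ (K + 1) * ‖a' - a‖ * (1 + ‖x‖) ^ q := by
  obtain ⟨η₁, h1, h2⟩ := exists_eta (h.strict ε hε)
  obtain ⟨η₂, h3, h4⟩ := exists_eta' h.tube
  refine ⟨min η₁ η₂, lt_min h1 h3, fun a a' ha ha' => ⟨h4 a (ha.trans (min_le_right _ _)),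
    fun x => ?_⟩⟩
  have h5 := h2 a a' (ha.trans (min_le_left _ _)) (ha'.trans (min_le_left _ _)) x
  refine ⟨h5, ?_⟩
  have h6 := h.db (a' - a) x
  have h7 := abs_add_le (V a' x - V a x - V' (a' - a) x) (V' (a' - a) x)
  rw [sub_add_cancel] at h7
  have h8 : ε * ‖a' - a‖ * (1 + ‖x‖) ^ q ≤ 1 * ‖a' - a‖ * (1 + ‖x‖) ^ q := by gcongr
  simp only at h5
  nlinarith

/-- coercivity of the velocities -/
lemma Model.exists_coer [FiniteDimensional ℝ P] (hE : Module.finrank ℝ E = m + 1)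
    (h : Model m V V' psi lam c K q β) {κ : Measure E} (hac : sig m (V 0) ≪ κ)
    (hκ : Integrable (fun x => (1 + ‖x‖) ^ (2 * q) * rho x) κ) :
    ∃ l > 0, ∀ b : P, l * ‖b‖ ^ 2 ≤ ∫ x, V' b x ^ 2 * rho x ∂κ := by
  have hK := h.K_nonneg
  have hbd : ∀ (b : P) (B : ℝ), ‖b‖ ≤ B → ∀ x,
      ‖V' b x ^ 2 * rho x‖ ≤ K ^ 2 * B ^ 2 * ((1 + ‖x‖) ^ (2 * q) * rho x) := by
    intro b B hb x
    have h1 : |V' b x| ≤ K * B * (1 + ‖x‖) ^ q := (h.db b x).trans (by gcongr)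
    have h2 : V' b x ^ 2 ≤ (K * B * (1 + ‖x‖) ^ q) ^ 2 := by
      rw [← sq_abs]; exact pow_le_pow_left₀ (abs_nonneg _) h1 2
    have h3 := rho_pos x
    rw [Real.norm_of_nonneg (by positivity)]
    calc V' b x ^ 2 * rho x ≤ (K * B * (1 + ‖x‖) ^ q) ^ 2 * rho x := by gcongr
      _ = _ := by rw [mul_pow, mul_pow, sq_pow_w]; ring
  have hmeas : ∀ b : P, AEStronglyMeasurable (fun x => V' b x ^ 2 * rho x) κ := fun b =>
    (((h.dcont b).pow 2).mul continuous_rho).aestronglyMeasurable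
  have hint : ∀ b : P, Integrable (fun x => V' b x ^ 2 * rho x) κ := fun b =>
    (hκ.const_mul _).mono' (hmeas b) (Eventually.of_forall (hbd b _ le_rfl))
  set Q : P → ℝ := fun b => ∫ x, V' b x ^ 2 * rho x ∂κ with hQ
  have hQc : ContinuousOn Q (sphere 0 1) := by
    refine continuousOn_of_dominated (fun b _ => hmeas b)
      (fun b hb => Eventually.of_forall (hbd b 1 (mem_sphere_zero_iff_norm.1 hb).le))
      (hκ.const_mul _) (Eventually.of_forall fun x => Continuous.continuousOn ?_)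
    have h1 : Continuous fun b : P => V' b x :=
      LinearMap.continuous_of_finiteDimensional ((LinearMap.proj x).comp V')
    exact (h1.pow 2).mul continuous_const
  have hpos : ∀ b ∈ sphere (0 : P) 1, 0 < Q b := by
    intro b hb
    have h0 : 0 ≤ Q b := integral_nonneg fun x => mul_nonneg (sq_nonneg _) (rho_pos x).le
    refine lt_of_le_of_ne h0 fun he => ?_
    have h1 := (integral_eq_zero_iff_of_nonneg
      (fun x => mul_nonneg (sq_nonneg _) (rho_pos x).le) (hint b)).1 he.symm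
    have h2 : ∀ᵐ x ∂κ, V' b x = 0 := by
      filter_upwards [h1] with x hx
      have h3 : V' b x ^ 2 * rho x = 0 := hx
      rcases mul_eq_zero.1 h3 with h4 | h4
      · exact pow_eq_zero_iff two_ne_zero |>.1 h4
      · exact absurd h4 (rho_pos x).ne'
    have h3 := h.inj b fun x hx => h.tube0.eq_zero_of_ae hE (h.dcont b) (hac.ae_le h2) hx
    rw [h3] at hb
    simp at hb
  obtain ⟨l, hl, hlb⟩ := (isCompact_sphere (0 : P) 1).exists_forall_le' hQc hpos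
  refine ⟨l, hl, fun b => ?_⟩
  rcases eq_or_ne b 0 with rfl | hb
  · simp
  have hn : 0 < ‖b‖ := norm_pos_iff.2 hb
  have h1 := hlb (‖b‖⁻¹ • b) (by
    rw [mem_sphere_zero_iff_norm, norm_smul, norm_inv, norm_norm, inv_mul_cancel₀ hn.ne'])
  have h2 : Q (‖b‖⁻¹ • b) = (‖b‖ ^ 2)⁻¹ * ∫ x, V' b x ^ 2 * rho x ∂κ := by
    simp only [hQ]
    rw [← integral_const_mul]
    congr 1; ext x
    rw [map_smul, Pi.smul_apply, smul_eq_mul]
    ring
  rw [h2, le_inv_mul_iff₀ (by positivity)] at h1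
  linarith

section gauge

variable {ι : Type*} {l : Filter ι} {N : ι → Measure E} {κ : Measure E}

lemma int_sq_of {μ : Measure E} {W : E → ℝ} (hW : Tube0 W c K) {p : ℕ}
    (hi : Integrable (fun x => (1 + ‖x‖) ^ p * rho x) μ) :
    Integrable (fun x => W x ^ 2 * rho x) μ := by
  refine (hi.const_mul (K ^ 2)).mono' ((hW.cont.pow 2).mul continuous_rho).aestronglyMeasurable
    (Eventually.of_forall fun x => ?_)
  have h1 := rho_pos x
  have h2 : W x ^ 2 ≤ K ^ 2 := by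
    rw [← sq_abs]; exact pow_le_pow_left₀ (abs_nonneg _) (hW.b0 x) 2
  have h3 : (1 : ℝ) ≤ (1 + ‖x‖) ^ p := one_le_pow₀ (one_le_one_add_norm x)
  rw [Real.norm_of_nonneg (by positivity)]
  calc W x ^ 2 * rho x ≤ K ^ 2 * (1 * rho x) := by rw [one_mul]; gcongr
    _ ≤ _ := by gcongr

/-- comparison of the squared distances to two functions -/
lemma DD_le_two {μ : Measure E} {W W' : E → ℝ} (hW : Tube0 W c K) (hW' : Tube0 W' c K) {d M : ℝ}
    (hd : ∀ x, |W' x - W x| ≤ d * (1 + ‖x‖) ^ q)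
    (hi : Integrable (fun x => (1 + ‖x‖) ^ (2 * q) * rho x) μ)
    (hM : ∫ x, (1 + ‖x‖) ^ (2 * q) * rho x ∂μ ≤ M) :
    ∫ x, W' x ^ 2 * rho x ∂μ ≤ 2 * (∫ x, W x ^ 2 * rho x ∂μ) + 2 * d ^ 2 * M := by
  have e1 : ∫ x, W' x ^ 2 * rho x ∂μ
      ≤ ∫ x, (2 * (W x ^ 2 * rho x) + 2 * d ^ 2 * ((1 + ‖x‖) ^ (2 * q) * rho x)) ∂μ := by
    refine integral_mono (int_sq_of hW' hi) (((int_sq_of hW hi).const_mul _).add (hi.const_mul _))
      fun x => ?_
    have h1 : (W' x - W x) ^ 2 ≤ (d * (1 + ‖x‖) ^ q) ^ 2 := by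
      rw [← sq_abs]; exact pow_le_pow_left₀ (abs_nonneg _) (hd x) 2
    rw [mul_pow, sq_pow_w] at h1
    have h2 : W' x ^ 2 ≤ 2 * W x ^ 2 + 2 * (d ^ 2 * (1 + ‖x‖) ^ (2 * q)) := by
      nlinarith [sq_nonneg (W' x - 2 * W x)]
    have h3 := mul_le_mul_of_nonneg_right h2 (rho_pos x).le
    simp only
    linarith
  rw [integral_comb2 (int_sq_of hW hi) hi] at e1
  have h4 := mul_le_mul_of_nonneg_left hM (show 0 ≤ 2 * d ^ 2 by positivity)
  linarith

/-- **the gauge** -/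
theorem Model.gauge [FiniteDimensional ℝ P] (hE : Module.finrank ℝ E = m + 1)
    (h : Model m V V' psi lam c K q β)
    (hmom : ∀ p : ℕ, ∃ C : ℝ, ∀ᶠ i in l, Integrable (fun x => (1 + ‖x‖) ^ p * rho x) (N i) ∧
      ∫ x, (1 + ‖x‖) ^ p * rho x ∂(N i) ≤ C)
    (hlim : ∀ f : E → ℝ, Continuous f → PB f →
      Tendsto (fun i => ∫ x, f x * rho x ∂(N i)) l (𝓝 (∫ x, f x * rho x ∂κ)))
    (hκ : ∀ p : ℕ, Integrable (fun x => (1 + ‖x‖) ^ p * rho x) κ)
    (hac : sig m (V 0) ≪ κ) (hV0 : ∀ᵐ x ∂κ, V 0 x = 0) :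
    ∃ η > 0, ∃ a : ι → P, Tendsto a l (𝓝 0) ∧
      Tendsto (fun i => DD (N i) (V (a i)) 0) l (𝓝 0) ∧
      ∀ᶠ i in l, ∀ a', ‖a'‖ ≤ η → DD (N i) (V (a i)) 0 ≤ DD (N i) (V a') 0 := by
  have hK := h.K_nonneg
  obtain ⟨l₀, hl₀, hcoer⟩ := h.exists_coer hE hac (hκ (2 * q))
  set M₀ : ℝ := ∫ x, (1 + ‖x‖) ^ (2 * q) * rho x ∂κ with hM₀
  have hM₀0 : 0 ≤ M₀ := integral_nonneg fun x => by have := rho_pos x; positivity
  set ε : ℝ := min 1 (l₀ / (2 * (M₀ + 1))) with hε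
  have hε0 : 0 < ε := lt_min one_pos (by positivity)
  have hε1 : ε ≤ 1 := min_le_left _ _
  have hε2 : ε ^ 2 * M₀ < l₀ := by
    have h1 : ε ≤ l₀ / (2 * (M₀ + 1)) := min_le_right _ _
    rw [le_div_iff₀ (by positivity)] at h1
    nlinarith [mul_nonneg hε0.le hM₀0]
  obtain ⟨η, hη, hb⟩ := h.exists_lip hε0 hε1
  have h00 : ‖(0 : P)‖ ≤ η := by simpa using hη.le
  obtain ⟨M, hM⟩ := hmom (2 * q)
  have hex : ∀ᶠ i in l, ∃ a : P, ‖a‖ ≤ η ∧
      ∀ a', ‖a'‖ ≤ η → DD (N i) (V a) 0 ≤ DD (N i) (V a') 0 := by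
    filter_upwards [hM] with i hi
    have hc : ContinuousOn (fun a => ∫ x, V a x ^ 2 * rho x ∂(N i)) (closedBall 0 η) := by
      refine continuousOn_of_dominated
        (bound := fun x => K ^ 2 * ((1 + ‖x‖) ^ (2 * q) * rho x)) (fun a ha => ?_)
        (fun a ha => Eventually.of_forall fun x => ?_) (hi.1.const_mul _)
        (Eventually.of_forall fun x => ?_)
      · exact (((hb a 0 (mem_closedBall_zero_iff.1 ha) h00).1.cont.pow 2).mul
          continuous_rho).aestronglyMeasurable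
      · have hW := (hb a 0 (mem_closedBall_zero_iff.1 ha) h00).1
        have h1 := rho_pos x
        have h2 : V a x ^ 2 ≤ K ^ 2 := by
          rw [← sq_abs]; exact pow_le_pow_left₀ (abs_nonneg _) (hW.b0 x) 2
        have h3 : (1 : ℝ) ≤ (1 + ‖x‖) ^ (2 * q) := one_le_pow₀ (one_le_one_add_norm x)
        rw [Real.norm_of_nonneg (by positivity)]
        calc V a x ^ 2 * rho x ≤ K ^ 2 * (1 * rho x) := by rw [one_mul]; gcongr
          _ ≤ _ := by gcongr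
      · refine (ContinuousOn.pow ?_ 2).mul continuousOn_const
        refine (LipschitzOnWith.of_dist_le' (K := (K + 1) * (1 + ‖x‖) ^ q)
          fun a ha a' ha' => ?_).continuousOn
        have h1 := ((hb a' a (mem_closedBall_zero_iff.1 ha') (mem_closedBall_zero_iff.1 ha)).2 x).2
        rw [Real.dist_eq, dist_eq_norm]
        linarith
    obtain ⟨a, ha, hmin⟩ := (isCompact_closedBall (0 : P) η).exists_isMinOn
      ⟨0, mem_closedBall_self hη.le⟩ hc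
    refine ⟨a, mem_closedBall_zero_iff.1 ha, fun a' ha' => ?_⟩
    rw [DD_zero_eq, DD_zero_eq]
    exact hmin (mem_closedBall_zero_iff.2 ha')
  have hex' : ∀ i, ∃ a : P, (∃ a : P, ‖a‖ ≤ η ∧
      ∀ a', ‖a'‖ ≤ η → DD (N i) (V a) 0 ≤ DD (N i) (V a') 0) → ‖a‖ ≤ η ∧
      ∀ a', ‖a'‖ ≤ η → DD (N i) (V a) 0 ≤ DD (N i) (V a') 0 := by
    intro i
    by_cases hi : ∃ a : P, ‖a‖ ≤ η ∧ ∀ a', ‖a'‖ ≤ η → DD (N i) (V a) 0 ≤ DD (N i) (V a') 0
    · obtain ⟨a, ha⟩ := hi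
      exact ⟨a, fun _ => ha⟩
    · exact ⟨0, fun h => absurd h hi⟩
  choose a ha' using hex'
  have ha := hex.mono ha'
  have l1 : Tendsto (fun i => DD (N i) (V 0) 0) l (𝓝 0) := by
    have h1 := hlim (fun x => V 0 x ^ 2) (h.tube0.cont.pow 2) (h.tube0.pg.b0.pow 2)
    have e : ∫ x, V 0 x ^ 2 * rho x ∂κ = 0 := by
      refine integral_eq_zero_of_ae ?_
      filter_upwards [hV0] with x hx
      simp [hx]
    simp_rw [DD_zero_eq]
    rwa [e] at h1
  have l2 : Tendsto (fun i => DD (N i) (V (a i)) 0) l (𝓝 0) := by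
    refine squeeze_zero' (Eventually.of_forall fun i => DD_nonneg 0) ?_ l1
    filter_upwards [ha] with i hi using hi.2 0 h00
  refine ⟨η, hη, a, ?_, l2, ha.mono fun i hi => hi.2⟩
  rw [tendsto_iff_ultrafilter]
  intro U hU
  obtain ⟨b, hb1, hb2⟩ := (isCompact_closedBall (0 : P) η).ultrafilter_le_nhds (U.map a) (by
    rw [Ultrafilter.coe_map, le_principal_iff, mem_map]
    filter_upwards [hU ha] with i hi using mem_closedBall_zero_iff.2 hi.1)
  have hb3 : Tendsto a U (𝓝 b) := hb2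
  have hbη := mem_closedBall_zero_iff.1 hb1
  have hWb := (hb b 0 hbη h00).1
  have l3 := (hlim (fun x => V b x ^ 2) (hWb.cont.pow 2) (hWb.pg.b0.pow 2)).mono_left hU
  have l4 : Tendsto (fun i => 2 * DD (N i) (V (a i)) 0 + 2 * ((K + 1) * ‖b - a i‖) ^ 2 * M) U
      (𝓝 0) := by
    have h1 : Tendsto (fun i => ‖b - a i‖) U (𝓝 0) := by
      have := (hb3.const_sub b).norm
      rwa [sub_self, norm_zero] at this
    have := ((l2.mono_left hU).const_mul 2).add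
      ((((h1.const_mul (K + 1)).pow 2).const_mul 2).mul_const M)
    simpa using this
  have h5 : ∫ x, V b x ^ 2 * rho x ∂κ ≤ 0 := by
    refine le_of_tendsto_of_tendsto l3 l4 ?_
    filter_upwards [hU ha, hU hM] with i hi hi'
    rw [DD_zero_eq]
    exact DD_le_two (hb (a i) b hi.1 hbη).1 hWb (fun x => ((hb (a i) b hi.1 hbη).2 x).2)
      hi'.1 hi'.2
  have h6 : ∀ᵐ x ∂κ, V b x = 0 := by
    have h0 : ∀ x, 0 ≤ V b x ^ 2 * rho x := fun x => mul_nonneg (sq_nonneg _) (rho_pos x).le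
    have h1 := (integral_eq_zero_iff_of_nonneg h0 (int_sq_of hWb (hκ 0))).1
      (le_antisymm h5 (integral_nonneg h0))
    filter_upwards [h1] with x hx
    have h3 : V b x ^ 2 * rho x = 0 := hx
    rcases mul_eq_zero.1 h3 with h4 | h4
    · exact pow_eq_zero_iff two_ne_zero |>.1 h4
    · exact absurd h4 (rho_pos x).ne'
  have h7 : ∫ x, V' b x ^ 2 * rho x ∂κ ≤ ε ^ 2 * ‖b‖ ^ 2 * M₀ := by
    rw [hM₀, ← integral_const_mul]
    refine integral_mono_of_nonneg (Eventually.of_forall fun x =>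
      mul_nonneg (sq_nonneg _) (rho_pos x).le) ((hκ _).const_mul _) ?_
    filter_upwards [h6, hV0] with x h1 h2
    have h3 := ((hb 0 b h00 hbη).2 x).1
    rw [h1, h2, sub_zero, sub_zero, zero_sub, abs_neg] at h3
    have h4 : V' b x ^ 2 ≤ (ε * ‖b‖ * (1 + ‖x‖) ^ q) ^ 2 := by
      rw [← sq_abs]; exact pow_le_pow_left₀ (abs_nonneg _) h3 2
    rw [mul_pow, mul_pow, sq_pow_w] at h4
    have h8 := mul_le_mul_of_nonneg_right h4 (rho_pos x).le
    linarith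
  have h8 : b = 0 := by
    by_contra hne
    have h1 : 0 < ‖b‖ ^ 2 := pow_pos (norm_pos_iff.2 hne) 2
    have h2 := hcoer b
    nlinarith
  rwa [h8] at hb3

lemma orth_pt {w w' v g δ e t n K : ℝ} (hδ : 0 ≤ δ) (he : 0 ≤ e) (hn : 0 ≤ n) (hg : 0 ≤ g)
    (h3 : |w' - w - t * e * v| ≤ δ * (δ * e * n) * g) (h4 : |w' - w| ≤ (K + 1) * (δ * e * n) * g) :
    w' ^ 2 ≤ (1 + δ * δ * n) * w ^ 2 + 2 * t * e * (w * v)
      + δ * δ * e ^ 2 * (n + (K + 1) ^ 2 * n ^ 2) * g ^ 2 := by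
  have h5 : (w' - w) ^ 2 ≤ ((K + 1) * (δ * e * n) * g) ^ 2 := by
    rw [← sq_abs]; exact pow_le_pow_left₀ (abs_nonneg _) h4 2
  have h6 : 2 * w * (w' - w - t * e * v) ≤ δ * δ * n * (w ^ 2 + e ^ 2 * g ^ 2) := by
    calc 2 * w * (w' - w - t * e * v) ≤ |2 * w * (w' - w - t * e * v)| := le_abs_self _
      _ = 2 * |w| * |w' - w - t * e * v| := by rw [abs_mul, abs_mul, abs_two]
      _ ≤ 2 * |w| * (δ * (δ * e * n) * g) := by gcongr
      _ = δ * δ * n * (2 * |w| * (e * g)) := by ring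
      _ ≤ δ * δ * n * (w ^ 2 + e ^ 2 * g ^ 2) := by
          refine mul_le_mul_of_nonneg_left ?_ (by positivity)
          nlinarith [sq_nonneg (|w| - e * g), sq_abs w]
  have e1 : w' ^ 2 = w ^ 2 + 2 * t * e * (w * v) + 2 * w * (w' - w - t * e * v) + (w' - w) ^ 2 := by
    ring
  have e2 : (1 + δ * δ * n) * w ^ 2 + 2 * t * e * (w * v)
      + δ * δ * e ^ 2 * (n + (K + 1) ^ 2 * n ^ 2) * g ^ 2
      = w ^ 2 + 2 * t * e * (w * v) + δ * δ * n * (w ^ 2 + e ^ 2 * g ^ 2)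
        + ((K + 1) * (δ * e * n) * g) ^ 2 := by ring
  rw [e1, e2]
  linarith

lemma orth_fin {I δ e B ε : ℝ} (hδ : 0 < δ) (he : 0 < e) (hε : 0 < ε) (hB : δ * B ≤ ε)
    (k1 : -(2 * δ * e * I) ≤ δ * δ * e ^ 2 * (B - 1))
    (k2 : -(2 * -δ * e * I) ≤ δ * δ * e ^ 2 * (B - 1)) : |I| < ε * e := by
  have hp : 0 < δ * e := by positivity
  have k3 : 2 * |I| ≤ δ * e * (B - 1) := by
    refine le_of_mul_le_mul_left ?_ hp
    rcases abs_cases I with h1 | h1 <;> rw [h1.1] <;> nlinarith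
  have k4 : δ * e * (B - 1) < ε * e := by nlinarith
  nlinarith [abs_nonneg I]

/-- in a blow-up the normalised heights are orthogonal to the velocities -/
theorem Model.orth (h : Model m V V' psi lam c K q β)
    (hmom : ∀ p : ℕ, ∃ C : ℝ, ∀ᶠ i in l, Integrable (fun x => (1 + ‖x‖) ^ p * rho x) (N i) ∧
      ∫ x, (1 + ‖x‖) ^ p * rho x ∂(N i) ≤ C)
    {η : ℝ} (hη : 0 < η) {a : ι → P} (ha : Tendsto a l (𝓝 0))
    (hmin : ∀ᶠ i in l, ∀ a', ‖a'‖ ≤ η → DD (N i) (V (a i)) 0 ≤ DD (N i) (V a') 0)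
    {eps : ι → ℝ} (he0 : ∀ᶠ i in l, 0 < eps i) (he : Tendsto eps l (𝓝 0))
    (hD : ∀ᶠ i in l, DD (N i) (V (a i)) 0 ≤ eps i ^ 2) (b : P) :
    Tendsto (fun i => ∫ x, V (a i) x / eps i * V' b x * rho x ∂(N i)) l (𝓝 0) := by
  have hK := h.K_nonneg
  obtain ⟨M', hM'⟩ := hmom (2 * q)
  set M := max M' 0 with hMd
  have hM0 : 0 ≤ M := le_max_right _ _
  set B : ℝ := ‖b‖ * (1 + M) + (K + 1) ^ 2 * ‖b‖ ^ 2 * M + 1 with hB
  have hB0 : 0 < B := by positivity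
  rw [Metric.tendsto_nhds]
  intro ε hε
  set δ : ℝ := min 1 (ε / B) with hδ
  have hδ0 : 0 < δ := lt_min one_pos (by positivity)
  have hδ1 : δ ≤ 1 := min_le_left _ _
  have hδ2 : δ * B ≤ ε := by
    have h1 : δ ≤ ε / B := min_le_right _ _
    rwa [le_div_iff₀ hB0] at h1
  obtain ⟨η₁, hη₁, hb⟩ := h.exists_lip hδ0 hδ1
  have l1 : Tendsto (fun i => ‖a i‖ + eps i * ‖b‖) l (𝓝 0) := by
    have := ha.norm.add (he.mul_const ‖b‖)
    simpa using this
  filter_upwards [hM', hmin, he0, hD, l1.eventually_le_const (lt_min hη hη₁)] with i hi hm h0 hd hs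
  have hiM : ∫ x, (1 + ‖x‖) ^ (2 * q) * rho x ∂(N i) ≤ M := hi.2.trans (le_max_left _ _)
  have hb0 : 0 ≤ eps i * ‖b‖ := by positivity
  have han : ‖a i‖ ≤ η₁ := by linarith [min_le_right η η₁]
  have hW := (hb (a i) (a i) han han).1
  have i1 := int_sq_of hW hi.1
  have i2 : Integrable (fun x => V (a i) x * V' b x * rho x) (N i) := by
    refine (hi.1.const_mul (K * (K * ‖b‖))).mono'
      ((hW.cont.mul (h.dcont b)).mul continuous_rho).aestronglyMeasurable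
      (Eventually.of_forall fun x => ?_)
    have h1 := rho_pos x
    have h2 : (1 + ‖x‖) ^ q ≤ (1 + ‖x‖) ^ (2 * q) :=
      pow_le_pow_right₀ (one_le_one_add_norm x) (by omega)
    rw [norm_mul, norm_mul, Real.norm_of_nonneg h1.le, Real.norm_eq_abs, Real.norm_eq_abs]
    calc |V (a i) x| * |V' b x| * rho x ≤ K * (K * ‖b‖ * (1 + ‖x‖) ^ (2 * q)) * rho x := by
          gcongr
          · exact hW.b0 x
          · exact (h.db b x).trans (by gcongr)
      _ = _ := by ring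
  set I : ℝ := ∫ x, V (a i) x * V' b x * rho x ∂(N i) with hI
  have key : ∀ t : ℝ, |t| = δ → -(2 * t * eps i * I)
      ≤ δ * δ * eps i ^ 2 * (B - 1) := by
    intro t ht
    set a' := a i + (t * eps i) • b with ha'
    have e1 : a' - a i = (t * eps i) • b := by rw [ha']; abel
    have e2 : ‖a' - a i‖ = δ * eps i * ‖b‖ := by
      rw [e1, norm_smul, Real.norm_eq_abs, abs_mul, ht, abs_of_pos h0]
    have hn : ‖a'‖ ≤ min η η₁ := by
      have h1 : ‖a'‖ ≤ ‖a i‖ + ‖a' - a i‖ := by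
        have := norm_add_le (a i) (a' - a i)
        rwa [add_sub_cancel] at this
      have h2 : δ * eps i * ‖b‖ ≤ eps i * ‖b‖ := by nlinarith
      linarith
    have hn1 : ‖a'‖ ≤ η₁ := hn.trans (min_le_right _ _)
    have h1 := hm a' (hn.trans (min_le_left _ _))
    rw [DD_zero_eq] at hd
    rw [DD_zero_eq, DD_zero_eq] at h1
    have hW' := (hb a' a' hn1 hn1).1
    have h2 : ∫ x, V a' x ^ 2 * rho x ∂(N i)
        ≤ ∫ x, ((1 + δ * δ * ‖b‖) * (V (a i) x ^ 2 * rho x)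
          + 2 * t * eps i * (V (a i) x * V' b x * rho x)
          + δ * δ * eps i ^ 2 * (‖b‖ + (K + 1) ^ 2 * ‖b‖ ^ 2)
            * ((1 + ‖x‖) ^ (2 * q) * rho x)) ∂(N i) := by
      refine integral_mono (int_sq_of hW' hi.1)
        (((i1.const_mul _).add (i2.const_mul _)).add (hi.1.const_mul _)) fun x => ?_
      obtain ⟨h3, h4⟩ := (hb (a i) a' han hn1).2 x
      rw [e2] at h3 h4
      rw [e1, map_smul, Pi.smul_apply, smul_eq_mul] at h3
      have h7 := orth_pt hδ0.le h0.le (norm_nonneg b) (by positivity) h3 h4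
      have h8 := mul_le_mul_of_nonneg_right h7 (rho_pos x).le
      rw [sq_pow_w] at h8
      simp only
      linarith
    rw [integral_comb i1 i2 hi.1] at h2
    have h3 := mul_le_mul_of_nonneg_left hiM
      (show 0 ≤ δ * δ * eps i ^ 2 * (‖b‖ + (K + 1) ^ 2 * ‖b‖ ^ 2) by positivity)
    have h4 := mul_le_mul_of_nonneg_left hd (show 0 ≤ δ * δ * ‖b‖ by positivity)
    have e3 : δ * δ * eps i ^ 2 * (B - 1) = δ * δ * ‖b‖ * eps i ^ 2
        + δ * δ * eps i ^ 2 * (‖b‖ + (K + 1) ^ 2 * ‖b‖ ^ 2) * M := by rw [hB]; ring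
    rw [e3]
    linarith
  have e : ∫ x, V (a i) x / eps i * V' b x * rho x ∂(N i) = I / eps i := by
    rw [hI, ← integral_div]
    congr 1; ext x; ring
  rw [e, Real.dist_eq, sub_zero, abs_div, abs_of_pos h0, div_lt_iff₀ h0]
  exact orth_fin hδ0 h0 hε hδ2 (key δ (abs_of_pos hδ0))
    (key (-δ) (by rw [abs_neg, abs_of_pos hδ0]))

end gauge

end Vale.Agent.P218N.G
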