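import Vale.Agent.P218N.G.Static
import Vale.Agent.P218N.G.MinG

/-! The static estimate together with the existence of the gauge. -/

open MeasureTheory Set Filter Topology Metric
open scoped ENNReal NNReal RealInnerProductSpace

namespace Vale.Agent.P218N.G

open Vale.Agent.P218 Vale.Agent.P218.H313

set_option linter.unusedSectionVars false
set_option linter.unusedVariables false

variable {E : Type*} [NormedAddCommGroup E] [InnerProductSpace ℝ E] [FiniteDimensional ℝ E]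
  [MeasurableSpace E] [BorelSpace E]
variable {P : Type*} [NormedAddCommGroup P] [NormedSpace ℝ P] {J : Type*} [Fintype J]
variable {m : ℕ} {V : P → E → ℝ} {V' : P →ₗ[ℝ] (E → ℝ)} {psi : J → E → ℝ}
  {lam : P → J → ℝ} {c K : ℝ} {q : ℕ} {β : ℝ}
variable {N : ℝ → Measure E} {T : ℝ → E → Submodule ℝ E} {H : ℝ → E → E} {s₀ : ℝ}

/-- **G2**: near the shrinker there is a gauge in which the static estimate holds. -/
theorem Model.exists_static [FiniteDimensional ℝ P] (hE : Module.finrank ℝ E = m + 1)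
    (h : RF m N T H s₀) (hM : Model m V V' psi lam c K q β) {k : ℕ} (hk : 1 ≤ k)
    {κ : Measure E} [IsLocallyFiniteMeasure κ] (hκ : κ = (k : ℝ≥0∞) • sig m (V 0))
    {l : Filter ℝ} (hl : l ≤ nearF m N T H κ) {M : Set (Measure E)} (hMl : ∀ᶠ s in l, N s ∈ M)
    (hSC : SC m M κ (V 0) c K q) :
    ∃ a : ℝ → P, Tendsto a l (𝓝 0) ∧ ∃ C : ℝ, 0 ≤ C ∧ ∀ᶠ s in l,
      DD (N s) (V (a s)) 0 + DD (N s) (V (a s)) 1 + TG (N s) (T s) (V (a s)) 0 + ‖lam (a s)‖ ^ 2
        ≤ C * dis (N s) (T s) (H s) := by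
  rcases l.eq_or_neBot with rfl | hne
  · exact ⟨fun _ => 0, tendsto_bot, 0, le_rfl, eventually_bot⟩
  have hk0 : (k : ℝ≥0∞) ≠ 0 := by exact_mod_cast (by omega : k ≠ 0)
  have hmom : ∀ p : ℕ, ∃ C : ℝ, ∀ᶠ s in l,
      Integrable (fun x => (1 + ‖x‖) ^ p * rho x) (N s) ∧
        ∫ x, (1 + ‖x‖) ^ p * rho x ∂(N s) ≤ C := by
    intro p
    obtain ⟨C, hC⟩ := h.moment p
    refine ⟨C, ?_⟩
    filter_upwards [(hl.trans nearF_atTop) (eventually_ge_atTop s₀)] with s hs using hC s hs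
  have hac : sig m (V 0) ≪ κ := by
    rw [hκ]; exact Measure.absolutelyContinuous_smul hk0
  have hV0 : ∀ᵐ x ∂κ, V 0 x = 0 := by
    rw [hκ]; exact (Measure.ae_ennreal_smul_measure_iff hk0).2 hM.tube0.ae_zero
  obtain ⟨η, hη, a, ha, -, hmin⟩ := hM.gauge (l := l) (N := N) (κ := κ) hE hmom
    (fun f hf hb => (h.lim_PB hf hb).mono_left hl)
    (fun p => (h.conv ((Ultrafilter.of_le l).trans hl)).mom_lim p) hac hV0
  exact ⟨a, ha, hM.static hE h hk hκ
    (fun F hF hae x hx => hM.tube0.eq_zero_of_ae hE hF hae hx) hSC hl hMl ha hη hmin⟩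

/-- the form without the first moment -/
theorem Model.exists_static' [FiniteDimensional ℝ P] (hE : Module.finrank ℝ E = m + 1)
    (h : RF m N T H s₀) (hM : Model m V V' psi lam c K q β) {k : ℕ} (hk : 1 ≤ k)
    {κ : Measure E} [IsLocallyFiniteMeasure κ] (hκ : κ = (k : ℝ≥0∞) • sig m (V 0))
    {l : Filter ℝ} (hl : l ≤ nearF m N T H κ) {M : Set (Measure E)} (hMl : ∀ᶠ s in l, N s ∈ M)
    (hSC : SC m M κ (V 0) c K q) :
    ∃ a : ℝ → P, Tendsto a l (𝓝 0) ∧ ∃ C : ℝ, 0 ≤ C ∧ ∀ᶠ s in l,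
      DD (N s) (V (a s)) 0 + TG (N s) (T s) (V (a s)) 0 + ‖lam (a s)‖ ^ 2
        ≤ C * dis (N s) (T s) (H s) := by
  obtain ⟨a, ha, C, hC, h1⟩ := hM.exists_static hE h hk hκ hl hMl hSC
  refine ⟨a, ha, C, hC, h1.mono fun s hs => ?_⟩
  have := DD_nonneg (μ := N s) (W := V (a s)) 1
  linarith

end Vale.Agent.P218N.G
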