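import Vale.Agent.P218N.G.Asm
import Vale.Agent.P218N.G.IntSl

/-! Uniqueness of the tangent flow from a model, given the energy comparison. -/

open MeasureTheory Set Filter Topology Metric
open scoped ENNReal NNReal RealInnerProductSpace

namespace Vale.Agent.P218N.G

open Vale.Agent.P218 Vale.Agent.P218.H313
open Vale.Agent.P218.H552 (BF NN)

set_option linter.unusedSectionVars false
set_option linter.unusedVariables false

variable {E : Type*} [NormedAddCommGroup E] [InnerProductSpace ℝ E] [FiniteDimensional ℝ E]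
  [MeasurableSpace E] [BorelSpace E]
variable {m : ℕ}

lemma limitSet_half (N : ℝ → Measure E) : limitSet (fun s => N (s / 2)) = limitSet N := by
  ext κ
  constructor
  · rintro ⟨h, τ, hτ, hw⟩
    exact ⟨h, fun i => τ i / 2, hτ.atTop_div_const two_pos, hw⟩
  · rintro ⟨h, τ, hτ, hw⟩
    refine ⟨h, fun i => 2 * τ i, hτ.const_mul_atTop two_pos, ?_⟩
    have e : ∀ i, 2 * τ i / 2 = τ i := fun i => by ring
    simp_rw [e]
    exact hw

lemma energy_half {N : ℝ → Measure E} {D : ℝ → ℝ} {τ₀ s₁ : ℝ} (h : Energy N D τ₀)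
    (hs : 2 * τ₀ ≤ s₁) : Energy (fun s => N (s / 2)) (fun s => D (s / 2)) s₁ where
  bdd K hK := by
    obtain ⟨C, hC⟩ := h.bdd K hK
    exact ⟨C, fun τ hτ => hC _ (by linarith)⟩
  anti τ τ' h1 h2 := h.anti _ _ (by linarith) (by linarith)
  nonneg τ h1 := h.nonneg _ (by linarith)
  key φ h1 h2 := by
    obtain ⟨A, B, hA, hB, hk⟩ := h.key φ h1 h2
    refine ⟨A, B, hA, hB, fun τ τ' h3 h4 => (hk _ _ (by linarith) (by linarith)).trans ?_⟩
    have h5 := h.anti (τ / 2) (τ' / 2) (by linarith) (by linarith)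
    refine add_le_add le_rfl (mul_le_mul_of_nonneg_left (Real.sqrt_le_sqrt ?_) hB)
    exact mul_le_mul_of_nonneg_right (by linarith) (by linarith)

/-- the rescaled flow in the time `s = 2 τ`, with all its properties from a time `s₁` on -/
theorem exists_flow {μ : ℝ → Measure E} (hμ : IsIntegralBrakkeFlow m μ) (h0 : μ 0 univ < ⊤)
    (x₀ : E) {t₀ : ℝ} (ht : 0 < t₀) {p : Measure E → Prop}
    (hp : ∀ᶠ τ in atTop, p (NN m μ x₀ t₀ τ)) :
    ∃ (N : ℝ → Measure E) (T : ℝ → E → Submodule ℝ E) (H : ℝ → E → E) (s₁ : ℝ),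
      RF m N T H s₁ ∧ Energy N (fun s => FA (N s)) s₁ ∧
      (∀ᵐ s : ℝ, s₁ ≤ s → IntSl m (N s) (T s)) ∧ (∀ s, s₁ ≤ s → p (N s)) ∧
      limitSet N = tangentSlices m μ x₀ t₀ ∧
      ((limitSet N).Subsingleton → TangentFlowUnique m μ x₀ t₀) := by
  obtain ⟨T, H, s₀, hRF, hint⟩ := exists_RF' hμ h0 x₀ ht
  obtain ⟨T', H', hB, -⟩ := A1.exists_BF_slice hμ
  obtain ⟨τ₁, hτ₁⟩ := eventually_atTop.1 hp
  set s₁ := max s₀ (max (2 * H552.tau0 t₀) (2 * τ₁)) with hs₁
  have k1 : s₀ ≤ s₁ := le_max_left _ _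
  have k2 : 2 * H552.tau0 t₀ ≤ s₁ := (le_max_left _ _).trans (le_max_right _ _)
  have k3 : 2 * τ₁ ≤ s₁ := (le_max_right _ _).trans (le_max_right _ _)
  have hlim : limitSet (fun s => NN m μ x₀ t₀ (s / 2)) = tangentSlices m μ x₀ t₀ := by
    rw [limitSet_half, H552.tangentSlices_eq hB h0 x₀ ht]
  refine ⟨fun s => NN m μ x₀ t₀ (s / 2), T, H, s₁, hRF.later k1, ?_, ?_, ?_, hlim, ?_⟩
  · have h1 := energy_half (energy_NN hB h0 x₀ ht) k2
    have e : (fun s => H552.th m μ x₀ t₀ (s / 2)) = fun s => FA (NN m μ x₀ t₀ (s / 2)) := by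
      ext s
      rw [H552.th_eq]
      rfl
    rwa [e] at h1
  · filter_upwards [hint] with s h1 h2 using h1 (k1.trans h2)
  · exact fun s hs => hτ₁ _ (by linarith)
  · intro h
    rw [unique_iff hB h0 x₀ ht, ← hlim]
    exact h

/-- if one tangent flow vanishes, all do -/
theorem unique_of_zero {μ : ℝ → Measure E} (hμ : IsIntegralBrakkeFlow m μ) (h0 : μ 0 univ < ⊤)
    (x₀ : E) {t₀ : ℝ} (ht : 0 < t₀) (hκ : (0 : Measure E) ∈ tangentSlices m μ x₀ t₀) :
    TangentFlowUnique m μ x₀ t₀ := by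
  obtain ⟨N, T, H, s₁, h, hen, -, -, hlim, hu⟩ := exists_flow hμ h0 x₀ ht (p := fun _ => True)
    (Eventually.of_forall fun _ => trivial)
  rw [← hlim] at hκ
  have key : ∀ κ ∈ limitSet N, κ = 0 := by
    intro κ hκ'
    have hlf := hκ'.1
    have h1 := tendsto_nhds_unique (tendsto_FA h hen.slow hκ').2 (tendsto_FA h hen.slow hκ).2
    have hne := near_neBot (Gd := univ) h hen.slow (Eventually.of_forall fun _ _ => trivial) hκ'
    rw [principal_univ, inf_top_eq] at hne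
    have h2 : Integrable (fun x => rho x) κ := by simpa using h.mom_lim (κ := κ) 0
    have h3 : ∫ x, rho x ∂κ = 0 := by simpa [FA] using h1
    rw [integral_eq_zero_iff_of_nonneg (fun x => (rho_pos x).le) h2] at h3
    have h4 : ∀ᵐ x ∂κ, False := by
      filter_upwards [h3] with x hx using (rho_pos x).ne' hx
    simpa using h4
  exact hu fun κ h1 κ' h2 => (key κ h1).trans (key κ' h2).symm

variable {P : Type*} [NormedAddCommGroup P] [NormedSpace ℝ P] {J : Type*} [Fintype J]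
  {V : P → E → ℝ} {V' : P →ₗ[ℝ] (E → ℝ)} {psi : J → E → ℝ}
  {lam : P → J → ℝ} {c K : ℝ} {q : ℕ} {β : ℝ}

/-- **Uniqueness of the tangent flow from a model**, given the energy comparison -/
theorem unique_of_model_of [FiniteDimensional ℝ P] (hE : Module.finrank ℝ E = m + 1)
    (hEC : EnergyCmp E m) (hM : Model m V V' psi lam c K q β) {μ : ℝ → Measure E}
    (hμ : IsIntegralBrakkeFlow m μ) (h0 : μ 0 univ < ⊤) (x₀ : E) {t₀ : ℝ} (ht : 0 < t₀)
    {k : ℕ} (hk : 1 ≤ k) (hκ : (k : ℝ≥0∞) • sig m (V 0) ∈ tangentSlices m μ x₀ t₀)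
    {M : Set (Measure E)} (hM' : ∀ᶠ τ in atTop, NN m μ x₀ t₀ τ ∈ M)
    (hSC : SC m M ((k : ℝ≥0∞) • sig m (V 0)) (V 0) c K q) : TangentFlowUnique m μ x₀ t₀ := by
  obtain ⟨N, T, H, s₁, h, hen, hint, hp, hlim, hu⟩ := exists_flow hμ h0 x₀ ht (p := (· ∈ M)) hM'
  rw [← hlim] at hκ
  have hlf := hκ.1
  obtain ⟨C, b, hC, hb, hb1, hloj⟩ := hM.loj_near hE hEC h hk rfl hSC
    (l := nearF m N T H ((k : ℝ≥0∞) • sig m (V 0)) ⊓ 𝓟 {s | IntSl m (N s) (T s)}) inf_le_left
    (((eventually_ge_atTop s₁).mono hp).filter_mono (inf_le_left.trans nearF_atTop))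
    ((inf_le_right : _ ≤ 𝓟 {s | IntSl m (N s) (T s)}) (mem_principal_self _))
  exact hu (subsingleton_of_loj h hen hint hκ hC hb hb1 hloj)

/-- multiplicity one: no compactness hypothesis is needed -/
theorem unique_of_model_one_of [FiniteDimensional ℝ P] (hm : 0 < m)
    (hE : Module.finrank ℝ E = m + 1) (hEC : EnergyCmp E m)
    (hM : Model m V V' psi lam c K q β) {μ : ℝ → Measure E}
    (hμ : IsIntegralBrakkeFlow m μ) (h0 : μ 0 univ < ⊤) (x₀ : E) {t₀ : ℝ} (ht : 0 < t₀)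
    (hκ : sig m (V 0) ∈ tangentSlices m μ x₀ t₀) : TangentFlowUnique m μ x₀ t₀ :=
  unique_of_model_of hE hEC hM hμ h0 x₀ ht le_rfl (by simpa using hκ) (M := univ)
    (Eventually.of_forall fun _ => trivial) (sc_one' hm hE hM.tubeD univ q)

end Vale.Agent.P218N.G
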