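import Vale.Agent.P218N.G.Final

/-! Uniqueness of the tangent flow from a model when almost every slice lies in the class. -/

open MeasureTheory Set Filter Topology Metric
open scoped ENNReal NNReal RealInnerProductSpace

namespace Vale.Agent.P218N.G

open Vale.Agent.P218 Vale.Agent.P218.H313
open Vale.Agent.P218.H552 (BF NN)

set_option linter.unusedSectionVars false
set_option linter.unusedVariables false

variable {E : Type*} [NormedAddCommGroup E] [InnerProductSpace ℝ E] [FiniteDimensional ℝ E]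
  [MeasurableSpace E] [BorelSpace E]
variable {m : ℕ}

lemma ae_half {p : ℝ → Prop} (h : ∀ᵐ τ : ℝ, p τ) : ∀ᵐ s : ℝ, p (s / 2) := by
  have h1 := (Real.map_volume_mul_right (show (2⁻¹ : ℝ) ≠ 0 by norm_num))
  have h2 : ∀ᵐ τ ∂(Measure.map (fun s : ℝ => s * 2⁻¹) volume), p τ := by
    rw [h1]; exact Measure.ae_smul_measure h _
  exact ae_of_ae_map (measurable_mul_const _).aemeasurable h2

/-- the rescaled flow in the time `s = 2 τ`; a property of almost all slices is kept -/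
theorem exists_flow_ae {μ : ℝ → Measure E} (hμ : IsIntegralBrakkeFlow m μ) (h0 : μ 0 univ < ⊤)
    (x₀ : E) {t₀ : ℝ} (ht : 0 < t₀) {p : Measure E → Prop} {τ₁ : ℝ}
    (hp : ∀ᵐ τ : ℝ, τ₁ ≤ τ → p (NN m μ x₀ t₀ τ)) :
    ∃ (N : ℝ → Measure E) (T : ℝ → E → Submodule ℝ E) (H : ℝ → E → E) (s₁ : ℝ),
      RF m N T H s₁ ∧ Energy N (fun s => FA (N s)) s₁ ∧
      (∀ᵐ s : ℝ, s₁ ≤ s → IntSl m (N s) (T s) ∧ p (N s)) ∧
      limitSet N = tangentSlices m μ x₀ t₀ ∧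
      ((limitSet N).Subsingleton → TangentFlowUnique m μ x₀ t₀) := by
  obtain ⟨T, H, s₀, hRF, hint⟩ := exists_RF' hμ h0 x₀ ht
  obtain ⟨T', H', hB, -⟩ := A1.exists_BF_slice hμ
  set s₁ := max s₀ (max (2 * H552.tau0 t₀) (2 * τ₁)) with hs₁
  have k1 : s₀ ≤ s₁ := le_max_left _ _
  have k2 : 2 * H552.tau0 t₀ ≤ s₁ := (le_max_left _ _).trans (le_max_right _ _)
  have k3 : 2 * τ₁ ≤ s₁ := (le_max_right _ _).trans (le_max_right _ _)
  have hlim : limitSet (fun s => NN m μ x₀ t₀ (s / 2)) = tangentSlices m μ x₀ t₀ := by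
    rw [limitSet_half, H552.tangentSlices_eq hB h0 x₀ ht]
  refine ⟨fun s => NN m μ x₀ t₀ (s / 2), T, H, s₁, hRF.later k1, ?_, ?_, hlim, ?_⟩
  · have h1 := energy_half (energy_NN hB h0 x₀ ht) k2
    have e : (fun s => H552.th m μ x₀ t₀ (s / 2)) = fun s => FA (NN m μ x₀ t₀ (s / 2)) := by
      ext s
      rw [H552.th_eq]
      rfl
    rwa [e] at h1
  · filter_upwards [hint, ae_half hp] with s h1 h2 h3
    exact ⟨h1 (k1.trans h3), h2 (by linarith)⟩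
  · intro h
    rw [unique_iff hB h0 x₀ ht, ← hlim]
    exact h

variable {P : Type*} [NormedAddCommGroup P] [NormedSpace ℝ P] {J : Type*} [Fintype J]
  {V : P → E → ℝ} {V' : P →ₗ[ℝ] (E → ℝ)} {psi : J → E → ℝ}
  {lam : P → J → ℝ} {c K : ℝ} {q : ℕ} {β : ℝ}

/-- **Uniqueness of the tangent flow from a model**: almost all late slices lie in `M` -/
theorem unique_of_model_ae [FiniteDimensional ℝ P] (hE : Module.finrank ℝ E = m + 1)
    (hM : Model m V V' psi lam c K q β) {μ : ℝ → Measure E}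
    (hμ : IsIntegralBrakkeFlow m μ) (h0 : μ 0 univ < ⊤) (x₀ : E) {t₀ : ℝ} (ht : 0 < t₀)
    {k : ℕ} (hk : 1 ≤ k) (hκ : (k : ℝ≥0∞) • sig m (V 0) ∈ tangentSlices m μ x₀ t₀)
    {M : Set (Measure E)} {τ₁ : ℝ} (hM' : ∀ᵐ τ : ℝ, τ₁ ≤ τ → NN m μ x₀ t₀ τ ∈ M)
    (hSC : SC m M ((k : ℝ≥0∞) • sig m (V 0)) (V 0) c K q) : TangentFlowUnique m μ x₀ t₀ := by
  obtain ⟨N, T, H, s₁, h, hen, hint, hlim, hu⟩ := exists_flow_ae hμ h0 x₀ ht (p := (· ∈ M)) hM'
  rw [← hlim] at hκ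
  have hlf := hκ.1
  have hG : ∀ᶠ s in nearF m N T H ((k : ℝ≥0∞) • sig m (V 0))
      ⊓ 𝓟 {s | IntSl m (N s) (T s) ∧ N s ∈ M}, IntSl m (N s) (T s) ∧ N s ∈ M :=
    (inf_le_right : _ ≤ 𝓟 {s | IntSl m (N s) (T s) ∧ N s ∈ M}) (mem_principal_self _)
  obtain ⟨C, b, hC, hb, hb1, hloj⟩ := hM.loj_near hE (energyCmp hE) h hk rfl hSC inf_le_left
    (hG.mono fun s hs => hs.2) (hG.mono fun s hs => hs.1)
  exact hu (subsingleton_of_loj h hen hint hκ hC hb hb1 hloj)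

end Vale.Agent.P218N.G
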